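import Crest.Agent.X212.Sm10.Su3
import Crest.Agent.X212.Hd82.Defs

/-!
# Row 212 (helper10): `Hd82.CmStmt`, the regions of a face, their walls and their numbers
-/

set_option autoImplicit false
set_option linter.unusedSectionVars false
noncomputable section
open Set Function Classical
open scoped ContDiff Manifold

namespace Crest.Agent.X212.Sm10.Cm
open An M Sid48 Dr59 Num57 G75 Fk18 Sv Sw

section sys
variable {X A : Type} [TopologicalSpace X] [PreconnectedSpace X] [Nonempty X] [Fintype A] [DecidableEq A]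
  {S : Sys X A} {c e : Set A} {a x : A} {b : Bool} {π : Reg A}

theorem compl_up (h : S.IsReg π) (k : π a = some b) : ((S.w a).sd b)ᶜ ⊆ S.U (update π a none) :=
  fun x hx a' e j => by
    have q : a' ≠ a := by rintro rfl; simp at j
    exact h.compl_subset q.symm k (by rwa [update_of_ne q] at j) hx

theorem inn_of (he : S.Cell e) (h : S.Piece c π) (s : c ⊆ e) (hx : x ∈ e) (n : x ∉ c)
    (k : (S.w x).band ⊆ S.U π) : x ∈ S.inn π :=
  ⟨by_contra fun j => n (h.bd_subset j), k, fun _ j =>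
    he hx (s (h.bd_subset j)) (by rintro rfl; exact n (h.bd_subset j))⟩

theorem two_sd {U : Set X} (h : U.Nonempty) (h1 : U ⊆ (S.w a).sd false) (h2 : U ⊆ (S.w a).sd true) : False :=
  let ⟨_, k⟩ := h
  (S.w a).not_mem_sd (h1 k) (h2 k)

theorem band_ne : (S.w a).band.Nonempty := let ⟨_, k⟩ := (S.w a).ne true; ⟨_, k.1⟩

end sys

variable {κ lam : Type} [Fintype κ] [Fintype lam] [DecidableEq lam] {Lm : LM κ lam} {y : G75.YD κ lam}
  {S : Scene Lm}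

section t
variable {t : TD y S} {R : ℕ} {c : Cn S.L S.A} (hy : y.OK) (ht : t.OK R c)
include hy ht

theorem h_sub_a (hS : S.OK) : (S.M.sys.w t.h).sd true ⊆ (S.M.sys.w t.a).sd true := by
  have := S.M.con
  obtain ⟨h1, h2⟩ := Fex7.a_h hy ht
  have ne : t.h ≠ t.a := fun e => let ⟨z, hz⟩ := (S.M.sys.w t.a).ne false
    (S.M.sys.w t.a).not_mem_sd hz.2 (h2 (e ▸ hz.1))
  exact subset_union_left.trans (Wall.nest (hS.fzc ht.fz.2.1 ht.fz.1 ne) h1 h2)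

theorem ls_right (hS : S.OK) {l : S.A} (hl : l ∈ S.ls) : t.Sd true l := fun _ k =>
  h_sub_a hy ht hS (ht.ls l hl (.inr k)).1

end t

variable {P : Pk y} {z : Z0 P S} {R : ℕ} {T : ℝ} {Z : Z1 z}

theorem mem_rg {b : Bool} {π : Reg S.A} : π ∈ Z.Rg b ↔ S.M.sys.Piece ↑(insert z.t.a (pe Z.e)) π ∧
    S.M.sys.U π ⊆ (S.M.sys.w z.t.a).sd b := by simp [Z1.Rg, Fk18.Rg, TD.Pc]

theorem mem_pe {x : S.A} : x ∈ pe Z.e ↔ x ∈ Z.e.1 ∧ S.M.pin x := by simp [pe]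

theorem mem_LE {π : Reg S.A} {l : S.ls} : l ∈ LE Z.e π ↔ l.1 ∈ Z.e.1 ∧ l.1 ∈ S.M.sys.inn π :=
  Finset.mem_filter.trans (and_iff_right (Finset.mem_univ _))

variable (hz : z.OK R) (hZ : Z.OK T)
include hz hZ

theorem a_np : ¬S.M.pin z.t.a ∧ z.t.a ∉ S.ls := let k := hz.cn.ok.fz _ hz.t.fz.1; ⟨k.1, k.2.1⟩

theorem e_cases {x : S.A} (h : x ∈ Z.e.1) : x = z.t.a ∨ S.M.pin x ∨ x ∈ S.ls :=
  (hZ.e h).imp_right fun k => (hz.cn.cl.mem _ _ hZ.c).2.2 x (hZ.sub k)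

theorem ins_sub : (↑(insert z.t.a (pe Z.e)) : Set S.A) ⊆ Z.e.1 := fun _ k =>
  (Finset.mem_insert.1 k).elim (fun e => e ▸ hZ.a) fun k => (mem_pe.1 k).1

theorem ls_nm {l : S.A} (h : l ∈ S.ls) : l ∉ (↑(insert z.t.a (pe Z.e)) : Set S.A) := fun k =>
  (Finset.mem_insert.1 k).elim (fun e => (a_np hz hZ).2 (e ▸ h)) fun k => hz.cn.ok.lsp l h (mem_pe.1 k).2

/-- the numbers of the regions, cut out of `U` -/
theorem sum_nu (b : Bool) (i : S.L) {U : Set S.X.M} (h : HL S.X.I S.M.o U)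
    (s : (S.M.sys.w z.t.a).sd b ⊆ U) : (∀ π ∈ Z.Rg b, HL S.X.I S.M.o (z.t.op π ∩ U)) ∧
    ∑ π ∈ Z.Rg b, ν S i (z.t.op π ∩ U) = ν S i U ∧ (Z.Rg b).card = (z.t.sd b (pe Z.e)).card + 1 := by
  have := S.M.con
  have hc := cell_pe hz hZ
  have ha := a_pe hz hZ
  have hd : ∀ x, x ∈ z.t.sd b (pe Z.e) ↔ x ∈ pe Z.e ∧ (S.M.sys.w x).band ⊆ (S.M.sys.w z.t.a).sd b :=
    fun x => Finset.mem_filter
  have c' : S.M.sys.Cell ↑(z.t.sd b (pe Z.e)) := hc.mono fun x q => Finset.mem_insert_of_mem ((hd x).1 q).1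
  obtain ⟨h1, h2⟩ := sum_in i h c' fun x q => ⟨(mem_pe.1 ((hd x).1 q).1).2, ((hd x).1 q).2.trans s⟩
  exact ⟨fun π q => h1 _ (mem_pcs.2 (piece_up hc ha hd (mem_rg.1 q).1 (mem_rg.1 q).2)),
    (sum_up hc ha hd (fun _ => mem_rg) fun ρ => ν S i (S.M.sys.U ρ ∩ U)).trans h2, by
      rw [← card_pcs c', Finset.card_eq_sum_ones, Finset.card_eq_sum_ones,
        sum_up hc ha hd (fun _ => mem_rg) fun _ => 1]⟩

theorem nb (b : Bool) (π : Reg S.A) (q : π ∈ Z.Rg b) : ∃ β sg l2, NbR z.t Z.i π β sg l2 := by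
  have := S.M.con
  unfold NbR
  split_ifs with j
  · obtain rfl := side_eq (mem_rg.1 q).1.toIsReg (mem_rg.1 q).2 j
    exact nb_hl ((sum_nu hz hZ false Z.i (hl_sd (pin_s hz.p.y hz.t) false)
      ((a_sub_h hz.p.y hz.t).trans (h_sub_s hz.p.y hz.t))).1 π q) _
  · exact nb_hl (inter_univ (z.t.op π) ▸ (sum_nu hz hZ b Z.i hl0 (subset_univ _)).1 π q) _

theorem left (π : Reg S.A) (q : π ∈ Z.Rg false) : LE Z.e π = ∅ ∧ ou Z.e π = π :=
  have := S.M.con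
  have k : ∀ x ∈ S.ls, x ∉ S.M.sys.inn π := fun _ h j =>
    two_sd band_ne (j.2.1.trans (mem_rg.1 q).2) (ls_right hz.p.y hz.t hz.cn.ok h)
  ⟨Finset.eq_empty_of_forall_notMem fun l h => k _ l.2 (mem_LE.1 h).2,
    funext fun x => if_neg fun h => k x h.2.1 h.2.2⟩

theorem cyl_inn {b : Bool} {π : Reg S.A} (q : π ∈ Z.Rg b) :
    cylW Z.e ∩ S.M.sys.inn π = Subtype.val '' (↑(LE Z.e π) : Set S.ls) := by
  refine Subset.antisymm (fun x k => ?_) ?_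
  · rcases e_cases hz hZ k.1.1 with rfl | j | j
    exacts [((mem_rg.1 q).1.not_inn _ (Finset.mem_insert_self _ _) k.2).elim, (k.1.2 j).elim,
      ⟨⟨x, j⟩, mem_LE.2 ⟨k.1.1, k.2⟩, rfl⟩]
  · rintro _ ⟨l, k, rfl⟩
    exact ⟨⟨(mem_LE.1 k).1, hz.cn.ok.lsp _ l.2⟩, (mem_LE.1 k).2⟩

theorem right (h : Z.Sm) (ρ : Reg S.A) (hρ : ρ ∈ Z.Rg false) (aρ : ρ z.t.a = some false) (π : Reg S.A)
    (hπ : π ∈ Z.Rg true) (aπ : π z.t.a = some true) :
    ∃ π₀ β sg l2, S.M.sys.Piece ↑(pe Z.e) π₀ ∧ S.Nb Z.i (S.M.sys.U π₀) β sg l2 ∧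
      β = bR z.t Z.i π + bR z.t Z.i ρ - z.t.β₀ ∧
      l2 - sg = sR z.t Z.i π + sR z.t Z.i ρ - (z.t.l₀ - z.t.s₀) ∧
      (∀ ρ', S.In Z.e π₀ ρ' ↔ ρ' = ρ ∨ S.In Z.e π ρ') ∧ ¬S.In Z.e π ρ ∧
      cylW Z.e ∩ S.M.sys.inn π₀ = insert z.t.a (Subtype.val '' (↑(LE Z.e π) : Set S.ls)) := by
  have := S.M.con
  have hc := cell_pe hz hZ
  have ma : z.t.a ∈ (↑(insert z.t.a (pe Z.e)) : Set S.A) := Finset.mem_insert_self _ _
  obtain ⟨r1, r2⟩ := mem_rg.1 hρ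
  obtain ⟨p1, p2⟩ := mem_rg.1 hπ
  obtain ⟨π₀, m0, p, b0, hp, hm⟩ := Tm38.pcs_insert hc (a_pe hz hZ)
  have m0 := mem_pcs.1 m0
  have u1 : S.M.sys.U ρ = S.M.sys.U π₀ ∩ (S.M.sys.w z.t.a).sd false := by
    rw [(Sys.existsUnique_adj hc ma false).unique ⟨r1, aρ⟩ ⟨mem_pcs.1 ((hm _).2 (.inr (.inl rfl))), (hp _).1⟩,
      (hp _).2]
  have u2 : S.M.sys.U π = S.M.sys.U π₀ ∩ (S.M.sys.w z.t.a).sd true := by
    rw [(Sys.existsUnique_adj hc ma true).unique ⟨p1, aπ⟩ ⟨mem_pcs.1 ((hm _).2 (.inl rfl)), (hp _).1⟩,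
      (hp _).2]
  have s1 : S.M.sys.U ρ ⊆ S.M.sys.U π₀ := u1 ▸ inter_subset_left
  have s2 : S.M.sys.U π ⊆ S.M.sys.U π₀ := u2 ▸ inter_subset_left
  have e0 : z.t.op ρ ∩ z.t.op π = S.M.sys.U π₀ := by
    refine Subset.antisymm (fun x k => ?_) fun x k => ⟨?_, ?_⟩
    · rcases (S.M.sys.w z.t.a).mem_cases true x with j | j | j
      exacts [s2 ((U_eq p1.toIsReg p2).ge ⟨k.2, j⟩), b0 ((S.M.sys.w z.t.a).core_subset j),
        s1 ((U_eq r1.toIsReg r2).ge ⟨k.1, j⟩)]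
    · exact (Classical.em _).elim (fun j => U_up (u1.ge ⟨k, j⟩)) fun j => compl_up r1.toIsReg aρ j
    · exact (Classical.em _).elim (fun j => U_up (u2.ge ⟨k, j⟩)) fun j => compl_up p1.toIsReg aπ j
  have so : (S.M.sys.w z.t.a).sd false ⊆ z.t.op π := fun x k =>
    compl_up p1.toIsReg aπ ((S.M.sys.w z.t.a).not_mem_sd k)
  have lπ : HL S.X.I S.M.o (z.t.op π) :=
    inter_univ (z.t.op π) ▸ (sum_nu hz hZ true Z.i hl0 (subset_univ _)).1 π hπ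
  obtain ⟨k1, k2, k3⟩ := sum_nu hz hZ false Z.i lπ so
  obtain ⟨β, sg, l2, n⟩ := nb_hl (e0 ▸ k1 ρ hρ) Z.i
  have vπ := nu_nb (t := z.t) (i := Z.i) (π := π) lπ fun β sg l2 n => by
    rw [NbR, if_neg (by simp [aπ])]; exact n
  have v := fun π' (q : π' ∈ (Z.Rg false).erase ρ) => nu_nb (t := z.t) (i := Z.i) (π := π')
    (k1 π' (Finset.mem_of_mem_erase q)) fun β sg l2 n => by
      have q0 := (Finset.mem_erase.1 q).1
      replace q := (Finset.mem_erase.1 q).2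
      have n0 : π' z.t.a = none := by
        obtain ⟨ρ', h1, h2, h3⟩ := h.one false
        have : ρ' = ρ := by_contra fun j => by simpa [aρ] using h3 ρ hρ (Ne.symm j)
        exact h3 π' q (this ▸ q0)
      have e : z.t.op π' = S.M.sys.U π' := by rw [TD.op, update_eq_self_iff.2 n0.symm]
      rw [NbR, if_neg (by simp [n0])]
      rwa [inter_eq_left.2 (e ▸ (mem_rg.1 q).2.trans so)] at n
  obtain ⟨t1, t2⟩ := h.sL
  rw [← Finset.add_sum_erase _ _ hρ] at t1 t2 k2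
  rw [Finset.sum_congr rfl fun π' q => (v π' q).1] at t1
  rw [Finset.sum_congr rfl fun π' q => (v π' q).2] at t2
  rw [e0] at k2
  have c1 : (((Z.Rg false).erase ρ).card : ℝ) = (z.t.sd false (pe Z.e)).card := by
    rw [Finset.card_erase_of_mem hρ, k3, Nat.add_sub_cancel]
  refine ⟨π₀, β, sg, l2, m0, n, ?_, ?_, fun ρ' => ⟨fun j => ?_, ?_⟩,
    fun j => two_sd r1.toIsReg.nonempty r2 (j.2.trans p2), ?_⟩
  · rw [(Tm38.nb_nu n).1, vπ.1, ← k2]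
    simp only [Finset.sum_add_distrib, Finset.sum_sub_distrib, Prod.fst_sum, Prod.snd_sum, Finset.sum_const,
      nsmul_eq_mul, c1, Prod.fst_add, Prod.snd_add] at t1 ⊢
    linarith
  · rw [(Tm38.nb_nu n).2, vπ.2, ← k2]
    simp only [Finset.sum_sub_distrib, Prod.fst_sum, Prod.snd_sum, Prod.fst_add, Prod.snd_add, add_div,
      Finset.sum_div] at t2 ⊢
    linarith
  · obtain ⟨_ | _, k⟩ := j.1.side Z.e.2 hZ.a
    · have := (h.ins false ρ hρ ρ').1 ⟨j.1, u1 ▸ subset_inter j.2 k⟩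
      rw [(left hz hZ ρ hρ).1, (left hz hZ ρ hρ).2] at this
      exact .inl (by simpa using this)
    · exact .inr ⟨j.1, u2 ▸ subset_inter j.2 k⟩
  · rintro (rfl | j)
    exacts [⟨(left hz hZ _ hρ).2 ▸ (h.pc false _ hρ).1, s1⟩, ⟨j.1, j.2.trans s2⟩]
  · have sub : (↑(pe Z.e) : Set S.A) ⊆ Z.e.1 := fun _ k => (mem_pe.1 k).1
    rw [← cyl_inn hz hZ hπ]
    refine Subset.antisymm (fun x k => ?_) (insert_subset ⟨⟨hZ.a, (a_np hz hZ).1⟩,
      inn_of Z.e.2 m0 sub hZ.a (a_pe hz hZ) b0⟩ fun x k => ⟨k.1, inn_of Z.e.2 m0 sub k.1.1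
        (fun j => k.1.2 (mem_pe.1 j).2) (k.2.2.1.trans s2)⟩)
    rcases e_cases hz hZ k.1.1 with j | j | j
    exacts [.inl j, (k.1.2 j).elim, .inr ⟨k.1, inn_of Z.e.2 p1 (ins_sub hz hZ) k.1.1 (ls_nm hz hZ j)
      (u2 ▸ subset_inter k.2.2.1 (ls_right hz.p.y hz.t hz.cn.ok j))⟩]

theorem act (s : S.A ⊕ Unit → ℝ) (hs : s ∈ Job.cl Z.ce) (x : S.A) (h : (Z.F.Θ s).2 x ≠ 0) :
    x = z.t.a ∨ z.t.Sd false x ∨ z.t.Sd true x := by
  refine or_iff_not_imp_left.2 fun n => ?_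
  have m : x ∈ Z.σ ∪ S.fz := by
    by_contra k
    rw [Finset.mem_union, not_or] at k
    have : s (.inl x) = 0 := hs.1 (.inl x) false (if_neg fun j => k.1 (hZ.sub j))
    simp [Nd18.Pr.Θ, update_of_ne n, Jb7.thS, k.2, this, Jb7.rho] at h
  rcases hz.t.side _ _ hZ.c x m with j | rfl | j | j
  exacts [(n j).elim, .inr (Fex7.a_h hz.p.y hz.t).2, .inl j, .inr (j.trans (h_sub_a hz.p.y hz.t hz.cn.ok))]

omit hz hZ in
/-- **CM** -/
theorem cm : Hd82.CmStmt Lm := fun _ _ S z _ Z _ hz hZ h => by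
  have := S.M.con
  have e0 : {a ∈ Z.e.1 | S.M.pin a} = ↑(pe Z.e) := Set.ext fun _ => mem_pe.symm
  refine ⟨⟨{a ∈ Z.e.1 | S.M.pin a}, Z.e.2.mono fun _ k => k.1⟩, rfl, fun x k => hZ.F.mem ?_, act hz hZ,
    fun x k j => ?_, nb hz hZ, fun b π q => ?_, fun b π q x k o j => ?_, fun b π q l k => ?_, left hz hZ,
    fun b π q n => ⟨⟨(mem_rg.1 q).1.toIsReg, fun x k => ?_, fun x k => (mem_rg.1 q).1.not_inn x
      (Finset.mem_insert_of_mem (mem_pe.2 k))⟩, cyl_inn hz hZ q⟩,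
    fun ρ a b π c d => by simpa only [e0] using right hz hZ h ρ a b π c d⟩
  · rcases e_cases hz hZ k.1 with rfl | j | j
    exacts [Finset.mem_union_left _ hz.t.fz.1, (k.2 j).elim, Finset.mem_union_right _ j]
  · rcases e_cases hz hZ k with rfl | i | i
    · obtain ⟨x, hx⟩ := (S.M.sys.w z.t.a).ne true
      exact ((S.M.sys.w z.t.a).not_mem_sd hx.2 (j hx.1)).elim
    exacts [i, (two_sd band_ne j (ls_right hz.p.y hz.t hz.cn.ok i)).elim]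
  · rcases e : π z.t.a with _ | o
    exacts [.inl rfl, .inr (congrArg _ (side_eq (mem_rg.1 q).1.toIsReg (mem_rg.1 q).2 e))]
  · unfold ou at j
    split_ifs at j with i
    · exact .inr ⟨fun e => (a_np hz hZ).2 (e ▸ i.2.1), (Option.some.inj j).symm⟩
    · exact .inl ⟨(Finset.mem_insert.1 ((mem_rg.1 q).1.bd_subset (Sys.mem_bd_of j))).resolve_right
        fun m => k.2 (mem_pe.1 m).2, j⟩
  · have e : ou Z.e π l = some true := if_pos ⟨(mem_LE.1 k).1, l.2, (mem_LE.1 k).2⟩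
    exact ⟨fun j => by simp [j, Rf65.hp] at e, fun j => (a_np hz hZ).2 (j ▸ l.2), e⟩
  · exact mem_pe.1 ((Finset.mem_insert.1 ((mem_rg.1 q).1.bd_subset k)).resolve_left
      (by rintro rfl; exact k n))

end Crest.Agent.X212.Sm10.Cm
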