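import Crest.Agent.X212.Dgr80.Fen
import Crest.Agent.X212.Pat85.Fj
import Crest.Agent.X212.Add46.Ch
import Crest.Agent.X212.Sb84.Defs

/-!
# Row 212 (helper10): the curvature is square integrable away from the ends with curved limits
(the body of `Sb84.L2J`)
-/

set_option autoImplicit false
set_option linter.unusedSectionVars false
noncomputable section
open scoped Manifold ContDiff Topology InnerProductSpace Classical
open MeasureTheory Set Function Filter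

namespace Crest.Agent.X212.Sm10.L2
open An Wz78 Nd18 Cyf70 Nka63 Dgr80 Bki64
open Rdc90 (Flt Bs)
open Tmp64 (AdmOn admOn_univ)

section gen
variable {E3 : Type} [NormedAddCommGroup E3] [NormedSpace ℝ E3] [FiniteDimensional ℝ E3]
  [MeasurableSpace E3] [BorelSpace E3]
  {H3 : Type} [TopologicalSpace H3] {I3 : ModelWithCorners ℝ E3 H3} [I3.Boundaryless]
  {Y : Type} [TopologicalSpace Y] [ChartedSpace H3 Y] [IsManifold I3 ∞ Y] [T2Space Y]
  [MeasurableSpace Y] [BorelSpace Y] [SecondCountableTopology Y] [CompactSpace Y]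
  {κ : Type} [Fintype κ] {lam : Type} [Fintype lam] {D : YD I3 Y κ lam}
  {E : Type} [NormedAddCommGroup E] [NormedSpace ℝ E] [FiniteDimensional ℝ E]
  [MeasurableSpace E] [BorelSpace E]
  {HM : Type} [TopologicalSpace HM] {I : ModelWithCorners ℝ E HM} [I.Boundaryless]
  {M : Type} [TopologicalSpace M] [ChartedSpace HM M] [IsManifold I ∞ M]
  [MeasurableSpace M] [BorelSpace M] [T2Space M] [SecondCountableTopology M]
  {B : Base M (Option κ) lam} {G : Geo I M (Option κ) lam} {K : Nk D B G} {r : ℕ}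
  {c : Cfg M (Option κ) lam r} {l : Filter ℝ} {β : YC Y κ lam}

theorem Fg_sh {c : Cfg (Y × ℝ) (Option κ) lam r} {O : Set (Y × ℝ)} {x : Y × ℝ} {s : ℝ}
    (h : AdmOn c D.B D.G O) (hx : Tmp64.sq (· + s) x ∈ O) (t : Option κ × Option κ) :
    (sh s c).m.Fg D.Z (sh s c).W x t = c.m.Fg D.Z c.W (Tmp64.sq (· + s) x) t := by
  have e : ∀ k, D.Z.c t.1 t.2 k x = D.Z.c t.1 t.2 k (Tmp64.sq (· + s) x) := fun k => by
    rcases t with ⟨_ | _, _ | _⟩ <;> cases k <;> rfl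
  refine congrArg (fun T => c.m.pg (Tmp64.sq (· + s) x) (hsL T)) ?_
  have e1 := fun a b => dv_sh (D := D) (h.conn.sm b _ hx) a
  exact congrArg₂ (· - ·) (congrArg₂ (· + ·) (congrArg₂ (· - ·) (e1 _ _) (e1 _ _)) rfl)
    (Finset.sum_congr rfl fun k _ => congrArg (· • c.W k (Tmp64.sq (· + s) x)) (e k))

/-- near a flat `t`-invariant configuration the curvature is small -/
theorem F_cy (hD : D.OK) (hβ : D.Adm β) (hf : Flt D β) : ∃ C, ∀ r (c : Cfg (Y × ℝ) (Option κ) lam r) u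
    (ζ : Circle) O δ, AdmOn c D.B D.G O → Cl D.Z c (cy β) u (fun _ => ζ) O 1 δ → δ ≤ 1 →
      ∀ x ∈ O, ‖c.m.Fg D.Z c.W x‖ ^ 2 ≤ C * δ := by
  obtain ⟨C, k⟩ := (q_bd hD.B isOpen_univ (admOn_univ.2 hβ.adm) (cwin_cpt 0 1) (subset_univ _)).exists
  refine ⟨Fintype.card (Option κ × Option κ) * C, fun r c u ζ O δ hc h hδ x hx => ?_⟩
  have e : Tmp64.sq (· + x.2) (x.1, 0) = x := by simp [Tmp64.sq]
  have hx' : Tmp64.sq (· + x.2) (x.1, 0) ∈ O := e.symm ▸ hx
  have := fun t => (abs_le.1 ((k r _ _ ζ _ δ (admOn_sh hc x.2) (h.sh x.2) hδ (x.1, 0)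
    ⟨hx', trivial, by simp⟩).1 t t)).2
  simp only [qF, real_inner_self_eq_norm_sq] at this
  rw [PiLp.norm_sq_eq_of_L2, mul_assoc, ← nsmul_eq_mul, ← Finset.card_univ, ← Finset.sum_const]
  refine Finset.sum_le_sum fun t _ => ?_
  have h1 := this t
  rw [show (cy β).m.Fg D.G.F (cy β).W (x.1, 0) = 0 from hf _] at h1
  have h2 : ‖(sh x.2 c).m.Fg D.G.F (sh x.2 c).W (x.1, 0) t‖ ^ 2 ≤ C * δ := by simpa using h1
  exact (congrArg (‖·‖ ^ 2) ((Fg_sh hc hx' t).trans (by rw [e]))).ge.trans h2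

theorem dk_F (hD : D.OK) (h : Eqv71.Ad0 c B G) (hβ : D.Adm β) (hf : Flt D β) {d : ℝ}
    (d0 : 0 < d) {ζ : Circle} (hl : IsEnd l) (H : K.ELim d c β ζ l) :
    Dk K (fun x => ‖c.m.Fg G.F c.W x‖ ^ 2) l := by
  obtain ⟨u, S, a, b, -, H⟩ := H
  obtain ⟨C, H⟩ := H 1
  obtain ⟨C', k⟩ := F_cy hD hβ hf
  have t : Tendsto (fun s : ℝ => C * Real.exp (-d * |s|)) l (𝓝 (C * 0)) :=
    (Real.tendsto_exp_atBot.comp (hl.far.const_mul_atTop_of_neg (neg_neg_of_pos d0))).const_mul C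
  refine ⟨C' * C, d, d0, ?_⟩
  filter_upwards [hl.ev a 1, t.eventually (ge_mem_nhds (show C * 0 < 1 by simp))] with s h1 h2 x hx e
  have h3 := Ioo_subset_Icc_self.trans h1
  have h4 := O_sub K zero_le_one hx
  have h5 := K.ψ.map_target h4
  have A := Eqv71.admOn_pb K h (h3.trans b)
  have := k _ _ _ _ _ _ A (cl_of_cls (c := K.pb (noz c)) hβ A
    ⟨(H s h3).op, (H s h3).m, (H s h3).A, (H s h3).P⟩) h2 (K.ψ.symm x)
    ⟨trivial, by rw [K.snd_symm h4, e]; simp⟩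
  have e1 : (K.pb c).m.Fg D.Z (K.pb c).W (K.ψ.symm x) = c.m.Fg G.F c.W (K.ψ (K.ψ.symm x)) :=
    K.rel.Fg h5 c.W
  rw [K.ψ.right_inv h4] at e1
  rw [abs_of_nonneg (sq_nonneg _), mul_assoc, ← e1]
  exact this

theorem sm_F (hB : B.OK I) (A : c.Adm B G) : Sm I fun x => ‖c.m.Fg G.F c.W x‖ ^ 2 := fun x => by
  rw [show (fun x => ‖c.m.Fg G.F c.W x‖ ^ 2) = fun x => ∑ s, ⟪c.m.Fg G.F c.W x s, c.m.Fg G.F c.W x s⟫_ℝ from
    funext fun x => by rw [PiLp.norm_sq_eq_of_L2]; simp only [real_inner_self_eq_norm_sq]]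
  exact Pj41.FSm.sum' fun s _ => have k := fsm_Fg hB isOpen_univ (admOn_univ.2 A) (x := x) trivial s
    fsm_inner k k

theorem int_O {f : M → ℝ} (hf : Sm I f) (hb : K.p = none → Dk K f atBot) (ht : K.q = none → Dk K f atTop) :
    IntegrableOn f (O K 5) G.F.μ :=
  (int_cut hf hb ht).integrableOn.congr_fun (fun x hx => by
    beta_reduce
    rw [cut_τ_one K (by norm_num) (dp_mono K (by norm_num) (O_sub_dp K hx)), one_mul])
    (isOpen_O K).measurableSet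

end gen

open M Fin37
open An.Job (Sol)
variable {Wi : Type} {X : Mf 4} {A κ lam : Type} [Fintype A] [Fintype κ] [Fintype lam]
  [DecidableEq lam] {M : Mark X A κ} {W : World M} {N : ML M lam}
  {Λ : Lns W N} {A' h : Type} [Fintype A'] [DecidableEq A'] [Fintype h] {r n : ℕ}
  {J : Job Wi Λ A' h r n}

/-- **L2E** -/
theorem l2 (hJ : J.OK) (σ) (hσ : σ ∈ J.𝒦) (c : M.Cl) (q) (y : J.Obc c) (C : Set (W.Z c).M) (h : Sol σ q y)
    (_hC : IsClosed C) (H : ∀ a b (ha : Act J.m c a (some b) (J.Θ y.s)),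
      Disjoint C (J.K c a _ _ ha).ψ.target ∨
      (∃ γ, Bs (J.xs a).D γ ∧ (J.xs a).D.Eqv (y.β a b) γ) ∧ ∃ d > 0,
        (J.K c a _ _ ha).ELim d y.x (y.β a b) (y.ζ a b) (bif b then atBot else atTop)) :
    IntegrableOn (fun z => ‖y.x.m.Fg (J.G c y.s).F y.x.W z‖ ^ 2) C (J.G c y.s).F.μ := by
  have s := sm_F (Λ.B_ok J.m c) h.sol.toAdm
  have i0 : IntegrableOn (fun z => ‖y.x.m.Fg (J.G c y.s).F y.x.W z‖ ^ 2) (core J c y.s 5) (J.G c y.s).F.μ :=
    s.continuous.continuousOn.integrableOn_compact (Pat85.cpt hJ c y.s ⟨σ, hσ, h.cell, h.inf⟩ 5)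
  refine (i0.union (integrableOn_finite_iUnion (t := fun i : Ix J c y.s => C ∩ O (nk J i) 5).2 ?_)).mono_set
    fun z hz => or_iff_not_imp_left.2 fun k => ?_
  · rintro ⟨⟨a, b⟩, ha⟩
    have k := hJ.nk c a b _ ha
    rcases b with _ | b
    · exact (int_O s (fun e => by simpa using k.lo.symm.trans e)
        fun e => by simpa using k.hi.symm.trans e).mono_set inter_subset_right
    rcases H a b ha with j | ⟨⟨γ, j1, j2⟩, d, d0, j⟩
    · rw [(j.mono_right (O_sub _ (by norm_num))).inter_eq]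
      exact integrableOn_empty
    have ad : (J.xs a).D.Adm (y.β a b) :=
      ⟨(h.crit a ⟨ha.2.2.2, ha.1⟩ b).sol.toAdm, (h.crit a ⟨ha.2.2.2, ha.1⟩ b).tmp⟩
    have f := Add46.flt_eqv j1.ok j1.adm ad (Add46.eqv_symm j1.ok ad j1.adm j2) j1.flat
    cases b
    · exact (int_O s (fun e => by simpa using k.lo.symm.trans e) fun _ =>
        dk_F j1.ok (Eqv71.ad0 h.sol.toAdm) ad f d0 isEnd_top j).mono_set inter_subset_right
    · exact (int_O s (fun _ => dk_F j1.ok (Eqv71.ad0 h.sol.toAdm) ad f d0 isEnd_bot j)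
        fun e => by simpa using k.hi.symm.trans e).mono_set inter_subset_right
  · simp only [core, mem_ofPred_eq, not_forall, not_not] at k
    exact let ⟨i, k⟩ := k; mem_iUnion.2 ⟨i, hz, k⟩

/-- **L2E**: `Sb84.L2J` -/
theorem l2J (J : Job Wi Λ A' h r n) : Sb84.L2J J :=
  fun hJ σ hσ c q y C h hC H => l2 hJ σ hσ c q y C h hC H

end Crest.Agent.X212.Sm10.L2
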