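import Crest.Agent.X212.Flo2.Iso
import Crest.Agent.X212.Pb50.Main
import Crest.Agent.X212.Eqv71.Gau

/-!
# Row 212, LV-NAT (helper10), part 0: configurations along an isomorphism of backgrounds
-/

set_option autoImplicit false
set_option linter.unusedSectionVars false
noncomputable section
open scoped Manifold ContDiff Topology InnerProductSpace
open MeasureTheory Set Function Filter

namespace Crest.Agent.X212.Sm10.Nt
open An Sw Sob92 Cyf70
open Wz78 (SA nab curv Con trE trE_comm inner_hsL_skw)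
open Eqv71 (sq2 sq2_mul Itw LG lg_of_geq rot4 sum_rot4 comp_proj map_cs inner_trn')
open Pb50 (LA th)
open M (Mf)

variable {κ lam ν : Type} [Fintype κ] [Fintype lam] [Fintype ν] [DecidableEq ν]
  {X X' : Mf 4} {nc nc' : ℕ}

/-- the rotation of two-forms -/
def R2 (V : Option κ → Option κ → ℝ) : F2 κ →L[ℝ] F2 κ := idx (sq2 V) (ContinuousLinearMap.id ℝ ℝ)

theorem R2_apply (V : Option κ → Option κ → ℝ) (f : F2 κ) (s : Option κ × Option κ) :
    R2 V f s = ∑ a, ∑ a', V s.1 a * V s.2 a' * f (a, a') := by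
  rw [R2, Wz78.idx_apply, Fintype.sum_prod_type]; rfl

theorem R2_R2 (V W : Option κ → Option κ → ℝ) (f : F2 κ) :
    R2 V (R2 W f) = R2 (fun a c => ∑ j, V a j * W j c) f := by
  simp only [R2, Wz78.idx_idx, sq2_mul]; rfl

theorem hm_cs_left {J : En ν} (h : J * J = -1) (hs : Skw J) (z : ℂ) (v w : Eu ν) :
    hm J (cs J z v) w = star z * hm J v w := by
  have : ∀ a, J (J a) = -a := fun a => congrArg (fun T : En ν => T a) h
  refine Complex.ext ?_ ?_ <;> simp [hm, cs, inner_add_left, real_inner_smul_left, hs v, this]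
  all_goals ring

variable {b : Bg X.I X.M κ lam ν nc} {b' : Bg X'.I X'.M κ lam ν nc'}
  {φ : OpenPartialHomeomorph X.M X'.M} {U : X.M → Option κ → Option κ → ℝ} {u : X.M → En ν}
  {α : Option κ → X.M → ℝ} {x : X.M} {c c₁ : Cfg X.M κ ν} {c' : Cfg X'.M κ ν} {v w : Eu ν}

variable (b) in
/-- forms on the tangent space -/
def Tg (x : X.M) (f : F2 κ) : Prop := R2 (fun a a' => b.B.P a a' x) f = f

theorem tg_p2 (hb : b.OK) (x : X.M) (f : F2 κ) : Tg b x (b.p2 x f) := by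
  have h := hb.B
  have e : ∀ s t, ∑ r, sq2 (fun a j => b.B.P a j x) s r * b.B.a2 x r t = b.B.a2 x s t := fun s t => by
    rw [Base.a2, ← (h.pr x).idem s.1 t.1, ← (h.pr x).idem s.2 t.2, ← (h.pr x).idem s.1 t.2,
      ← (h.pr x).idem s.2 t.1]
    simp only [Finset.sum_mul_sum, ← Finset.sum_sub_distrib, Finset.sum_div, Fintype.sum_prod_type,
      Base.a2, sq2]
    exact Finset.sum_congr rfl fun _ _ => Finset.sum_congr rfl fun _ _ => by ring
  rw [Tg, R2, Bg.p2, Wz78.idx_idx]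
  simp only [Base.sd, ← mul_div_assoc, mul_add, ← Finset.sum_div, Finset.sum_add_distrib, e,
    Eqv71.P2_st h]
  rfl

theorem tg_of (hb : b.OK) {f : F2 κ} (h : b.p2 x f = f) : Tg b x f := h ▸ tg_p2 hb x f

theorem tg_eC (hb : b.OK) (c : Cfg X.M κ ν) (x : X.M) : Tg b x (b.eC c x) := by
  rw [Tg, Bg.eC, map_sub, tg_p2 hb, tg_of hb (hb.omp x)]

theorem p_eD (hb : b.OK) (c : Cfg X.M κ ν) (x : X.M) : b.m.p x (b.eD c x) = b.eD c x := by
  have h1 : b.m.p x * b.ms x = b.ms x := by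
    rw [← hb.msp x, ← mul_assoc, ← mul_assoc, Bg.pm, mul_smul_comm, mul_add, hb.m.pidem x trivial,
      Pb50.p_vol hb]
  simp only [Bg.eD, Wz78.dir, map_add, map_sum, ← mul_apply_eq_comp (b.m.p x), h1,
    (hb.m.cl x trivial).pl]

theorem skw_jp (hb : b.OK) (x : X.M) : Skw (b.jp x) := fun v w => by
  rw [Bg.jp, mul_apply_eq_comp, hb.m.Jsk, hb.m.psym x trivial, ← mul_apply_eq_comp, ← Pb50.Jp hb]

theorem con_W (hb : b.OK) (hc : b.Adm c) : Con X.I b.B.P (b.W c) :=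
  ⟨fun a x => (hb.cc.sm a x).add ((hc.sa a x).smul (Pb50.sa_jp hb x)), fun a x => by
    simp only [Bg.W, smul_add, Finset.sum_add_distrib, hb.cc.proj, smul_smul, ← Finset.sum_smul,
      hc.pa]⟩

variable (φ U u α) in
/-- `c'` is the image of `c` at `x` -/
def Tr (c : Cfg X.M κ ν) (c' : Cfg X'.M κ ν) (x : X.M) : Prop :=
  (∀ j, c'.a j (φ x) = ∑ a, U x j a * (c.a a x - α a x)) ∧ c'.Φ (φ x) = u x (c.Φ x)

variable (φ U u α) in
/-- the image -/
def psh (c : Cfg X.M κ ν) : Cfg X'.M κ ν :=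
  ⟨fun j y => ∑ a, U (φ.symm y) j a * (c.a a (φ.symm y) - α a (φ.symm y)),
    fun y => u (φ.symm y) (c.Φ (φ.symm y))⟩

variable (φ U u α) in
/-- the preimage -/
def pul (c' : Cfg X'.M κ ν) : Cfg X.M κ ν :=
  ⟨fun a x => α a x + ∑ j, U x j a * c'.a j (φ x), fun x => trn (u x) (c'.Φ (φ x))⟩

theorem tr_psh (hx : x ∈ φ.source) (c : Cfg X.M κ ν) : Tr φ U u α c (psh φ U u α c) x :=
  ⟨fun j => by simp only [psh, φ.left_inv hx], by simp only [psh, φ.left_inv hx]⟩

variable (h : b.Iso b' φ U u α) (hb : b.OK) (hb' : b'.OK) (hx : x ∈ φ.source)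
include h hb hb'

theorem lg : ∃ v, LG b.B b.G b'.B b'.G φ.source φ U v :=
  h.g.imp fun _ g => lg_of_geq g hb.B hb.G hb'.B hb'.G φ.open_source Subset.rfl

include hx

theorem su : SA X.I u x := h.su.contMDiffAt (φ.open_source.mem_nhds hx)

theorem sα (a : Option κ) : SA X.I (α a) x := (h.sα a).contMDiffAt (φ.open_source.mem_nhds hx)

theorem tu (v : Eu ν) : trn (u x) (u x v) = b.m.p x v := congrArg (· v) (h.uu x hx)

theorem ut (v : Eu ν) : u x (trn (u x) v) = b'.m.p (φ x) v := congrArg (· v) (h.uu' x hx)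

theorem up (v : Eu ν) : u x (b.m.p x v) = u x v :=
  congrArg (· v) (comp_proj (h.uu x hx) (hb.m.pidem x trivial))

theorem pu (v : Eu ν) : b'.m.p (φ x) (u x v) = u x v := by
  rw [← ut h hb hb' hx, tu h hb hb' hx, up h hb hb' hx]

theorem uJ (v : Eu ν) : b'.m.J (u x v) = u x (b.m.J v) := (congrArg (· v) (h.J x hx)).symm

theorem ucs (z : ℂ) (v : Eu ν) : u x (cs b.m.J z v) = cs b'.m.J z (u x v) := map_cs (h.J x hx) z v

theorem uin (v w : Eu ν) : ⟪u x v, u x w⟫_ℝ = ⟪v, b.m.p x w⟫_ℝ := by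
  rw [← inner_trn', tu h hb hb' hx]

theorem u_inj (hv : b.m.p x v = v) (hw : b.m.p x w = w) : u x v = u x w ↔ v = w :=
  ⟨fun e => by rw [← hv, ← hw, ← tu h hb hb' hx, e, tu h hb hb' hx], congrArg _⟩

theorem R2_inj {f g : F2 κ} (hf : Tg b x f) (hg : Tg b x g) : R2 (U x) f = R2 (U x) g ↔ f = g := by
  obtain ⟨_, G⟩ := h.g
  refine ⟨fun e => ?_, congrArg _⟩
  have := congrArg (R2 fun a j => U x j a) e
  simp only [R2_R2, G.UU x hx] at this
  rw [← hf, this, hg]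

theorem uρ (j : Option κ) (v : Eu ν) :
    b'.m.ρ j (φ x) (u x v) = ∑ a, U x j a • u x (b.m.ρ a x v) := by
  simpa only [mul_apply_eq_comp, _root_.sum_apply, smul_apply, map_sum, map_smul] using
    congrArg (· v) (h.ρ x hx j)

theorem uρ' (a : Option κ) (v : Eu ν) :
    ∑ j, U x j a • b'.m.ρ j (φ x) (u x v) = u x (b.m.ρ a x v) := by
  obtain ⟨_, G⟩ := h.g
  simp only [uρ h hb hb' hx, Finset.smul_sum, smul_smul]
  rw [Finset.sum_comm, ← (hb.m.cl x trivial).proj a, _root_.sum_apply, map_sum]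
  exact Finset.sum_congr rfl fun k _ => by
    rw [← Finset.sum_smul, G.UU x hx, smul_apply, map_smul]

theorem uρρ (i j : Option κ) (v : Eu ν) : b'.m.ρ i (φ x) (b'.m.ρ j (φ x) (u x v)) =
    ∑ a, ∑ a', (U x i a * U x j a') • u x (b.m.ρ a x (b.m.ρ a' x v)) := by
  simp only [uρ h hb hb' hx, map_sum, map_smul, Finset.smul_sum, smul_smul]
  rw [Finset.sum_comm]
  simp only [mul_comm]

theorem uvol (v : Eu ν) : b'.vol (φ x) (u x v) = u x (b.vol x v) := by
  obtain ⟨_, L⟩ := lg h hb hb'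
  have h1 : ∀ i j k l, b'.m.ρ i (φ x) (b'.m.ρ j (φ x) (b'.m.ρ k (φ x) (b'.m.ρ l (φ x) (u x v)))) =
      rot4 (U x) (fun i j k l => u x (b.m.ρ i x (b.m.ρ j x (b.m.ρ k x (b.m.ρ l x v))))) i j k l := by
    intro i j k l
    rw [uρρ h hb hb' hx k l, show ∑ a, ∑ a', (U x k a * U x l a') • u x (b.m.ρ a x (b.m.ρ a' x v)) =
      u x (∑ a, ∑ a', (U x k a * U x l a') • b.m.ρ a x (b.m.ρ a' x v)) by
        simp only [map_sum, map_smul], uρρ h hb hb' hx]
    simp only [rot4, map_sum, map_smul, Finset.smul_sum, smul_smul, mul_assoc]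
  simp only [Bg.vol, smul_apply, _root_.sum_apply, mul_apply_eq_comp, h1, map_smul, map_sum]
  rw [sum_rot4]
  simp only [← ((L.be x hx).symm hb.B hb'.B).o]

theorem upp (v : Eu ν) : b'.pp (φ x) (u x v) = u x (b.pp x v) := by
  simp only [Bg.pp, smul_apply, sub_apply, uvol h hb hb' hx, pu h hb hb' hx, map_smul, map_sub,
    up h hb hb' hx]

theorem jpu : b'.jp (φ x) * u x = u x * b.jp x := ContinuousLinearMap.ext fun v => by
  simp only [Bg.jp, Pb50.Jp hb, mul_apply_eq_comp, pu h hb hb' hx, uJ h hb hb' hx, up h hb hb' hx]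

theorem p2_R2 (f : F2 κ) : b'.p2 (φ x) (R2 (U x) f) = R2 (U x) (b.p2 x f) := by
  obtain ⟨_, L⟩ := lg h hb hb'
  simp only [Bg.p2, R2, Wz78.idx_idx, (L.be x hx).sd hb.B hb'.B]

theorem qd_u (hv : b.m.p x v = v) (w : Eu ν) :
    b'.qd (φ x) (u x v) (u x w) = R2 (U x) (b.qd x v w) := by
  ext s
  simp only [R2_apply, Bg.qd, uρρ h hb hb' hx, map_sum, map_smul, uJ h hb hb' hx, sum_inner,
    real_inner_smul_left, uin h hb hb' hx, hv, Finset.mul_sum]
  exact Finset.sum_congr rfl fun _ _ => Finset.sum_congr rfl fun _ _ => by ring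

theorem hm_u (hw : b.m.p x w = w) (v : Eu ν) : hm b'.m.J (u x v) (u x w) = hm b.m.J v w := by
  have : b.m.p x (b.m.J w) = b.m.J w := by
    rw [← mul_apply_eq_comp, ← Pb50.Jp hb, mul_apply_eq_comp, hw]
  simp only [hm, uJ h hb hb' hx, uin h hb hb' hx, hw, this]

theorem back (e : Tr φ U u α c c' x) (hc : LA b c x) (a : Option κ) :
    ∑ j, U x j a * c'.a j (φ x) = c.a a x - α a x := by
  obtain ⟨_, G⟩ := h.g
  simp only [e.1, Finset.mul_sum, ← mul_assoc]
  rw [Finset.sum_comm, ← hc.pa a, ← h.pα x hx a, ← Finset.sum_sub_distrib]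
  exact Finset.sum_congr rfl fun k _ => by rw [← Finset.sum_mul, G.UU x hx, mul_sub]

theorem Tr.uq (e : Tr φ U u α c c' x) (e₁ : Tr φ U u α c₁ c' x) (hc : LA b c x) (hc₁ : LA b c₁ x) :
    (∀ a, c.a a x = c₁.a a x) ∧ c.Φ x = c₁.Φ x :=
  ⟨fun a => sub_left_injective ((back h hb hb' hx e hc a).symm.trans (back h hb hb' hx e₁ hc₁ a)),
    (u_inj h hb hb' hx (hc.pΦ' hb) (hc₁.pΦ' hb)).1 (e.2.symm.trans e₁.2)⟩

theorem tr_pul (hc : LA b' c' (φ x)) : Tr φ U u α (pul φ U u α c') c' x := by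
  obtain ⟨_, G⟩ := h.g
  refine ⟨fun j => ?_, by rw [pul, ut h hb hb' hx, hc.pΦ' hb']⟩
  simp only [pul, add_sub_cancel_left, Finset.mul_sum, ← mul_assoc]
  rw [Finset.sum_comm, ← hc.pa j]
  exact Finset.sum_congr rfl fun k _ => by rw [← Finset.sum_mul, G.UU' x hx]

theorem la_pul (hc : LA b' c' (φ x)) : LA b (pul φ U u α c') x := by
  obtain ⟨_, L⟩ := lg h hb hb'
  refine ⟨fun a => (sα h hb hb' hx a).add (Wz78.SA.sum _ fun j _ => Wz78.SA.mul
      (L.rot.sU j a x hx) (L.rot.sa_comp hx (hc.sa j))),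
    (Eqv71.sa_trn (su h hb hb' hx)).clm_apply (L.rot.sa_comp hx hc.sΦ), fun a => ?_, ?_⟩
  · simp only [pul, mul_add, Finset.sum_add_distrib, h.pα x hx, Finset.mul_sum, ← mul_assoc]
    rw [Finset.sum_comm]
    refine congrArg _ (Finset.sum_congr rfl fun j _ => ?_)
    rw [← Finset.sum_mul, ← (L.be x hx).UP hb.B j a]
    exact congrArg (· * _) (Finset.sum_congr rfl fun k _ => by rw [mul_comm, (hb.B.pr x).symm])
  · show b.pp x (trn (u x) _) = trn (u x) _
    rw [← Pb50.p_pp hb, mul_apply_eq_comp, ← tu h hb hb' hx, ← upp h hb hb' hx, ut h hb hb' hx,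
      hc.pΦ' hb', hc.pΦ]

theorem la_psh (hc : LA b c x) : LA b' (psh φ U u α c) (φ x) := by
  obtain ⟨_, L⟩ := lg h hb hb'
  obtain ⟨_, G⟩ := h.g
  have k : ∀ {V : Type} [NormedAddCommGroup V] [NormedSpace ℝ V] {f : X.M → V}, SA X.I f x →
      SA X'.I (fun y => f (φ.symm y)) (φ x) := fun hf => ContMDiffAt.comp (φ x)
    ((φ.left_inv hx).symm ▸ hf) (G.sm'.contMDiffAt (φ.open_target.mem_nhds (φ.map_source hx)))
  refine ⟨fun j => k (f := fun x => ∑ a, U x j a * (c.a a x - α a x)) (Wz78.SA.sum _ fun a _ =>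
      Wz78.SA.mul (L.rot.sU j a x hx) ((hc.sa a).sub (sα h hb hb' hx a))),
    k (f := fun x => u x (c.Φ x)) ((su h hb hb' hx).clm_apply hc.sΦ), fun j => ?_, ?_⟩
  · simp only [(tr_psh hx c).1, Finset.mul_sum, ← mul_assoc]
    rw [Finset.sum_comm]
    exact Finset.sum_congr rfl fun a _ => by rw [← Finset.sum_mul, (L.be x hx).PU hb'.B]
  · rw [(tr_psh hx c).2, upp h hb hb' hx, hc.pΦ]

theorem Tr.act (e : Tr φ U u α c c' x) {g : X'.M → ℂ} (hg : SA X'.I g (φ x)) :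
    Tr φ U u α (b.act (fun y => g (φ y)) c) (b'.act g c') x := by
  obtain ⟨_, L⟩ := lg h hb hb'
  refine ⟨fun j => ?_, (congrArg (cs _ _) e.2).trans (ucs h hb hb' hx _ _).symm⟩
  simp only [Pb50.act_a, th, e.1, L.D hx hg (fun _ _ => rfl) j, Finset.mul_sum, Complex.im_sum,
    mul_smul_comm, Complex.smul_im, smul_eq_mul, ← Finset.sum_sub_distrib]
  exact Finset.sum_congr rfl fun _ _ => by ring

theorem itw (e : Tr φ U u α c c' x) (hc : LA b c x) :
    Itw X.I b.F.e (b.W c) (Eqv71.pb φ (fun j a y => U y j a) (b'.W c')) u x := fun a => by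
  have h1 := h.A x hx a
  simp only [Eqv71.pb, Bg.W, smul_add, Finset.sum_add_distrib, smul_smul, ← Finset.sum_smul,
    back h hb hb' hx e hc, ← ContinuousLinearMap.mul_def]
  rw [← sub_eq_zero, ← h1]
  simp only [mul_add, add_mul, smul_mul_assoc, mul_smul_comm, jpu h hb hb' hx, sub_smul, sub_mul,
    Pre.D_def]
  abel

variable (e : ∀ y ∈ φ.source, Tr φ U u α c c' y) (hc : b.Adm c) (hc' : b'.Adm c')
include e hc hc'

theorem nab_u (j : Option κ) : nab X'.I b'.F.e (b'.W c') j c'.Φ (φ x) =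
    ∑ a, U x j a • u x (nab X.I b.F.e (b.W c) a c.Φ x) :=
  let ⟨_, L⟩ := lg h hb hb'
  L.nab hx (con_W hb' hc') (su h hb hb' hx) (itw h hb hb' hx (e x hx) (.of_adm hc x)) (hc.sΦ x)
    (hc'.sΦ _) ((φ.open_source.eventually_mem hx).mono fun y hy => (e y hy).2) j

theorem eD_u : b'.eD c' (φ x) = u x (b.eD c x) := by
  simp only [Bg.eD, Wz78.dir, nab_u h hb hb' hx e hc hc', map_sum, map_smul, map_add,
    ← uρ' h hb hb' hx, (e x hx).2]
  rw [Finset.sum_comm]
  exact congrArg _ (congrArg (· (c.Φ x)) (h.ms x hx))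

theorem fc_u : b'.fc c' (φ x) = R2 (U x) (b.fc c x) := by
  obtain ⟨_, L⟩ := lg h hb hb'
  ext s
  have k := L.curv hx (fun a => (con_W hb hc).sm a x) (con_W hb' hc') (su h hb hb' hx)
    (fun y hy => itw h hb hb' hy (e y hy) (.of_adm hc y)) s
  have k1 : b'.jp (φ x) = u x * (b.jp x * trn (u x)) := by
    rw [← mul_assoc, ← jpu h hb hb' hx, mul_assoc, show u x * trn (u x) = _ from h.uu' x hx, Bg.jp,
      mul_assoc, hb'.m.pidem _ trivial]
  have k2 : ∀ T : En ν, trE (u x * T * (b.jp x * trn (u x))) = trE (b.jp x * T) := fun T => by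
    rw [mul_assoc, trE_comm, mul_assoc, mul_assoc, show trn (u x) * u x = _ from h.uu x hx, trE_comm,
      Bg.jp, mul_assoc b.m.J, hb.m.pidem _ trivial]
  simp only [← ContinuousLinearMap.mul_def] at k
  simp only [R2, Wz78.idx_apply, Bg.fc, inner_hsL_skw (skw_jp hb _), inner_hsL_skw (skw_jp hb' _)]
  rw [trE_comm, k1, ← mul_assoc, k]
  simp only [Finset.sum_mul, smul_mul_assoc, map_sum, map_smul, k2, smul_eq_mul,
    ← Finset.sum_neg_distrib, Finset.mul_sum, ContinuousLinearMap.id_apply]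
  exact Finset.sum_congr rfl fun _ _ => by ring

theorem eC_u : b'.eC c' (φ x) = R2 (U x) (b.eC c x) := by
  rw [Bg.eC, Bg.eC, fc_u h hb hb' hx e hc hc', (e x hx).2, qd_u h hb hb' hx ((LA.of_adm hc x).pΦ' hb),
    h.w, ← map_smul, ← map_sub, p2_R2 h hb hb' hx, map_sub (R2 _)]
  exact congrArg _ (PiLp.ext fun s => (h.om x hx s).trans (R2_apply _ _ _).symm)

omit hx in
theorem lη_u {j : Fin nc} {j' : Fin nc'} (s : ∀ y, (b.ct j).Ξ y ∈ φ.source)
    (h2 : ∀ y, (b'.ct j').Ξ y = φ ((b.ct j).Ξ y)) (h3 : (b'.ct j').ρ = (b.ct j).ρ)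
    {η η' : R4 → Eu ν} (hη : b.TI u α j η η') : b'.lη j' η' c' = b.lη j η c := by
  obtain ⟨_, L⟩ := lg h hb hb'
  have C := hb.ct j
  have C' := hb'.ct j'
  obtain ⟨R, hR⟩ := Kop92.exists_sp C.cρ
  have ta : b.ta j c = b'.ta j' c' + b.ta j ⟨α, 0⟩ := funext fun y => by
    ext v
    have k : ∑ k, (∑ a, U ((b.ct j).Ξ y) k a * (b.ct j).θ y v a - (b'.ct j').θ y v k) •
        b'.F.e k (φ ((b.ct j).Ξ y)) = 0 := by
      have k1 := C'.θ y v
      rw [show ((b'.ct j').Ξ : R4 → X'.M) = φ ∘ (b.ct j).Ξ from funext h2,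
        mfderiv_comp_apply y (L.rot.md (s y)) ((C.sm y).mdifferentiableAt (by simp)) v, C.θ y v,
        map_sum] at k1
      simp only [sub_smul, Finset.sum_sub_distrib, Finset.sum_smul]
      rw [sub_eq_zero, Finset.sum_comm]
      refine .trans (Finset.sum_congr rfl fun a _ => ?_) k1
      rw [map_smul, L.rot.fr' (Eqv71.geo_frm hb.G) (s y), Finset.smul_sum]
      exact Finset.sum_congr rfl fun k _ => by rw [smul_smul, mul_comm]
    have k2 := b'.F.P_ker _ _ k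
    have k3 : ∑ k, (∑ a, U ((b.ct j).Ξ y) k a * (b.ct j).θ y v a - (b'.ct j').θ y v k) *
        c'.a k (φ ((b.ct j).Ξ y)) = 0 := by
      rw [Finset.sum_congr rfl fun k _ => congrArg (_ * ·) (hc'.pa k (φ ((b.ct j).Ξ y))).symm]
      simp only [Finset.mul_sum, ← hb'.G.P]
      rw [Finset.sum_comm]
      refine Finset.sum_eq_zero fun i _ => ?_
      have := congrArg (· * c'.a i (φ ((b.ct j).Ξ y))) (k2 i)
      simp only [Finset.sum_mul, zero_mul] at this
      rw [← this]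
      exact Finset.sum_congr rfl fun k _ => by rw [b'.G.F.P_symm k i]; ring
    have k4 : ∑ k, (∑ a, U ((b.ct j).Ξ y) k a * (b.ct j).θ y v a) * c'.a k (φ ((b.ct j).Ξ y)) =
        ∑ a, (b.ct j).θ y v a * (c.a a ((b.ct j).Ξ y) - α a ((b.ct j).Ξ y)) := by
      simp only [← back h hb hb' (s y) (e _ (s y)) (.of_adm hc _), Finset.sum_mul, Finset.mul_sum]
      rw [Finset.sum_comm]
      exact Finset.sum_congr rfl fun _ _ => Finset.sum_congr rfl fun _ _ => by ring
    simp only [sub_mul, Finset.sum_sub_distrib, k4, mul_sub] at k3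
    simp [Bg.ta, PiLp.inner_apply, h2, -Fintype.sum_option]
    linarith
  have c1 : Continuous (b'.ta j' c') :=
    ((innerSL ℝ).continuous.comp ((PiLp.continuous_toLp 2 _).comp (continuous_pi fun k =>
      (hc'.sa k).continuous.comp C'.sm.continuous))).clm_comp C'.sθ.continuous
  have c2 : Continuous (b.ta j ⟨α, 0⟩) :=
    ((innerSL ℝ).continuous.comp ((PiLp.continuous_toLp 2 _).comp (continuous_pi fun k =>
      (h.sα k).continuousOn.comp_continuous C.sm.continuous s))).clm_comp C.sθ.continuous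
  refine congrArg _ (funext fun y => ?_)
  rw [hη y, h2, (e _ (s y)).2, hm_u h hb hb' (s y) ((LA.of_adm hc _).pΦ' hb),
    hm_cs_left hb.m.Jsq hb.m.Jsk, ta, Kop92.K_add C.sρ.continuous hR c1 c2, h3, ← mul_assoc,
    Complex.star_def, ← Complex.exp_conj, ← Complex.exp_add]
  congr 2
  simp only [map_neg, map_mul, Complex.conj_ofReal, Complex.conj_I]
  push_cast
  ring

end Crest.Agent.X212.Sm10.Nt
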