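import Crest.Agent.X212.Sw.Lv

/-!
# Row 212, SW-DEG (helper10): the fields of `Sw.DegStmt` as leaves, pointwise form of degeneration
-/

set_option autoImplicit false
set_option linter.unusedSectionVars false
noncomputable section
open scoped Manifold ContDiff Topology InnerProductSpace
open MeasureTheory Set Function Filter

namespace Crest.Agent.X212.Sm10
open An Cyf70 Sw Sw.En3
open M (Mf pm)

variable {κ lam ν : Type} [Fintype κ] [Fintype lam] [Fintype ν] [DecidableEq ν]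

/-- `c i - c₀ → 0` in `C^∞`, uniformly over the times `S i` -/
def Zs {e : En3 κ lam ν} {ι : Type} (l : Filter ι) (c : ι → e.ZC) (c₀ : e.ZC) (S : ι → Set ℝ) :
    Prop := ∀ (k : ℕ), ∀ η > 0, ∀ᶠ i in l, Cl (c i) c₀ (S i) k η

section side
variable {d : Dt κ lam ν} [Fintype d.𝓔] {Sl : Type} [Fintype Sl] {X X' : Mf 4} {nc' nr' : ℕ}
  {T' : Type} [NormedAddCommGroup T'] [NormedSpace ℝ T'] [FiniteDimensional ℝ T']
  {s' : StS d Sl X'}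

/-- one side of a degeneration, pointwise: the configurations `c i` pulled back by `φ i` converge to
`x`, up to the depth `r i` of the end `b` of the neck `j₀` -/
structure DSid (σ' : Cel s' nc' nr' T') (j₀ : d.𝓔 × Sl) (b : Bool) {ι : Type} (l : Filter ι)
    (c : ι → Cfg X.M κ ν) (t : ι → T') (φ : ι → OpenPartialHomeomorph X'.M X.M) (r : ι → ℝ)
    (x : σ'.Pnt) : Prop where
  par : Tendsto t l (𝓝 x.1.1)
  inf : s'.Inf j₀ b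
  src : ∀ a, ∃ O ∈ 𝓝 a, ∀ᶠ i in l, O ⊆ (φ i).source
  al : TendstoLocallyUniformly (fun i => σ'.al (t i) ((c i).pb (φ i))) (σ'.al x.1.1 x.1.2) l
  Φ : TendstoLocallyUniformly (fun i => ((c i).pb (φ i)).Φ) x.1.2.Φ l
  nk : ∀ j, ∀ K ∈ s'.nk j, Zs l (fun i => K.pb ((c i).pb (φ i))) (K.pb x.1.2)
    fun i => {τ ∈ K.deep 1 | j = j₀ → pm b * τ < r i}

end side

variable (d : Dt κ lam ν) [Fintype d.𝓔] (Sl : Type) [Fintype Sl] (X XL XR : Mf 4)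
  (nc nr ncL nrL ncR nrR : ℕ) (T TL TR : Type)
  [NormedAddCommGroup T] [NormedSpace ℝ T] [FiniteDimensional ℝ T]
  [NormedAddCommGroup TL] [NormedSpace ℝ TL] [FiniteDimensional ℝ TL]
  [NormedAddCommGroup TR] [NormedSpace ℝ TR] [FiniteDimensional ℝ TR]

section cut
variable {d Sl X XL XR nc nr ncL nrL ncR nrR T TL TR}
  {s : StS d Sl X} {sL : StS d Sl XL} {sR : StS d Sl XR}
  (p : Spl X XL XR nc ncL ncR d Sl T TL TR)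
  (σ : Cel s nc nr T) (σL : Cel sL ncL nrL TL) (σR : Cel sR ncR nrR TR)

/-- the conclusion of `Spl.OK.cut` -/
structure Ct (tL : TL) (tR : TR) (δ : ℝ × ℝ) : Prop where
  Δ : δ ∈ p.Δ
  QL : tL ∈ σL.Q
  QR : tR ∈ σR.Q
  Q : p.par tL tR δ ∈ σ.Q
  cov : (p.φL δ).target ∪ (p.φR δ).target = univ
  ov : ∀ K ∈ (σ.P (p.par tL tR δ)).nk (p.ε, p.a), (p.φL δ).target ∩ (p.φR δ).target = K.ψ.target
  L : Half (σ.P (p.par tL tR δ)) (σL.P tL) p.ε p.a p.aL true (p.φL δ) δ.1 ((δ.2 - δ.1) / 2)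
    (fun j => j ≠ (p.ε, p.a) ∧ p.side j = false) p.π (fun j => p.c (.inl j)) ∅
  R : Half (σ.P (p.par tL tR δ)) (σR.P tR) p.ε p.a p.aR false (p.φR δ) δ.2 ((δ.2 - δ.1) / 2)
    (fun j => j ≠ (p.ε, p.a) ∧ p.side j = true) p.π (fun j => p.c (.inr j)) ∅

variable {σ σL σR} in
/-- degeneration, pointwise form -/
def Dz {ι : Type} (l : Filter ι) (y : ι → σ.Pnt) (x : σL.Pnt) (z : σR.Pnt) : Prop :=
  ∃ (y' : ι → σ.Pnt) (tL : ι → TL) (tR : ι → TR) (δ : ι → ℝ × ℝ),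
    (∀ᶠ i in l, σ.Eqv (y i) (y' i) ∧ σ.R (y' i).1.1 (y' i).1.2 = 0 ∧
      (y' i).1.1 = p.par (tL i) (tR i) (δ i) ∧ Ct p σ σL σR (tL i) (tR i) (δ i)) ∧
    Tendsto (fun i => (δ i).2 - (δ i).1) l atTop ∧
    DSid σL (p.ε, p.aL) true l (fun i => (y' i).1.2) tL (fun i => p.φL (δ i))
      (fun i => ((δ i).2 - (δ i).1) / 2 + 1 / 2) x ∧
    DSid σR (p.ε, p.aR) false l (fun i => (y' i).1.2) tR (fun i => p.φR (δ i))
      (fun i => ((δ i).2 - (δ i).1) / 2 + 1 / 2) z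

end cut

/-- DEG-Z -/
def DzP : Prop := ∀ (s : StS d Sl X) (sL : StS d Sl XL) (sR : StS d Sl XR) (σ : Cel s nc nr T)
  (σL : Cel sL ncL nrL TL) (σR : Cel sR ncR nrR TR) (p : Spl X XL XR nc ncL ncR d Sl T TL TR),
  p.OK σ σL σR → ∀ (ι : Type) (l : Filter ι) [l.NeBot] (y : ι → σ.Pnt) (x : σL.Pnt) (z : σR.Pnt),
  p.Deg l y x z → Dz p l y x z

/-- DEG-WALL -/
def WallP : Prop := ∀ (s : StS d Sl X) (sL : StS d Sl XL) (sR : StS d Sl XR) (σ : Cel s nc nr T)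
  (σL : Cel sL ncL nrL TL) (σR : Cel sR ncR nrR TR) (p : Spl X XL XR nc ncL ncR d Sl T TL TR),
  (∀ ε, ∃ g : (d.e ε).Gen, g.OK) → p.OK σ σL σR → ∀ (ι : Type) (l : Filter ι) (y : ι → σ.Pnt)
  (x : σL.Pnt) (z : σR.Pnt), Dz p l y x z →
  Tendsto (fun i => σ.wf p.wl (y i).1.1 (y i).1.2) l (𝓝 1) ∧
    ∀ a : (d.𝓔 × Sl) × Option Bool, a ≠ p.wl → nr = 0 → a.2.elim (s.nk a.1 = none) (s.Inf a.1) →
      ∃ c < 1, ∀ᶠ i in l, σ.wf a (y i).1.1 (y i).1.2 ≤ c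

/-- DEG-UNIQ -/
def UniqP : Prop := ∀ (s : StS d Sl X) (sL : StS d Sl XL) (sR : StS d Sl XR) (σ : Cel s nc nr T)
  (σL : Cel sL ncL nrL TL) (σR : Cel sR ncR nrR TR) (p : Spl X XL XR nc ncL ncR d Sl T TL TR)
  (V : Set (d.e p.ε).YC), Rs V → (∃ g : (d.e p.ε).Gen, g.OK) → (p.o = none → σ.Nul (p.ε, p.a)) →
  ∀ βL (RL : TL → _ → Fin nrL → ℝ) βR (RR : TR → _ → Fin nrR → ℝ), p.OK σ σL σR →
  p.OK σ ⟨σL.toFam, βL, RL⟩ ⟨σR.toFam, βR, RR⟩ →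
  σL.β (p.ε, p.aL) true ∈ V → βL (p.ε, p.aL) true ∈ V →
  ∀ (ι : Type) (𝒰 : Ultrafilter ι) (y : ι → σ.Pnt) (x : σL.Pnt) (z : σR.Pnt)
    (x' : Cel.Pnt ⟨σL.toFam, βL, RL⟩) (z' : Cel.Pnt ⟨σR.toFam, βR, RR⟩) q,
    σL.Sol q x → σR.Sol q z → Cel.Sol _ q x' → Cel.Sol _ q z' →
    Dz p 𝒰 y x z → Dz p 𝒰 y x' z' →
    σL.β (p.ε, p.aL) true = βL (p.ε, p.aL) true ∧ x.1.1 = x'.1.1 ∧ z.1.1 = z'.1.1 ∧
      (σL.P x.1.1).Eqv x.1.2 x'.1.2 ∧ (σR.P z.1.1).Eqv z.1.2 z'.1.2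

/-- DEG-MK -/
def MkP : Prop := ∀ (s : StS d Sl X) (sL : StS d Sl XL) (sR : StS d Sl XR) (σ : Cel s nc nr T)
  (σL : Cel sL ncL nrL TL) (σR : Cel sR ncR nrR TR) (p : Spl X XL XR nc ncL ncR d Sl T TL TR),
  p.OK σ σL σR → ∀ (ι : Type) (𝒰 : Ultrafilter ι) q (y : ι → σ.Pnt) x z (δ : ι → ℝ × ℝ) (τ : ι → ℝ)
  ρL ρR x₀ z₀, (∀ᶠ i in (𝒰 : Filter ι), σ.R (y i).1.1 (y i).1.2 = 0) →
  σL.PS 𝒰 q x ρL → σR.PS 𝒰 q z ρR → (∀ᶠ i in (𝒰 : Filter ι), p.Agr (y i) (x i) (z i) (δ i) (τ i) ∧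
    ρL i (p.ε, p.aL) true = some (τ i - (δ i).1) ∧ ρR i (p.ε, p.aR) false = some ((δ i).2 - τ i)) →
  σL.Cvg 𝒰 x x₀ → σR.Cvg 𝒰 z z₀ → p.Deg 𝒰 y x₀ z₀

/-- DEG-EQV -/
def EqP : Prop := ∀ (s : StS d Sl X) (sL : StS d Sl XL) (sR : StS d Sl XR) (σ : Cel s nc nr T)
  (σL : Cel sL ncL nrL TL) (σR : Cel sR ncR nrR TR) (p : Spl X XL XR nc ncL ncR d Sl T TL TR),
  p.OK σ σL σR → ∀ (ι : Type) (l : Filter ι) (y : ι → σ.Pnt) (x x' : σL.Pnt) (z z' : σR.Pnt),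
  σL.Eqv x x' → σR.Eqv z z' → p.Deg l y x z → p.Deg l y x' z'

variable {d Sl X XL XR nc nr ncL nrL ncR nrR T TL TR} in
theorem degStmt_of (hz : DzP d Sl X XL XR nc nr ncL nrL ncR nrR T TL TR)
    (hm : MkP d Sl X XL XR nc nr ncL nrL ncR nrR T TL TR)
    (hw : WallP d Sl X XL XR nc nr ncL nrL ncR nrR T TL TR)
    (he : EqP d Sl X XL XR nc nr ncL nrL ncR nrR T TL TR)
    (hu : UniqP d Sl X XL XR nc nr ncL nrL ncR nrR T TL TR) :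
    DegStmt d Sl X XL XR nc nr ncL nrL ncR nrR T TL TR where
  mk' := hm
  wall s sL sR σ σL σR p hg hp ι l y x z h := by
    rcases l.eq_or_neBot with rfl | hl
    · exact ⟨tendsto_bot, fun _ _ _ _ => ⟨0, one_pos, eventually_bot⟩⟩
    · exact hw s sL sR σ σL σR p hg hp ι l y x z (hz s sL sR σ σL σR p hp ι l y x z h)
  eqv := he
  uniq s sL sR σ σL σR p V h1 h2 h3 βL RL βR RR h4 h5 h6 h7 ι 𝒰 y x z x' z' q a b c e f g :=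
    hu s sL sR σ σL σR p V h1 h2 h3 βL RL βR RR h4 h5 h6 h7 ι 𝒰 y x z x' z' q a b c e
      (hz s sL sR σ σL σR p h4 ι 𝒰 y x z f) (hz s sL sR σ _ _ p h5 ι 𝒰 y x' z' g)

end Crest.Agent.X212.Sm10
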