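import Crest.Agent.X212.Sm10.Dg0
import Crest.Agent.X212.Sm10.DgS
import Crest.Agent.X212.Pb50.Pt
import Crest.Agent.X212.Win39.Rig

/-!
# Row 212, SW-DEG (helper10), part 1: transport, gauge cut-off, cylinders
-/

set_option autoImplicit false
set_option linter.unusedSectionVars false
noncomputable section
open scoped Manifold ContDiff Topology InnerProductSpace ENNReal
open MeasureTheory Set Function Filter

namespace Crest.Agent.X212.Sm10.Dg
open An Sw Sob92 Cyf70 Sw.En3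
open Wz78 (SA)
open Neck67 (Lb)
open Sep15.S (sa_clm aesm)
open Pb50 (Dw_congr sa_D th LG)
open Win39 (mi mi_apply)
open M (Mf pm)

variable {κ lam ν : Type} [Fintype κ] [Fintype lam] [Fintype ν] [DecidableEq ν]
  {N N' : Type} [NormedAddCommGroup N] [NormedSpace ℝ N] [NormedAddCommGroup N'] [NormedSpace ℝ N']
  {α : Type} {l : Filter α}

section gen
variable {E : Type} [NormedAddCommGroup E] [NormedSpace ℝ E] [FiniteDimensional ℝ E]
  [MeasurableSpace E] [BorelSpace E]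
  {HM : Type} [TopologicalSpace HM] {I : ModelWithCorners ℝ E HM}
  {M : Type} [TopologicalSpace M] [ChartedSpace HM M] [IsManifold I ∞ M]
  [MeasurableSpace M] [T2Space M] [BorelSpace M] [SecondCountableTopology M] {ι : Type} [Fintype ι]
  {E' : Type} [NormedAddCommGroup E'] [NormedSpace ℝ E'] [FiniteDimensional ℝ E']
  [MeasurableSpace E'] [BorelSpace E']
  {HM' : Type} [TopologicalSpace HM'] {I' : ModelWithCorners ℝ E' HM'}
  {M' : Type} [TopologicalSpace M'] [ChartedSpace HM' M'] [IsManifold I' ∞ M']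
  [MeasurableSpace M'] [T2Space M'] [BorelSpace M'] [SecondCountableTopology M']
  {F : Pre I M ι} {S S' S'' : α → Set M} {f f' : α → M → N}

theorem Nl.comp (h : Nl F l S f) {α' : Type} {l' : Filter α'} {m : α' → α} (hm : Tendsto m l' l) :
    Nl F l' (fun i => S (m i)) fun i => f (m i) := fun w =>
  ⟨hm.eventually (h w).sm, (h w).z.comp hm⟩

theorem lb_cover {O : Set M} {k : ℕ} {u : M → N} {C : ℝ}
    (h : ∀ x ∈ O, ∃ O', x ∈ O' ∧ Lb F O' k u C) : Lb F O k u C :=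
  Lb.of_Dw (fun x hx => let ⟨_, a, b⟩ := h x hx; b.sm a)
    fun w hw x hx => let ⟨_, a, b⟩ := h x hx; b.Dw w hw x a

theorem Cn.cover (h : Cn F l S f) (h' : Cn F l S' f) (e : ∀ᶠ i in l, S'' i ⊆ S i ∪ S' i) :
    Cn F l S'' f := fun k η hη => (((h k η hη).and (h' k η hη)).and e).mono fun _ hi =>
  lb_cover fun _ hx => (hi.2 hx).elim (fun a => ⟨_, a, hi.1.1⟩) fun a => ⟨_, a, hi.1.2⟩

theorem Cn.of_zero (o : ∀ᶠ i in l, IsOpen (S i)) (e : ∀ᶠ i in l, ∀ x ∈ S i, f i x = 0) :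
    Cn F l S f := fun k η hη => (o.and e).mono fun _ hi =>
  ((Lb.const hi.1 (0 : N)).congr hi.1 hi.2).mono (by simpa using hη.le)

theorem Cn.of_D (h : ∀ η > 0, ∀ᶠ i in l, Lb F (S i) 0 (f i) η)
    (h' : ∀ a, Cn F l S fun i => F.D a (f i)) : Cn F l S f
  | 0, η, hη => h η hη
  | k + 1, η, hη => (h η hη).and (eventually_all.2 fun a => h' a k η hη)

theorem Bb.const (c : N) : Bb F l S fun _ _ => c := Bb.of_cb (Cb_const c)

theorem Bb.ode {u : α → M → ℂ} {β : ι → α → M → ℝ} (o : ∀ᶠ i in l, IsOpen (S i))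
    (h : ∀ᶠ i in l, ∀ x ∈ S i, SA I (u i) x ∧ ‖u i x‖ ≤ 1 ∧
      ∀ a, F.D a (u i) x = mi (β a i x) (u i x)) (hβ : ∀ a, Bb F l S (β a)) : Bb F l S u := by
  intro k
  have h0 : ∀ᶠ i in l, Lb F (S i) 0 (u i) 1 := h.mono fun _ hi x hx => ⟨(hi x hx).1, (hi x hx).2.1⟩
  induction k with
  | zero => exact ⟨1, h0⟩
  | succ k ih =>
    obtain ⟨C, hC⟩ := ih
    choose A hA using fun a => hβ a k
    have p : ∀ a, 0 ≤ 2 ^ k * |A a| * |C| := fun a => by positivity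
    refine ⟨1 + ∑ a, 2 ^ k * |A a| * |C|, ?_⟩
    filter_upwards [h0, h, o, hC, eventually_all.2 hA] with i h0 h1 h2 h3 h4
    exact ⟨h0.mono (le_add_of_nonneg_right (Finset.sum_nonneg fun a _ => p a)), fun a =>
      (((h4 a).bil' h2 Win39.norm_mi h3).congr h2 fun x hx => (h1 x hx).2.2 a).mono
        ((Finset.single_le_sum (fun a _ => p a) (Finset.mem_univ a)).trans (by linarith))⟩

/-- the circle valued function of a real function -/
def ex (g : M → ℝ) (x : M) : ℂ := Complex.exp (Complex.I * g x)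

theorem norm_ex (g : M → ℝ) (x : M) : ‖ex g x‖ = 1 := Complex.norm_exp_I_mul_ofReal _

theorem sa_ex {g : M → ℝ} {x : M} (h : SA I g x) : SA I (ex g) x :=
  (Complex.contDiff_exp (𝕜 := ℝ)).contMDiff.contMDiffAt.comp x
    (Wz78.SA.mul contMDiffAt_const (sa_clm Complex.ofRealCLM h))

theorem D_ex {g : M → ℝ} {x : M} (h : SA I g x) (a : ι) :
    F.D a (ex g) x = mi (F.D a g x) (ex g x) := by
  have h1 : HasDerivAt (fun r : ℝ => Complex.exp (Complex.I * r))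
      (Complex.exp (Complex.I * g x) * (Complex.I * 1)) (g x) :=
    ((Complex.ofRealCLM.hasDerivAt).const_mul Complex.I).cexp
  refine (dv_comp h.md h1.hasFDerivAt).trans ?_
  simp only [mi_apply, ex, Pre.D_def, ContinuousLinearMap.toSpanSingleton_apply, Complex.real_smul]
  ring

theorem Cn.ex {g : α → M → ℝ} (h : Cn F l S g) (o : ∀ᶠ i in l, IsOpen (S i)) :
    Cn F l S fun i x => ex (g i) x - 1 := by
  have h1 : Bb F l S fun i => Dg.ex (g i) := Bb.ode o (h.bb.sm.mono fun i hi x hx =>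
    ⟨sa_ex (hi x hx), (norm_ex _ _).le, D_ex (hi x hx)⟩) fun a => (h.D a).bb
  refine Cn.of_D (fun η hη => (h 0 η hη).mono fun i hi x hx =>
    ⟨(sa_ex (hi.sm hx)).sub contMDiffAt_const,
      Real.norm_exp_I_mul_ofReal_sub_one_le.trans (hi.le hx)⟩) fun a => ?_
  refine (Cn.bil mi.flip h1 (h.D a) o).congr o (h.bb.sm.mono fun i hi x hx => ?_)
  refine (Wz78.dv_sub' (sa_ex (hi x hx)) contMDiffAt_const).trans ?_
  rw [dv_const, ← Pre.D_def, D_ex (hi x hx)]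
  simp

theorem ex_arg {u : M → ℂ} {x : M} (h : ‖u x‖ = 1) : ex (fun y => (u y).arg) x = u x := by
  have := Complex.norm_mul_exp_arg_mul_I (u x)
  rwa [h, Complex.ofReal_one, one_mul, mul_comm] at this

theorem sa_arg {u : M → ℂ} {x : M} (h : SA I u x) (h1 : ‖u x - 1‖ < 1) :
    SA I (fun y => (u y).arg) x := by
  have h2 : u x ∈ Complex.slitPlane := by simpa using Complex.mem_slitPlane_of_norm_lt_one h1
  simp only [← Complex.log_im]
  exact sa_clm Complex.imCLM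
    (((Complex.contDiffAt_log h2).restrict_scalars ℝ).contMDiffAt.comp x h)

theorem th_ex {g : M → ℝ} {x : M} (h : SA I g x) (a : ι) : th F (ex g) a x = F.D a g x := by
  rw [th, D_ex h, mi_apply, mul_left_comm, Pb50.star_mul_one (norm_ex g x)]
  simp

theorem abs_arg_le {z : ℂ} (h : ‖z‖ = 1) (h1 : ‖z - 1‖ < 1) : |z.arg| ≤ 2 * ‖z - 1‖ := by
  have h2 : |z.arg| ≤ Real.pi / 2 := Complex.abs_arg_le_pi_div_two_iff.2 (by
    have := (abs_le.1 ((Complex.abs_re_le_norm _).trans h1.le)).1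
    simp only [Complex.sub_re, Complex.one_re] at this; linarith)
  have h3 := Real.mul_abs_le_abs_sin h2
  rw [Complex.sin_arg, h, div_one, div_mul_eq_mul_div, div_le_iff₀ Real.pi_pos] at h3
  have h4 : |z.im| ≤ ‖z - 1‖ := by simpa using Complex.abs_im_le_norm (z - 1)
  nlinarith [Real.pi_le_four, abs_nonneg z.im, Real.pi_pos]

theorem Bb.th {u : α → M → ℂ} (h : Bb F l S u) (o : ∀ᶠ i in l, IsOpen (S i)) (a : ι) :
    Bb F l S fun i => th F (u i) a :=
  (Bb.bil (ContinuousLinearMap.mul ℝ ℂ) (h.clm (Complex.conjCLE : ℂ →L[ℝ] ℂ) o) (h.D a) o).clm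
    Complex.imCLM o

theorem Cn.one {u : α → M → ℂ} (h : Cn F l S fun i x => u i x - 1) (o : ∀ᶠ i in l, IsOpen (S i)) :
    Bb F l S u := (h.bb.add (Bb.const 1) o).congr o (.of_forall fun _ _ _ => by simp)

theorem D_sub_one {u : M → ℂ} {x : M} (h : SA I u x) (a : ι) :
    F.D a u x = F.D a (fun y => u y - 1) x := by
  rw [Pre.D_def, Pre.D_def, Wz78.dv_sub' h contMDiffAt_const, dv_const]; simp

theorem Cn.arg {u : α → M → ℂ} (h : Cn F l S fun i x => u i x - 1) (o : ∀ᶠ i in l, IsOpen (S i))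
    (h1 : ∀ᶠ i in l, ∀ x ∈ S i, ‖u i x‖ = 1) : Cn F l S fun i x => (u i x).arg := by
  have h2 := h.one o
  have h3 : ∀ᶠ i in l, ∀ x ∈ S i, ‖u i x - 1‖ < 1 :=
    (h 0 (1 / 2) (by norm_num)).mono fun i hi x hx => (hi.le hx).trans_lt (by norm_num)
  refine Cn.of_D (fun η hη => ?_) fun a => ?_
  · filter_upwards [h 0 (η / 2) (by positivity), h1, h2.sm, h3] with i a b c d x hx
    exact ⟨sa_arg (c x hx) (d x hx), (abs_arg_le (b x hx) (d x hx)).trans (by linarith [a.le hx])⟩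
  · refine ((Cn.bil (ContinuousLinearMap.mul ℝ ℂ) (h2.clm (Complex.conjCLE : ℂ →L[ℝ] ℂ) o) (h.D a)
      o).clm Complex.imCLM o).congr o ?_
    filter_upwards [o, h1, h2.sm, h3] with i o b c d x hx
    have e : Dg.ex (fun y => (u i y).arg) =ᶠ[𝓝 x] u i :=
      Eventually.mono (o.mem_nhds hx) fun y hy => ex_arg (b y hy)
    rw [← th_ex (sa_arg (c x hx) (d x hx)), th, e.self_of_nhds, ← D_sub_one (c x hx),
      show F.D a (Dg.ex fun y => (u i y).arg) x = F.D a (u i) x from dv_congr e]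
    rfl

/-! ### transport -/

theorem I2_iso {F : Pre I M ι} {F' : Pre I' M' ι} {φ : OpenPartialHomeomorph M M'}
    (h : Iso F F' φ) {O : Set M} (hO : IsOpen O) (hs : O ⊆ φ.source) {u : M' → N}
    (hu : ∀ x ∈ O, SA I' u (φ x)) : I2 F O (fun x => u (φ x)) = I2 F' (φ '' O) u := by
  have aem : AEMeasurable φ (F.μ.restrict φ.source) :=
    φ.continuousOn.aemeasurable φ.open_source.measurableSet
  have hO' := φ.isOpen_image_of_subset_source hO hs
  have e : F'.μ.restrict (φ '' O) = (F.μ.restrict O).map φ := by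
    rw [← inter_eq_left.2 (image_subset_iff.2 fun x hx => φ.map_source (hs hx) : φ '' O ⊆ φ.target),
      ← Measure.restrict_restrict hO'.measurableSet, ← h.μ,
      Measure.restrict_map_of_aemeasurable aem hO'.measurableSet,
      Measure.restrict_restrict' φ.open_source.measurableSet, φ.injOn.preimage_image_inter hs]
  rw [I2, I2, e, lintegral_map' (e ▸ aem2 hO' (forall_mem_image.2 hu))
    (aem.mono_measure (Measure.restrict_mono hs le_rfl))]

variable {F : Fr I M ι} {F' : Fr I' M' ι} {φ : α → OpenPartialHomeomorph M M'} {g : α → M' → N}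

theorem Nl.iso (h : ∀ᶠ i in l, Iso F.toPre F'.toPre (φ i) ∧ IsOpen (S i) ∧ S i ⊆ (φ i).source ∧
    ∀ x ∈ S i, SA I' (g i) (φ i x)) :
    Nl F.toPre l S (fun i x => g i (φ i x)) ↔ Nl F'.toPre l (fun i => φ i '' S i) g := by
  have e : ∀ w, ∀ᶠ i in l, I2 F.toPre (S i) (F.Dw w fun x => g i (φ i x)) =
      I2 F'.toPre (φ i '' S i) (F'.Dw w (g i)) := fun w => h.mono fun i hi => by
    rw [← I2_iso hi.1 hi.2.1 hi.2.2.1 fun x hx => sa_Dw (u := g i) w (hi.2.2.2 x hx)]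
    exact setLIntegral_congr_fun hi.2.1.measurableSet fun x hx => by
      rw [(Pj41.fRel_of_iso hi.1).Dw (hi.2.2.1 hx) w (u' := g i) (.of_forall fun _ => rfl)]
  exact ⟨fun k => .mk' (h.mono fun i hi => ⟨(φ i).isOpen_image_of_subset_source hi.2.1 hi.2.2.1,
      forall_mem_image.2 hi.2.2.2⟩) fun w => (k w).z.congr' (e w),
    fun k => .mk' (h.mono fun i hi => ⟨hi.2.1, fun x hx => (hi.2.2.2 x hx).comp x
      (iso_smAt hi.1 (hi.2.2.1 hx))⟩) fun w => (k w).z.congr' ((e w).mono fun _ h => h.symm)⟩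

theorem lb_iso {φ : OpenPartialHomeomorph M M'} (h : Iso F.toPre F'.toPre φ) {O : Set M}
    (hs : O ⊆ φ.source) {u : M' → N} (hu : ∀ x ∈ O, SA I' u (φ x)) {k : ℕ} {C : ℝ} :
    Lb F.toPre O k (fun x => u (φ x)) C ↔ Lb F'.toPre (φ '' O) k u C := by
  have e : ∀ w, ∀ x ∈ O, F.Dw w (fun x => u (φ x)) x = F'.Dw w u (φ x) := fun w x hx =>
    (Pj41.fRel_of_iso h).Dw (hs hx) w (.of_forall fun _ => rfl)
  exact ⟨fun k => Lb.of_Dw (forall_mem_image.2 hu) fun w hw => forall_mem_image.2 fun x hx =>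
      e w x hx ▸ k.Dw w hw x hx,
    fun k => Lb.of_Dw (fun x hx => (hu x hx).comp x (iso_smAt h (hs hx))) fun w hw x hx =>
      (e w x hx).symm ▸ k.Dw w hw _ ⟨x, hx, rfl⟩⟩

theorem Cn.iso (h : ∀ᶠ i in l, Iso F.toPre F'.toPre (φ i) ∧ S i ⊆ (φ i).source ∧
    ∀ x ∈ S i, SA I' (g i) (φ i x)) :
    Cn F.toPre l S (fun i x => g i (φ i x)) ↔ Cn F'.toPre l (fun i => φ i '' S i) g :=
  forall₃_congr fun _ _ _ => eventually_congr (h.mono fun _ hi => lb_iso hi.1 hi.2.1 hi.2.2)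

end gen

/-! ### configurations -/

section cfg
variable {E : Type} [NormedAddCommGroup E] [NormedSpace ℝ E] [FiniteDimensional ℝ E]
  [MeasurableSpace E] [BorelSpace E]
  {HM : Type} [TopologicalSpace HM] {I : ModelWithCorners ℝ E HM}
  {M : Type} [TopologicalSpace M] [ChartedSpace HM M] [IsManifold I ∞ M]
  [MeasurableSpace M] [T2Space M] [BorelSpace M] [SecondCountableTopology M]
  {F : Pre I M (Option κ)} {S S' S'' : α → Set M} {c c' c'' : α → Cfg M κ ν} {J : En ν}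
  {u : α → M → ℂ}

/-- the difference tends to zero -/
def NC (F : Pre I M (Option κ)) (l : Filter α) (S : α → Set M) (c c' : α → Cfg M κ ν) : Prop :=
  (∀ a, Nl F l S fun i x => (c i).a a x - (c' i).a a x) ∧
    Nl F l S fun i x => (c i).Φ x - (c' i).Φ x

/-- the gauge action -/
def ac (F : Pre I M (Option κ)) (J : En ν) (u : M → ℂ) (c : Cfg M κ ν) : Cfg M κ ν :=
  ⟨fun a x => c.a a x - th F u a x, fun x => Pb50.cB J (u x) (c.Φ x)⟩

/-- equality at a point -/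
def At (c c' : Cfg M κ ν) (x : M) : Prop := (∀ a, c.a a x = c'.a a x) ∧ c.Φ x = c'.Φ x

theorem NC.op (h : NC F l S c c') : ∀ᶠ i in l, IsOpen (S i) := h.2.op

theorem NC.trans (h : NC F l S c c') (h' : NC F l S c' c'') : NC F l S c c'' :=
  ⟨fun a => by simpa using (h.1 a).add (h'.1 a), by simpa using h.2.add h'.2⟩

theorem NC.symm (h : NC F l S c c') : NC F l S c' c :=
  ⟨fun a => by simpa using (h.1 a).neg, by simpa using h.2.neg⟩

theorem NC.sub (h : NC F l S c c') (e : ∀ᶠ i in l, IsOpen (S' i) ∧ S' i ⊆ S i) :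
    NC F l S' c c' := ⟨fun a => (h.1 a).sub e, h.2.sub e⟩

theorem NC.cover (h : NC F l S c c') (h' : NC F l S' c c')
    (e : ∀ᶠ i in l, IsOpen (S'' i) ∧ S'' i ⊆ S i ∪ S' i) : NC F l S'' c c' :=
  ⟨fun a => (h.1 a).cover (h'.1 a) e, h.2.cover h'.2 e⟩

theorem NC.of_eq (o : ∀ᶠ i in l, IsOpen (S i)) (e : ∀ᶠ i in l, ∀ x ∈ S i, At (c i) (c' i) x) :
    NC F l S c c' :=
  ⟨fun a => .of_zero o (e.mono fun _ hi x hx => sub_eq_zero.2 ((hi x hx).1 a)),
    .of_zero o (e.mono fun _ hi x hx => sub_eq_zero.2 (hi x hx).2)⟩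

theorem NC.left (h : NC F l S c c') (e : ∀ᶠ i in l, ∀ x ∈ S i, At (c'' i) (c i) x) :
    NC F l S c'' c' := (NC.of_eq h.op e).trans h

theorem NC.right (h : NC F l S c c') (e : ∀ᶠ i in l, ∀ x ∈ S i, At (c' i) (c'' i) x) :
    NC F l S c c'' := h.trans (NC.of_eq h.op e)

theorem NC.ac (h : NC F l S c c') (hu : Bb F l S u) :
    NC F l S (fun i => ac F J (u i) (c i)) fun i => ac F J (u i) (c' i) :=
  ⟨fun a => by simpa [Dg.ac] using h.1 a, by simpa [Dg.ac] using Nl.bil (Pb50.cB J) hu h.2⟩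

theorem NC.ac1 (h : Nl F l S fun i x => u i x - 1) (hu : Bb F l S u)
    (hc : Bb F l S fun i => (c i).Φ) : NC F l S (fun i => Dg.ac F J (u i) (c i)) c := by
  refine ⟨fun a => ((Nl.bil (ContinuousLinearMap.mul ℝ ℂ) (hu.clm (Complex.conjCLE : ℂ →L[ℝ] ℂ)
    h.op) (h.D a)).clm Complex.imCLM).neg.congr (hu.sm.mono fun i hi x hx => ?_),
    (Nl.bil (Pb50.cB J).flip hc h).congr (.of_forall fun i x _ => ?_)⟩
  · rw [← D_sub_one (hi x hx)]
    simp [Dg.ac, th]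
  · simp [Dg.ac, Pb50.cB]
    module

theorem ac_mul (hJ : J * J = -1) {u v : M → ℂ} {x : M} (hu : LG I u x) (hv : LG I v x)
    (c : Cfg M κ ν) : At (ac F J (fun y => u y * v y) c) (ac F J u (ac F J v c)) x :=
  ⟨fun a => by simp only [ac, Pb50.th_mul F hu hv]; ring, (Win39.cs_cs hJ _ _ _).symm⟩

theorem ac_congr {u v : M → ℂ} {x : M} (h : u =ᶠ[𝓝 x] v) {c c' : Cfg M κ ν} (e : At c c' x) :
    At (ac F J u c) (ac F J v c') x :=
  ⟨fun a => by
    simp only [ac, th, e.1, h.self_of_nhds, show F.D a u x = F.D a v x from dv_congr h],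
    by simp only [ac, e.2, h.self_of_nhds]⟩

theorem ac_one {u : M → ℂ} {x : M} (h : u =ᶠ[𝓝 x] fun _ => 1) (c : Cfg M κ ν) :
    At (ac F J u c) c x :=
  let ⟨a, b⟩ := ac_congr (F := F) (J := J) h (c := c) ⟨fun _ => rfl, rfl⟩
  ⟨fun i => (a i).trans (by simp [ac, Pb50.th_one]), b.trans (Win39.cs_one _)⟩

theorem At.trans {c c' c'' : Cfg M κ ν} {x : M} (h : At c c' x) (h' : At c' c'' x) : At c c'' x :=
  ⟨fun a => (h.1 a).trans (h'.1 a), h.2.trans h'.2⟩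

theorem At.symm {c c' : Cfg M κ ν} {x : M} (h : At c c' x) : At c' c x :=
  ⟨fun a => (h.1 a).symm, h.2.symm⟩

end cfg

/-! ### cylinders -/

section cyl
variable {e : En3 κ lam ν} {T T' : α → Set ℝ}

/-- Sobolev on the cylinder -/
theorem Nl.cyl (he : e.OK) {f : α → e.Y.M × ℝ → N} (h : Nl e.D.Z.toPre l (fun i => univ ×ˢ T i) f)
    {ε : ℝ} (hε : 0 < ε) (e' : ∀ᶠ i in l, ∀ t ∈ T' i, Ioo (t - ε) (t + ε) ⊆ T i) :
    Cn e.D.Z.toPre l (fun i => univ ×ˢ T' i) f := by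
  let b : ContDiffBump (0 : ℝ) := ⟨ε / 4, ε / 2, by positivity, by linarith⟩
  obtain ⟨C, hC⟩ := Cht98.deriv_bounds b.contDiff b.hasCompactSupport.deriv (B := 1) fun t => by
    rw [Real.norm_eq_abs, abs_of_nonneg b.nonneg]; exact b.le_one
  have hb : Nd18.BD b C := ⟨b.contDiff, hC⟩
  let l' : Filter (α × ℝ) := comap Prod.fst l ⊓ 𝓟 {p | p.2 ∈ T' p.1}
  have hl : Tendsto Prod.fst l' l := tendsto_comap.mono_left inf_le_left
  have h1 : Cn e.D.Z.toPre l' (fun p => univ ×ˢ Ioo (p.2 - ε / 4) (p.2 + ε / 4)) fun p => f p.1 := by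
    refine Nl.cn he.cyl.tame.choose_spec (h.comp hl) (β := fun p x => b (x.2 + -p.2))
      (.of_cbs fun p => (hb.shift (-p.2)).cyl e.D.F.toPre) ?_
    filter_upwards [hl.eventually e', mem_inf_of_right (mem_principal_self _)] with p h1 h2
    refine ⟨(closure_minimal (t := univ ×ˢ Icc (p.2 - ε / 2) (p.2 + ε / 2)) (fun x hx => ?_)
      (isClosed_univ.prod isClosed_Icc)).trans (prod_mono Subset.rfl (.trans
        (Icc_subset_Ioo (by linarith) (by linarith)) (h1 _ h2))), isOpen_univ.prod isOpen_Ioo,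
      fun x hx => b.one_of_mem_closedBall ?_⟩
    · have : x.2 + -p.2 ∈ Metric.ball (0 : ℝ) (ε / 2) := b.support_eq ▸ hx
      rw [Real.ball_eq_Ioo] at this
      exact ⟨trivial, by linarith [this.1], by linarith [this.2]⟩
    · rw [Real.closedBall_eq_Icc]
      exact ⟨by show 0 - ε / 4 ≤ _; linarith [hx.2.1], by show _ ≤ 0 + ε / 4; linarith [hx.2.2]⟩
  intro k η hη
  have h2 := eventually_comap.1 (eventually_inf_principal.1 (h1 k η hη))
  exact h2.mono fun i hi => lb_cover fun x hx => ⟨univ ×ˢ Ioo (x.2 - ε / 4) (x.2 + ε / 4),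
    ⟨trivial, by linarith, by linarith⟩, hi (i, x.2) rfl hx.2⟩

theorem NC.zs (he : e.OK) {c : α → e.ZC} {c₀ : e.ZC}
    (h : NC e.D.Z.toPre l (fun i => univ ×ˢ T i) c fun _ => c₀) {ε : ℝ} (hε : 0 < ε)
    (e' : ∀ᶠ i in l, ∀ t ∈ T' i, Ioo (t - ε) (t + ε) ⊆ T i) : Zs l c c₀ T' := fun k η hη =>
  ((eventually_all.2 fun a => (h.1 a).cyl he hε e' k η hη).and (h.2.cyl he hε e' k η hη)).mono
    fun _ hi w hw x hx => ⟨fun a => (hi.1 a).Dw w hw x hx, hi.2.Dw w hw x hx⟩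

variable {X : Mf 4} {nc : ℕ} {b : Bg X.I X.M κ lam ν nc} (K : Nk e b) {s : Bool} {v : e.YC}
  {c : Cfg X.M κ ν}

theorem hh_nl {f : e.Y.M × ℝ → N} {T₀ : ℝ} (hf : ∀ x ∈ K.ψ.source, SA (IC e.Y.I) f x)
    (h : Hh e.D.Z.toPre (univ ×ˢ K.far s T₀) f) {r : α → ℝ} (hr : Tendsto r l atTop) :
    Nl e.D.Z.toPre l (fun i => univ ×ˢ K.far s (r i)) fun _ => f :=
  Nl.of_hh (fun x hx => hf x (K.mem_src.2 hx.2.1)) h (τ := fun x => pm s * x.2) (by fun_prop) hr
    ((hr.eventually_ge_atTop T₀).mono fun _ hi =>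
      ⟨Pb50.isOpen_far K _, fun _ hx => ⟨Pb50.far_mono K hi hx, hx.2.2⟩⟩)

theorem asy_nc (hc : b.Adm c) (hv : e.cyl.Adm (fz v)) (h : K.Asy s v c) {r : α → ℝ}
    (hr : Tendsto r l atTop) :
    NC e.D.Z.toPre l (fun i => univ ×ˢ K.far s (r i)) (fun _ => K.pb c) fun _ => fz v :=
  let ⟨_, h⟩ := h
  ⟨fun a => hh_nl K (fun _ hx => (Pb50.sa_ψ K hx (hc.sa a _)).sub (hv.sa a _)) (h.1 a) hr,
    hh_nl K (fun _ hx => (Pb50.sa_ψ K hx (hc.sΦ _)).sub (hv.sΦ _)) h.2 hr⟩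

theorem far_win (hs : K.Inf s) {ε : ℝ} {r : α → ℝ} (hr : Tendsto r l atTop) :
    ∀ᶠ i in l, ∀ t ∈ K.far s (r i + ε), Ioo (t - ε) (t + ε) ⊆ K.far s (r i) := by
  obtain ⟨T, -, hT⟩ := Pb50.nd_basis.eventually_iff.1 (Pb50.ev_J K hs)
  obtain ⟨y⟩ : Nonempty e.Y.M := inferInstance
  filter_upwards [hr.eventually_ge_atTop T] with i hi t ht t' ht'
  have : r i < pm s * t' := by
    have := ht.2
    cases s <;> simp only [pm, mem_ofPred_eq] at this ⊢ <;> norm_num at this ⊢ <;>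
      linarith [ht'.1, ht'.2]
  exact ⟨hT (x := (y, t')) (hi.trans_lt this), this⟩

/-- decay on an end -/
theorem decay (he : e.OK) (hs : K.Inf s) (hc : b.Adm c) (hv : e.cyl.Adm (fz v)) (h : K.Asy s v c) :
    Zs atTop (fun _ => K.pb c) (fz v) (K.far s) := by
  have h1 : Tendsto (fun r : ℝ => r + -1) atTop atTop := tendsto_atTop_add_const_right _ _ tendsto_id
  refine (asy_nc K hc hv h h1).zs he one_pos ?_
  simpa using far_win K hs (ε := 1) h1

theorem img_eq {S : Set ℝ} (hS : S ⊆ K.J) : K.ψ '' (univ ×ˢ S) = K.tm ⁻¹' S := by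
  ext x
  refine ⟨?_, fun hx => ?_⟩
  · rintro ⟨z, hz, rfl⟩
    rw [mem_preimage, K.tm_ψ z (K.mem_src.2 (hS hz.2))]
    exact hz.2
  · have h1 : x ∈ K.ψ.target := K.tgt ▸ hS hx
    refine ⟨_, ⟨trivial, ?_⟩, K.ψ.right_inv h1⟩
    rwa [← K.tm_ψ _ (K.ψ.map_target h1), K.ψ.right_inv h1]

end cyl

section fam
variable {X : Mf 4} {nc : ℕ} {A : Type} [Fintype A] {d : Dt κ lam ν} {ty : A → d.𝓔}
  {T : Type} [NormedAddCommGroup T] [NormedSpace ℝ T] [FiniteDimensional ℝ T]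
  {s : Pz X 0 fun i => d.e (ty i)} {𝓕 : Fam s nc T} {t : T}

variable (𝓕) in
/-- the configuration in the frame of the site -/
def alC (t : T) (c : Cfg X.M κ ν) : Cfg X.M κ ν := ⟨fun a x => 𝓕.al t c x a, c.Φ⟩

theorem al_act (h : 𝓕.OK) (ht : t ∈ 𝓕.Q) (u : X.M → ℂ) (c : Cfg X.M κ ν) (x : X.M) (a : Option κ) :
    𝓕.al t ((𝓕.P t).bg.act u c) x a = 𝓕.al t c x a - th s.bg.F.toPre u a x := by
  have h1 : ∀ b, th (𝓕.P t).bg.F.toPre u b x = ∑ j, 𝓕.S t x b j * th s.bg.F.toPre u j x := fun b => by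
    simp only [th, (h.mix t ht).D b u, Finset.mul_sum, Complex.im_sum, mul_smul_comm,
      Complex.smul_im, smul_eq_mul]
  have h2 := Pb50.th_P s.bg.F u a x
  rw [show s.bg.F.P = s.bg.B.P from h.site.bg.G.P] at h2
  simp only [Fam.al, Pb50.act_a, mul_sub, Finset.sum_sub_distrib, h1, Finset.mul_sum, ← mul_assoc]
  rw [Finset.sum_comm, ← h2]
  exact congrArg _ (Finset.sum_congr rfl fun j _ => by rw [← Finset.sum_mul, h.SiS t ht])

theorem alC_act (h : 𝓕.OK) (ht : t ∈ 𝓕.Q) (u : X.M → ℂ) (c : Cfg X.M κ ν) :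
    alC 𝓕 t ((𝓕.P t).bg.act u c) = ac s.bg.F.toPre s.bg.m.J u (alC 𝓕 t c) :=
  Cfg.ext (funext₂ fun a x => al_act h ht u c x a) (funext fun x => by
    simp only [alC, ac, Pb50.act_Φ, h.m t ht])

theorem alC_congr {c c' : Cfg X.M κ ν} {x : X.M} (e : At c c' x) : At (alC 𝓕 t c) (alC 𝓕 t c') x :=
  ⟨fun a => by simp only [alC, Fam.al, e.1], e.2⟩

theorem alC_nk (h : 𝓕.OK) (ht : t ∈ 𝓕.Q) {i : A} {K : Nk (d.e (ty i)) s.bg} (hK : K ∈ s.nk i)
    {x : (d.e (ty i)).Y.M × ℝ} (hx : x ∈ K.ψ.source) {c : Cfg X.M κ ν}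
    (hc : ∀ a, ∑ j, s.bg.B.P a j (K.ψ x) * c.a j (K.ψ x) = c.a a (K.ψ x)) :
    At (K.pb (alC 𝓕 t c)) (K.pb c) x :=
  ⟨fun a => (Finset.sum_congr rfl fun j _ => by rw [Pb50.Si_nk h ht hK hx]).trans (hc a), rfl⟩

end fam

end Crest.Agent.X212.Sm10.Dg
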