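import Crest.Agent.X212.Eq82.Sub
import Crest.Agent.X212.Abel74.Lab

/-!
# X212 / Sm10 (helper10): NV-FIN, arithmetic of the labels and assembly of `NV`
-/

set_option autoImplicit false
set_option linter.unusedSectionVars false
noncomputable section
open scoped Manifold ContDiff Topology InnerProductSpace
open MeasureTheory Set Function Filter

namespace Crest.Agent.X212.Sm10
open An Mod61 Abel74 Eq82 Crest.Agent.R208.F
open Line51 (Ln)
open Dr59 (HR Cl cls_add cls_smul cls_neg)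
open Int54 (rat integ rat_add rat_smul)

variable {E : Type} [NormedAddCommGroup E] [NormedSpace ℝ E] [FiniteDimensional ℝ E]
  [MeasurableSpace E] [BorelSpace E]
  {HM : Type} [TopologicalSpace HM] {I : ModelWithCorners ℝ E HM} [I.Boundaryless]
  {M : Type} [TopologicalSpace M] [ChartedSpace HM M] [IsManifold I ∞ M]
  [MeasurableSpace M] [BorelSpace M] [SecondCountableTopology M] [T2Space M] [CompactSpace M]
  {ι : Type} [Fintype ι] [DecidableEq ι] {κ : Type} [Fintype κ] [DecidableEq κ] {r n : ℕ}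
  {X : Bk I M ι} {L : Ln E M κ} {w w' φ : M → Ext E} {K : H2 I M}

/-! ### forms and classes -/

theorem cl2_add (h : Cl I 2 univ w) (h' : Cl I 2 univ w') : cl2 I (w + w') = cl2 I w + cl2 I w' := by
  rw [cl2_eq (h.add h'), cl2_eq h, cl2_eq h', cls_add]

theorem cl2_smul (a : ℝ) (h : Cl I 2 univ w) : cl2 I (a • w) = a • cl2 I w := by
  rw [cl2_eq (h.smul a), cl2_eq h, cls_smul]

theorem cl2_neg (h : Cl I 2 univ w) : cl2 I (-w) = -cl2 I w := by
  rw [cl2_eq h.neg, cl2_eq h, cls_neg]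

theorem Q_comm (X : Bk I M ι) (a b : H2 I M) : X.Q a b = X.Q b a := Num57.Q_symm _ _ _

theorem Q_cl2 (X : Bk I M ι) (h : Cl I 2 univ w) (h' : Cl I 2 univ w') :
    X.Q (cl2 I w) (cl2 I w') = integ I (Num57.vol X.F X.o) (w * w') := by
  rw [cl2_eq h, cl2_eq h']; rfl

theorem Q_sy [Nonempty M] (h : X.Sy w w) : 0 < X.Q (cl2 I w) (cl2 I w) := by
  have ho := X.ok.ori
  have := ho.finCpt
  have := ho.openPos
  rw [Q_cl2 X h.cl h.cl]
  have hc := (ho.contMDiff_rat fun x => (h.cl.mul h.cl).sm x trivial).continuous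
  exact hc.integral_pos_of_hasCompactSupport_nonneg_nonzero (HasCompactSupport.of_compactSpace _)
    (fun x => (h.pos x).le) (h.pos (Classical.arbitrary M)).ne'

theorem sy_right (h : X.Sy w w') : X.Sy w' w' := ⟨h.cl', h.cl', h.pos', h.pos', fun x => (h.pos' x).le⟩

theorem sy_neg (h : X.Sy w w) : X.Sy (-w) (-w) :=
  ⟨h.cl.neg, h.cl.neg, by simpa using h.pos, by simpa using h.pos, by simpa using h.mix⟩

theorem sy_add (h : X.Sy w w) (hφ : Cl I 2 univ φ) (h0 : φ * φ = 0)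
    (h1 : ∀ x, 0 ≤ rat (Num57.vol X.F X.o) (w * φ) x) {N : ℝ} (hN : 0 ≤ N) : X.Sy w (w + N • φ) := by
  refine ⟨h.cl, h.cl.add (hφ.smul N), h.pos, fun x => ?_, fun x => ?_⟩
  · have : (w + N • φ) * (w + N • φ) = w * w + (2 * N) • (w * φ) := by
      rw [add_mul, mul_add, mul_add, smul_mul_smul_comm, h0, smul_zero, add_zero, mul_smul_comm,
        smul_mul_assoc, Num57.mul_comm2 hφ.dg w, add_assoc, ← add_smul, two_mul]
    rw [this, rat_add, rat_smul]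
    exact add_pos_of_pos_of_nonneg (h.pos x) (mul_nonneg (by positivity) (h1 x))
  · rw [mul_add, mul_smul_comm, rat_add, rat_smul]
    exact add_nonneg (h.pos x).le (mul_nonneg hN (h1 x))

/-- tensor powers -/
theorem exists_pow (hL : L.On I univ) (m : ℕ) : ∃ (κ' : Type) (_ : Fintype κ') (_ : DecidableEq κ')
    (L' : Ln E M κ'), L'.On I univ ∧ lcl I L' = ((m : ℝ) + 1) • lcl I L := by
  induction m with
  | zero => exact ⟨κ, _, inferInstance, L, hL, by simp⟩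
  | succ m ih =>
    obtain ⟨κ', _, _, L', h1, h2⟩ := ih
    refine ⟨κ' × κ, _, inferInstance, L'.tens L, h1.tens hL, ?_⟩
    have : (L'.tens L).F I = L'.F I + L.F I := funext fun x => h1.F_tens isOpen_univ hL trivial
    rw [lcl, this, cl2_add (h1.cl_F isOpen_univ) (hL.cl_F isOpen_univ), smul_add]
    change lcl I L' + lcl I L = _
    rw [h2]; push_cast; module

/-! ### tracks -/

theorem kap_spt (hL : L.On I univ) {F : Fr I M ι} (hF : X.Pos F) {c : Cfg M ι (κ ⊕ κ) r}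
    {ξ : M → c.m.A} (A : c.Adm (X.B L) (L.geo F)) (S : SPt F c ξ) :
    c.kap (X.B L) (L.geo F) = -X.Q (lab F c ξ) (lab F c ξ) / 4 := kap_lab hL hF A.conn S.toRed A.ok

theorem tb_lab (T : Tb X L w K) : lab T.F T.x T.ξ = K - lcl I L := eq_sub_of_add_eq T.can

theorem tb_kap (hL : L.On I univ) (T : Tb X L w K) :
    T.x.kap (X.B L) (L.geo T.F) = -X.Q (K - lcl I L) (K - lcl I L) / 4 := by
  rw [kap_spt hL T.pos T.sw.adm T.sw.spt, tb_lab]

theorem pos_self (h : PathL X L) {F : Fr I M ι} (hF : X.Pos F) : X.Pos X.F :=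
  let ⟨P, h0, _⟩ := h F hF
  h0 ▸ P.pos 0

/-- the track to a Taubes datum -/
theorem trk_top [Nonempty M] (hL : L.On I univ) (ht : TopL X L) (hk : TrkS X L) (T : Tb X L w K)
    {k : ℝ} {j : ℕ} (h0 : k < 0) (h1 : k = -X.Q (K - lcl I L) (K - lcl I L) / 4)
    (h2 : 6 * k + X.d0 L + 2 * j = 0) : ∃ P : Trk X L k (K - lcl I L), P.Top j := by
  have e := (tb_kap hL T).trans h1.symm
  obtain ⟨P, a1, a2, a3, a4⟩ := hk T.F T.η k (∫ x, ‖T.x.m.Fg T.F T.x.W x‖ ^ 2 ∂T.F.μ) (K - lcl I L)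
    T.pos T.sm h0 fun h => by simp [h] at h1; exact h0.ne h1
  obtain ⟨b1, u, b2⟩ := a4 T.x T.ξ T.sw (tb_lab T) le_rfl
  refine ⟨P, ?_⟩
  unfold Trk.Top Ed.pa
  rw [a1]
  refine ⟨T.x, T.ξ, b1, e, T.sw.spt, tb_lab T, fun h => T.ne (Classical.arbitrary M) (congrFun h _),
    (ht w K T).2 P.D (P.w 1) u j P.ok a2 b1 b2 (by rwa [e]), fun c ζ c1 c2 c3 c4 => ?_⟩
  refine ((T.deg c ζ (a3 c ζ c1 c2 c3 c4)).resolve_left ?_).1
  simp [c4, tb_lab T]

/-- the track to equations without a solution of the label -/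
theorem trk_emp (hk : TrkS X L) {F : Fr I M ι} {η : M → Ext E} (hF : X.Pos F)
    (hη : η ∈ Num57.Om I M 2) {k : ℝ} (h0 : k < 0) {a : H2 I M} (ha : a ≠ 0)
    (h : ∀ c ξ, SWs (X.B L) (L.geo F) (cmp F η) c ξ → lab F c ξ ≠ a) : ∃ P : Trk X L k a, P.Emp := by
  obtain ⟨P, a1, -, a3, -⟩ := hk F η k 0 a hF hη h0 ha
  refine ⟨P, ?_⟩
  unfold Trk.Emp Ed.pa
  rw [a1]
  exact fun c ξ c1 c2 c3 c4 => h c ξ (a3 c ξ c1 c2 c3 c4) c4

/-- a Taubes datum excludes the labels of non-positive degree -/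
theorem trk_deg (hk : TrkS X L) (T : Tb X L w K) {k : ℝ} (h0 : k < 0) {a : H2 I M} (ha : a ≠ 0)
    (h1 : a ≠ K - lcl I L) (h2 : X.Q (cl2 I w) (a - (K - lcl I L)) ≤ 0) :
    ∃ P : Trk X L k a, P.Emp :=
  trk_emp hk T.pos T.sm h0 ha fun c ξ h e => by
    have := T.deg c ξ h
    rw [e, tb_lab] at this
    exact this.elim h2.not_gt fun k => h1 k.2

/-- below its level every track is empty -/
theorem emp_of_lt (hL : L.On I univ) {k : ℝ} {a : H2 I M} (h : k < -X.Q a a / 4) (P : Trk X L k a) :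
    P.Emp := fun c ξ c1 c2 c3 c4 => by
  rw [kap_spt hL (P.P.pos 1) c1.toAdm c3, c4] at c2
  exact h.not_ge c2

/-! ### the sign of `K · φ` -/

theorem ev_quad {a b c : ℝ} (ha : 0 < a) : ∀ᶠ m : ℕ in atTop, 0 < a * ((m : ℝ) + 1) ^ 2 + b * (m + 1) + c := by
  have h : Tendsto (fun m : ℕ => (m : ℝ) + 1) atTop atTop :=
    tendsto_atTop_add_const_right _ _ tendsto_natCast_atTop_atTop
  filter_upwards [h.eventually_ge_atTop 1, h.eventually_gt_atTop ((|b| + |c|) / a)] with m h1 h2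
  rw [div_lt_iff₀ ha] at h2
  nlinarith [neg_abs_le b, neg_abs_le c, abs_nonneg b, abs_nonneg c]

variable {Kf : (M → Ext E) → H2 I M} {s : ℝ}

theorem kphi [Nonempty M] (H : ∀ (κ : Type) [Fintype κ] [DecidableEq κ] (L : Ln E M κ), L.On I univ →
      LeafL X L ∧ TrkS X L ∧ AsdS X L ∧ RedS X L ∧ CoreS X L) (hK : Can X Kf s)
    (hφ : Cl I 2 univ φ) (h0 : φ * φ = 0) (hL : L.On I univ) (hw : X.Sy w w)
    (hc : cl2 I w = lcl I L) (h1 : ∀ x, 0 ≤ rat (Num57.vol X.F X.o) (w * φ) x) :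
    X.Q (Kf w) (cl2 I φ) ≤ 0 := by
  by_contra hn
  rw [not_le] at hn
  have hΛ := Q_sy hw
  rw [hc] at hΛ
  set Λ := lcl I L
  set σ : ℝ := (Num57.bp X.ok.ori : ℝ) - Num57.bm X.ok.ori
  set χ : ℝ := (Num57.bb I M 0 : ℝ) - Num57.bb I M 1 + Num57.bp X.ok.ori
  obtain ⟨m, m1, m2⟩ := ((ev_quad (b := -2 * X.Q (Kf w) Λ) (c := X.Q (Kf w) (Kf w)) hΛ).and
    (ev_quad (b := -3 * X.Q (Kf w) Λ) (c := 3 / 2 * X.Q (Kf w) (Kf w) + σ / 2 + 3 * χ) hΛ)).exists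
  obtain ⟨κ', _, _, L', l1, l2⟩ := exists_pow hL m
  change _ = _ • Λ at l2
  obtain ⟨hl, ht, -, -, hco⟩ := H κ' L' l1
  obtain ⟨T⟩ := hK.tb w hw κ' L' l1
  obtain ⟨N, hN, hN'⟩ : ∃ N : ℝ, 0 ≤ N ∧ 0 ≤ X.Q Λ (Kf w) + N * X.Q (Kf w) (cl2 I φ) :=
    ⟨|X.Q Λ (Kf w)| / X.Q (Kf w) (cl2 I φ), by positivity, by
      rw [div_mul_cancel₀ _ hn.ne']; linarith [neg_abs_le (X.Q Λ (Kf w))]⟩
  have s1 := sy_add hw hφ h0 h1 hN
  obtain ⟨T'⟩ := hK.tb _ (sy_neg (sy_right s1)) κ' L' l1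
  have e1 : X.Q (Kf w - lcl I L') (Kf w - lcl I L') =
      X.Q Λ Λ * ((m : ℝ) + 1) ^ 2 + -2 * X.Q (Kf w) Λ * (m + 1) + X.Q (Kf w) (Kf w) := by
    simp only [l2, map_sub, map_smul, LinearMap.sub_apply, LinearMap.smul_apply, smul_eq_mul,
      Q_comm X Λ (Kf w)]
    ring
  have e2 : X.d0 L' = (X.Q Λ Λ * ((m : ℝ) + 1) ^ 2 - σ) / 2 - 3 * χ := by
    simp only [Bk.d0, l2, map_smul, LinearMap.smul_apply, smul_eq_mul]
    ring
  obtain ⟨j, hj⟩ := (hl.top w _ T).1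
  rw [tb_kap l1] at hj
  set k := -X.Q (Kf w - lcl I L') (Kf w - lcl I L') / 4 with hk
  have k0 : k < 0 := by rw [hk, e1]; linarith
  have j0 : j ≤ 0 := by
    have : (j : ℝ) < 0 := by rw [hk, e1, e2] at hj; linarith
    exact_mod_cast this.le
  have j1 : 6 * k + X.d0 L' + 2 * ((-j).toNat : ℕ) = 0 := by
    have : (((-j).toNat : ℕ) : ℝ) = -j := by
      rw [← Int.cast_natCast, Int.toNat_of_nonneg (by omega), Int.cast_neg]
    rw [this]; linarith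
  obtain ⟨P, hP⟩ := trk_top l1 hl.top ht T k0 hk j1
  have kne : Kf w ≠ 0 := fun h => by simp [h] at hn
  have e3 : Kf (-(w + N • φ)) = -Kf w := by rw [hK.neg _ (sy_right s1), ← hK.eq _ _ s1]
  obtain ⟨P', hP'⟩ := trk_deg ht T' k0 (a := Kf w - lcl I L') (fun h => by simp [hk, h] at k0)
    (fun h => kne (by
      rw [e3, sub_left_inj, eq_neg_iff_add_eq_zero, ← two_smul ℝ] at h
      simpa using h)) (by
      rw [e3, cl2_neg s1.cl', cl2_add hw.cl (hφ.smul N), cl2_smul N hφ, hc]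
      simp only [map_sub, map_neg, map_add, map_smul, LinearMap.neg_apply, LinearMap.add_apply,
        LinearMap.smul_apply, smul_eq_mul, Q_comm X (cl2 I φ) (Kf w)]
      linarith)
  exact Bool.false_ne_true (((hco k _ k0 j1).2 Bool (fun _ => Kf w - lcl I L')
    (fun i => cond i P P') (· = true) (by rintro (_ | _) h; exacts [hP', (h rfl).elim])
    (by rintro _ rfl; exact hP) (by rintro _ _ rfl rfl; rfl)).1 true false rfl rfl)

/-! ### the other labels -/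

theorem arith (hL : L.On I univ) (hl : LeafL X L) (ht : TrkS X L) (hK : Can X Kf s) {C : ℝ}
    (hC : ∀ c ξ, SWs (X.B L) (L.geo X.F) (cmp X.F ((-1 / 2 : ℝ) • L.F I)) c ξ →
      X.Q (lab X.F c ξ + lcl I L) (lab X.F c ξ + lcl I L) ≤ C)
    (hφ : Cl I 2 univ φ) (h0 : φ * φ = 0) {m : ℕ} {b : Fin m → H2 I M} (hb : ∀ q, b q ∈ Lat I M)
    (hd : ∀ e, (∀ q, X.Q (b q) e = 0) → ∃ a : ℝ, e = a • cl2 I φ) {ρ : ℝ} (hρ : (C - s) / 2 ≤ ρ)
    (hw : X.Sy w w) (hc : cl2 I w = lcl I L) (hp : 0 < X.Q (lcl I L) (cl2 I φ))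
    (h1 : ∀ q, ∃ w', X.Sy w w' ∧ cl2 I w' = lcl I L + ρ • b q)
    (h2 : ∀ q, ∃ w', X.Sy w w' ∧ cl2 I w' = lcl I L - ρ • b q)
    (hφK : X.Q (Kf w) (cl2 I φ) ≤ 0) {k : ℝ} (k0 : k < 0)
    (hk : k ≤ -X.Q (Kf w - lcl I L) (Kf w - lcl I L) / 4) {a : H2 I M} (ha : a ∈ Lb X L k)
    (hne : a ≠ Kf w - lcl I L) : ∃ P : Trk X L k a, P.Emp := by
  obtain ⟨T⟩ := hK.tb w hw κ L hL
  have hX := pos_self hl.path T.pos
  obtain ⟨c, ξ, l, c1, c2, c3, c4⟩ := ha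
  rw [kap_spt hL hX c1.toAdm c3, c4] at c2
  have l0 : (0 : ℝ) ≤ l := l.cast_nonneg
  have a0 : a ≠ 0 := fun h => by simp only [h, map_zero, neg_zero, zero_div] at c2; linarith
  by_contra hn
  have q1 : X.Q (a + lcl I L) (a + lcl I L) ≤ C := by
    by_contra h
    have := hL.cl_F isOpen_univ
    exact hn (trk_emp ht hX ((Num57.Om I M 2).smul_mem _ ⟨this.sm, this.dg⟩) k0 a0
      fun c ξ h' e => h (e ▸ hC c ξ h'))
  have dg : ∀ w', X.Sy w w' → 0 < X.Q (cl2 I w') (a - (Kf w - lcl I L)) := fun w' h' => by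
    obtain ⟨T'⟩ := hK.tb w' (sy_right h') κ L hL
    rw [← hK.eq _ _ h'] at T'
    exact not_le.1 fun h => hn (trk_deg ht T' k0 a0 hne h)
  have q2 := dg w hw
  have q3 := hK.sq w hw
  set a₀ := Kf w - lcl I L with ha₀
  have eK : Kf w = a₀ + lcl I L := by simp [ha₀]
  rw [hc] at q2
  rw [eK] at q3 hφK
  have q4 : X.Q (lcl I L) (a - a₀) ≤ ρ := by
    simp only [map_add, map_sub, LinearMap.add_apply, Q_comm X a (lcl I L),
      Q_comm X a₀ (lcl I L)] at q1 q3 ⊢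
    linarith
  obtain ⟨t, e⟩ := hd (a - a₀) fun q => by
    obtain ⟨w₁, s₁, e₁⟩ := h1 q
    obtain ⟨w₂, s₂, e₂⟩ := h2 q
    have d₁ := dg _ s₁
    have d₂ := dg _ s₂
    rw [e₁, map_add, map_smul, LinearMap.add_apply, LinearMap.smul_apply, smul_eq_mul] at d₁
    rw [e₂, map_sub X.Q, map_smul, LinearMap.sub_apply, LinearMap.smul_apply, smul_eq_mul] at d₂
    obtain ⟨z₁, i₁⟩ := hl.int _ hX c ξ c1.toAdm c3 _ (hb q)
    obtain ⟨z₂, i₂⟩ := hl.int _ T.pos T.x T.ξ T.sw.adm T.sw.spt _ (hb q)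
    rw [c4] at i₁
    rw [tb_lab] at i₂
    have i : X.Q (b q) (a - a₀) = (z₁ - z₂ : ℤ) := by
      rw [map_sub, Q_comm X _ a, Q_comm X _ a₀, i₁, i₂, Int.cast_sub]
    rw [i] at d₁ d₂ ⊢
    have r0 : 0 < ρ := q2.trans_le q4
    have u₁ : ((-1 : ℤ) : ℝ) < (z₁ - z₂ : ℤ) := by push_cast at d₁ ⊢; nlinarith
    have u₂ : ((z₁ - z₂ : ℤ) : ℝ) < (1 : ℤ) := by push_cast at d₂ ⊢; nlinarith
    rw [Int.cast_lt] at u₁ u₂
    rw [show z₁ - z₂ = 0 by omega, Int.cast_zero]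
  have f0 : X.Q (cl2 I φ) (cl2 I φ) = 0 := by rw [Q_cl2 X hφ hφ, h0, Int54.integ_zero]
  rw [e, map_smul, smul_eq_mul] at q2
  have t0 : 0 < t := (mul_pos_iff_of_pos_right hp).1 q2
  rw [eq_add_of_sub_eq e] at c2
  simp only [map_add, map_smul, LinearMap.add_apply, LinearMap.smul_apply, smul_eq_mul, f0,
    Q_comm X (cl2 I φ) a₀] at c2 hφK
  nlinarith

/-! ### parity -/

theorem cnt_univ (P : Pa X L) (a : ℝ) (τ : Pt M ι (κ ⊕ κ) r n) (k : ℝ) :
    cntU (X.B L) (L.geo (P.F a)) τ k (fun c => P.yo a c ∈ (univ : Set (Yo X))) =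
      cntU (X.B L) (L.geo (P.F a)) τ k fun _ => True := rfl

theorem par_of_dat (hl : LeafL X L) {τ : Pt M ι (κ ⊕ κ) r n} {k : ℝ}
    (hk : 6 * k + X.d0 L + 2 * r - 2 * n - 2 = 0) (h : Dat X L τ k) :
    Par X L r n k (Odd (cntU (X.B L) (L.geo X.F) τ k fun _ => True)) := by
  obtain ⟨P, hF, hm, e, e0, hc⟩ := h.th
  intro e' he'
  have hI : ∀ t ∈ Icc (0 : ℝ) 1, NoI (X.B L) (L.geo (P.F t)) (sml (1 - t) τ) k := fun t ht => by
    rw [hF]; exact h.noI _ ⟨by linarith [ht.2], by linarith [ht.1]⟩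
  have i1 : (1 : ℝ) ∈ Icc (0 : ℝ) 1 := by simp
  obtain ⟨q, q1, ⟨e₁, q2, q3⟩, q4⟩ := gen hc hl.sz hm i1 hk (q₀ := 0)
    ⟨0, e0, fun t _ => Pa.bd_zero t⟩ (hI 1 i1)
    (Pa.ad_op hl.sz P e' (fun _ => 0) (γ := fun _ => 1) fun _ _ => abs_one.le)
    ⟨0, he', fun t _ => by simpa using Pa.bd_zero t⟩
  simp only [zero_add, one_smul] at q1 q3 q4
  have e1 : pq X L (P.F 1) (sml (1 - 1) τ) q = wq (X.B L) X.F q := by
    rw [pq, sub_self, sml_zero, pt0_add, hF]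
  have e2 : pq X L (P.F 0) (sml (1 - 0) τ) (0 + (0 : ℝ) • q) = τ := by
    rw [pq, sub_zero, sml_one, zero_smul, add_zero, wq_zero, add_pt0]
  have := (lst hc hl.sz hl.obn hm (smP_lin 0 q contDiff_id) hk isOpen_univ (Or.inr rfl)
    ⟨max e₁ 0, max_lt q2 e0, fun t ht => by
      simp only [Pa.bd, zero_add, wq_smul]
      refine (((q3 t ht).mono (le_max_left _ 0)).sml _).mono ?_
      rw [id, abs_of_nonneg ht.1]
      exact mul_le_of_le_one_left (le_max_right _ _) ht.2⟩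
    (fun t _ l c _ k => k.2 trivial) (fun t ht q l c a b _ => (hI t ht).ne a b.1 b.2)
    (by
      rintro a (rfl | rfl)
      · rw [id, e2, hF]; exact h.good
      · rw [id, zero_add, one_smul]; exact q4)).2
  rw [cnt_univ, cnt_univ, id, id, e2, zero_add, one_smul, e1, hF, hF, Nat.even_add'] at this
  rw [e1, hF] at q4
  refine ⟨q, by simpa only [Pa.bd, hF] using q1.bd i1, q4, this.symm⟩

theorem par_uniq (hl : LeafL X L) (ha : AsdS X L) (P : Pa X L) (hF : ∀ t, P.F t = X.F) {k : ℝ}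
    (k0 : k < 0) (hr : 0 < r) (hk : 6 * k + X.d0 L + 2 * r - 2 * n - 2 = 0) {b b' : Prop}
    (h : Par X L r n k b) (h' : Par X L r n k b') : b ↔ b' := by
  let D : Ed M := ⟨0, fun _ _ => 0, fun _ _ => 0, fun _ _ => 0, fun _ => 0, []⟩
  have hD : D.OK X.F := fun i => i.elim0
  have e0 : D.pa P (fun _ => 0) r n = fun _ => pt0 := funext fun t =>
    pt_ext (fun _ _ => by simp [Ed.pt, wpt, pt0]) (fun _ _ => by simp [Ed.pt, wpt, pt0])
      fun _ _ => by simp [Ed.pt, wpt, pt0]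
  obtain ⟨e, he, hc⟩ := hl.cmp P D (fun _ => 0) hD contDiff_const r n
  have hm := hl.mds P D (fun _ => 0) hD contDiff_const r n hr
  rw [e0] at hc hm
  obtain ⟨q, q1, q2, q3⟩ := h (e / 4) (by positivity)
  obtain ⟨q', q1', q2', q3'⟩ := h' (e / 4) (by positivity)
  have e1 : ∀ t q, pq X L (P.F t) (pt0 : Pt M ι (κ ⊕ κ) r n) q = wq (X.B L) X.F q := fun t q => by
    rw [pq, pt0_add, hF]
  have f0 : q + (0 : ℝ) • (q' + (-1 : ℝ) • q) = q := by simp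
  have f1 : q + (1 : ℝ) • (q' + (-1 : ℝ) • q) = q' := by simp
  have := (lst hc hl.sz hl.obn hm (smP_lin q (q' + (-1 : ℝ) • q) contDiff_id) hk isOpen_univ
    (Or.inr rfl) ⟨e / 4 + (e / 4 + e / 4), by linarith, fun t ht => by
      rw [Pa.bd, hF, wq_add, wq_smul, wq_add, wq_smul]
      refine (q1.add ((q1'.add (q1.sml (-1))).sml _)).mono ?_
      rw [id, abs_of_nonneg ht.1, abs_neg, abs_one, one_mul]
      nlinarith [ht.2]⟩
    (fun t _ l c _ k => k.2 trivial)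
    (fun t _ q l c a b _ => (ha _ (P.pos t) r n k k0).ne a b.1 b.2)
    (by
      rintro a (rfl | rfl)
      · rw [id, f0, e1, hF]; exact q2
      · rw [id, f1, e1, hF]; exact q2')).2
  rw [cnt_univ, cnt_univ, id, id, f0, f1, e1, e1, hF, hF, Nat.even_add', q3, q3'] at this
  exact this

theorem par_up (h : RedS X L) {j n n' : ℕ} (hn : n ≤ n') {k : ℝ} {b : Prop}
    (hp : Par X L (j + 1 + n) n k b) : Par X L (j + 1 + n') n' k b := by
  induction n', hn using Nat.le_induction with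
  | base => exact hp
  | succ m _ ih => exact h (j + 1 + m) m k b (by omega) ih

/-- **NV-FIN** -/
theorem finS [ConnectedSpace M] (X : Bk I M ι) : FinS X := by
  rintro H ⟨C, hC⟩ ⟨Kf, s, hK⟩
  refine ⟨Kf, s, hK.eq, hK.sq, fun w hw κ _ _ L hL => ?_, (C - s) / 2, fun φ hφ h0 =>
    ⟨fun κ _ _ L hL w hw hc h1 => kphi H hK hφ h0 hL hw hc h1,
      fun m b hb hd κ _ _ L hL w ρ hρ hw hc h1 hp h2 h3 h4 r n k τ hn hk hle hD => ?_⟩⟩
  · obtain ⟨T⟩ := hK.tb w hw κ L hL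
    obtain ⟨j, hj⟩ := ((H κ L hL).1.top w _ T).1
    exact ⟨j, by rw [tb_kap hL] at hj; linarith⟩
  obtain ⟨hl, ht, ha, hr, hco⟩ := H κ L hL
  obtain ⟨T⟩ := hK.tb w hw κ L hL
  obtain ⟨j, rfl⟩ : ∃ j, r = j + 1 + n := ⟨r - n - 1, by omega⟩
  have k0 : k < 0 := by linarith
  have j1 : 6 * k + X.d0 L + 2 * j = 0 := by push_cast at hk; linarith
  obtain ⟨f, hc'⟩ := hco k j k0 j1
  set a₀ := Kf w - lcl I L with ha₀
  set k₀ := -X.Q a₀ a₀ / 4 with hk₀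
  have : Finite (insert a₀ (Lb X L k) : Set (H2 I M)) := (f.insert _).to_subtype
  have tr : ∀ a : (insert a₀ (Lb X L k) : Set (H2 I M)), ∃ P : Trk X L k a,
      (¬(a = a₀ ∧ k = k₀) → P.Emp) ∧ (a = a₀ ∧ k = k₀ → P.Top j) := by
    rintro ⟨a, h⟩
    by_cases e : a = a₀
    · subst e
      rcases hle.eq_or_lt with e | e
      · obtain ⟨P, hP⟩ := trk_top hL hl.top ht T k0 e j1
        exact ⟨P, fun h => (h ⟨rfl, e⟩).elim, fun _ => hP⟩
      · obtain ⟨P, -⟩ := ht T.F T.η k 0 a₀ T.pos T.sm k0 fun h => by simp [h] at h4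
        exact ⟨P, fun _ => emp_of_lt hL e P, fun h => (e.ne h.2).elim⟩
    · obtain ⟨P, hP⟩ := arith hL hl ht hK (hC κ L hL) hφ h0 hb hd hρ hw hc hp h2 h3
        (kphi H hK hφ h0 hL hw hc h1) k0 hle (h.resolve_left e) e
      exact ⟨P, fun _ => hP, fun h => (e h.1).elim⟩
  choose P p1 p2 using tr
  obtain ⟨n', n1, n2⟩ := (hc' _ Subtype.val P _ p1 p2
    fun i i' h h' => Subtype.ext (h.1.trans h'.1.symm)).2 Subtype.val_injective
    (by rw [Subtype.range_coe]; exact subset_insert _ _) n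
  obtain ⟨Q, hQ, -⟩ := hD.th
  exact (par_uniq hl ha Q hQ k0 (by omega) (by push_cast; linarith)
    (par_up hr n1 (par_of_dat hl hk hD)) n2).trans
    ⟨fun ⟨_, h⟩ => h.2, fun h => ⟨⟨a₀, mem_insert _ _⟩, rfl, h⟩⟩

end Crest.Agent.X212.Sm10
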