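import Mathlib

/-!
# X212 / Sm10 (helper10): geometric realisations of order complexes

* `Wt P`    : barycentric weights (non-negative, total mass one, support a chain);
* `Real P E`: points `x s` such that `l ↦ ∑ l s • x s` is a bijection `Wt P → B`;
* `R.wt p`, `R.lam s p` : barycentric coordinates, `R.pl f` : PL extension of `f : P → F`;
* `R.spx c` : the simplex of a chain; `Ref R R'` : `R'` refines `R`.
-/

set_option autoImplicit false
set_option linter.unusedSectionVars false

open Set Filter Topology Function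

noncomputable section

namespace Crest.Agent.X212.Sm10

section comb

variable {P : Type*} [Fintype P] {E F : Type*} [AddCommGroup E] [Module ℝ E] [AddCommGroup F]
  [Module ℝ F]

/-- the combination `∑ l s • x s` -/
def cmb (x : P → E) : (P → ℝ) →ₗ[ℝ] E := Fintype.linearCombination ℝ x

theorem cmb_apply (x : P → E) (l : P → ℝ) : cmb x l = ∑ s, l s • x s := rfl

theorem cmb_single [DecidableEq P] (x : P → E) (s : P) (a : ℝ) : cmb x (Pi.single s a) = a • x s :=
  Fintype.linearCombination_apply_single ℝ x s a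

theorem map_cmb (L : E →ₗ[ℝ] F) (x : P → E) (l : P → ℝ) : L (cmb x l) = cmb (L ∘ x) l := by
  simp [cmb_apply]

theorem cmb_cmb {Q : Type*} [Fintype Q] (x : P → E) (β : Q → P → ℝ) (m : Q → ℝ) :
    cmb x (cmb β m) = cmb (fun c => cmb x (β c)) m := map_cmb _ _ _

theorem cmb_pi {ι : Type*} (β : P → ι → ℝ) (m : P → ℝ) (i : ι) : cmb β m i = ∑ s, m s * β s i := by
  simp [cmb_apply]

theorem cmb_real (f : P → ℝ) (l : P → ℝ) : cmb f l = ∑ s, l s * f s := rfl

theorem cmb_congr {x y : P → E} {l : P → ℝ} (h : ∀ s, l s ≠ 0 → x s = y s) : cmb x l = cmb y l :=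
  Finset.sum_congr rfl fun s _ => by
    by_cases e : l s = 0
    · simp [e]
    · rw [h s e]

theorem cmb_add (x y : P → E) (l : P → ℝ) : cmb (x + y) l = cmb x l + cmb y l := by
  simp [cmb_apply, Finset.sum_add_distrib]

theorem cmb_sub (x y : P → E) (l : P → ℝ) : cmb (x - y) l = cmb x l - cmb y l := by
  simp [cmb_apply, smul_sub]

theorem cmb_smul (a : ℝ) (x : P → E) (l : P → ℝ) : cmb (a • x) l = a • cmb x l := by
  simp [cmb_apply, Finset.smul_sum, smul_smul, mul_comm]

theorem cmb_const (v : E) (l : P → ℝ) : cmb (fun _ => v) l = (∑ s, l s) • v := by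
  simp [cmb_apply, Finset.sum_smul]

end comb

section weights

variable {P : Type*} [PartialOrder P] [Fintype P]

/-- non-negative weights supported on a chain -/
structure IsW0 (l : P → ℝ) : Prop where
  nonneg : ∀ s, 0 ≤ l s
  chain : IsChain (· ≤ ·) (support l)

/-- barycentric weights -/
structure IsWt (l : P → ℝ) : Prop extends IsW0 l where
  sum : ∑ s, l s = 1

variable (P) in
/-- the abstract geometric realisation of the order complex -/
def Wt : Set (P → ℝ) := {l | IsWt l}

theorem IsW0.pos {l : P → ℝ} (h : IsW0 l) {s : P} (hs : l s ≠ 0) : 0 < l s :=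
  (h.nonneg s).lt_of_ne' hs

theorem IsWt.le_one {l : P → ℝ} (h : IsWt l) (s : P) : l s ≤ 1 :=
  h.sum ▸ Finset.single_le_sum (fun t _ => h.nonneg t) (Finset.mem_univ s)

theorem IsWt.ne_zero {l : P → ℝ} (h : IsWt l) : l ≠ 0 := by
  rintro rfl
  simpa using h.sum

theorem IsWt.mk' {l : P → ℝ} {c : Set P} (hc : IsChain (· ≤ ·) c) (h0 : ∀ s, 0 ≤ l s)
    (h1 : ∑ s, l s = 1) (hs : support l ⊆ c) : l ∈ Wt P := ⟨⟨h0, hc.mono hs⟩, h1⟩

theorem single_mem [DecidableEq P] (s : P) : (Pi.single s 1 : P → ℝ) ∈ Wt P := by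
  refine IsWt.mk' (c := {s}) (Set.pairwise_singleton _ _) (fun t => ?_) (by simp) (fun t ht => ?_)
  · by_cases h : t = s
    · simp [h]
    · simp [h]
  · by_contra h
    exact ht (Pi.single_eq_of_ne h _)

/-- a non-zero weight has a top element in its support -/
theorem IsW0.top {l : P → ℝ} (h : IsW0 l) (h0 : l ≠ 0) : ∃ c, l c ≠ 0 ∧ ∀ s, l s ≠ 0 → s ≤ c := by
  obtain ⟨c, hc, hm⟩ := (toFinite (support l)).exists_maximal (support_nonempty_iff.2 h0)
  refine ⟨c, hc, fun s hs => ?_⟩
  rcases h.2.total (show s ∈ support l from hs) hc with e | e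
  · exact e
  · exact hm hs e

/-- a non-zero weight has a bottom element in its support -/
theorem IsW0.bot {l : P → ℝ} (h : IsW0 l) (h0 : l ≠ 0) : ∃ c, l c ≠ 0 ∧ ∀ s, l s ≠ 0 → c ≤ s := by
  obtain ⟨c, hc, hm⟩ := (toFinite (support l)).exists_minimal (support_nonempty_iff.2 h0)
  refine ⟨c, hc, fun s hs => ?_⟩
  rcases h.2.total (show s ∈ support l from hs) hc with e | e
  · exact hm hs e
  · exact e

theorem isClosed_Wt : IsClosed (Wt P) := by
  have : Wt P = (⋂ s, {l | 0 ≤ l s}) ∩ (⋂ s, ⋂ t, ⋂ (_ : ¬ (s ≤ t ∨ t ≤ s)), {l | l s * l t = 0}) ∩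
      {l | ∑ s, l s = 1} := by
    ext l
    simp only [Wt, mem_ofPred_eq, mem_inter_iff, mem_iInter]
    refine ⟨fun h => ⟨⟨h.nonneg, fun s t n => ?_⟩, h.sum⟩,
      fun h => ⟨⟨h.1.1, fun s hs t ht _ => ?_⟩, h.2⟩⟩
    · by_contra e
      rw [mul_eq_zero, not_or] at e
      exact n (h.chain.total (show s ∈ support l from e.1) (show t ∈ support l from e.2))
    · by_contra n
      exact mul_ne_zero hs ht (h.1.2 s t n)
  rw [this]
  refine ((isClosed_iInter fun s => isClosed_le continuous_const (continuous_apply s)).inter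
    (isClosed_iInter fun s => isClosed_iInter fun t => isClosed_iInter fun _ =>
      isClosed_eq (by fun_prop) continuous_const)).inter (isClosed_eq (by fun_prop) continuous_const)

theorem isCompact_Wt : IsCompact (Wt P) :=
  (isCompact_Icc (a := (0 : P → ℝ)) (b := 1)).of_isClosed_subset isClosed_Wt
    fun _ h => ⟨fun s => h.nonneg s, fun s => h.le_one s⟩

theorem cmb_mem_Icc {l f : P → ℝ} (h : l ∈ Wt P) {a b : ℝ} (hf : ∀ s, l s ≠ 0 → f s ∈ Icc a b) :
    cmb f l ∈ Icc a b := by
  have e : ∀ v : ℝ, v = ∑ s, l s * v := fun v => by rw [← Finset.sum_mul, h.2, one_mul]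
  constructor
  · rw [e a]
    refine Finset.sum_le_sum fun s _ => ?_
    by_cases e : l s = 0
    · simp [e]
    · exact mul_le_mul_of_nonneg_left (hf s e).1 (h.nonneg s)
  · rw [e b]
    refine Finset.sum_le_sum fun s _ => ?_
    by_cases e : l s = 0
    · simp [e]
    · exact mul_le_mul_of_nonneg_left (hf s e).2 (h.nonneg s)

theorem cmb_mem_convex {E : Type*} [AddCommGroup E] [Module ℝ E] {l : P → ℝ} (h : l ∈ Wt P)
    {x : P → E} {C : Set E} (hC : Convex ℝ C) (hx : ∀ s, l s ≠ 0 → x s ∈ C) : cmb x l ∈ C := by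
  classical
  have := hC.sum_mem (t := Finset.univ.filter fun s => l s ≠ 0) (w := l) (z := x)
    (fun s _ => h.nonneg s) (by rw [Finset.sum_filter_ne_zero, h.2])
    (fun s hs => hx s (Finset.mem_filter.1 hs).2)
  rwa [Finset.sum_filter_of_ne fun s _ hs => left_ne_zero_of_smul hs] at this

end weights

/-- a geometric realisation of the order complex of `P`, with underlying set `B` -/
structure Real (P : Type*) [PartialOrder P] [Fintype P] (E : Type*) [NormedAddCommGroup E]
    [NormedSpace ℝ E] where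
  x : P → E
  B : Set E
  bij : BijOn (cmb x) (Wt P) B

namespace Real

variable {P : Type*} [PartialOrder P] [Fintype P] {E : Type*} [NormedAddCommGroup E]
  [NormedSpace ℝ E] (R : Real P E) {F : Type*} [NormedAddCommGroup F] [NormedSpace ℝ F]

/-- barycentric coordinates of a point -/
def wt (p : E) : P → ℝ := invFunOn (cmb R.x) (Wt P) p

/-- one barycentric coordinate -/
def lam (s : P) (p : E) : ℝ := R.wt p s

/-- PL extension of a vertex function -/
def pl (f : P → F) (p : E) : F := cmb f (R.wt p)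

/-- the points whose carrier lies in `c`: a simplex for a chain, a full subcomplex in general -/
def spx (c : Set P) : Set E := {p | p ∈ R.B ∧ support (R.wt p) ⊆ c}

variable {R}

theorem wt_mem {p : E} (h : p ∈ R.B) : R.wt p ∈ Wt P := invFunOn_mem (R.bij.surjOn h)

theorem cmb_wt {p : E} (h : p ∈ R.B) : cmb R.x (R.wt p) = p := invFunOn_eq (R.bij.surjOn h)

theorem cmb_mem {l : P → ℝ} (h : l ∈ Wt P) : cmb R.x l ∈ R.B := R.bij.mapsTo h

theorem wt_cmb {l : P → ℝ} (h : l ∈ Wt P) : R.wt (cmb R.x l) = l :=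
  R.bij.injOn (wt_mem (cmb_mem h)) h (cmb_wt (cmb_mem h))

theorem pl_cmb (f : P → F) {l : P → ℝ} (h : l ∈ Wt P) : R.pl f (cmb R.x l) = cmb f l := by
  rw [pl, wt_cmb h]

theorem pl_x' {p : E} (h : p ∈ R.B) : R.pl R.x p = p := cmb_wt h

variable (R)

theorem x_mem (s : P) : R.x s ∈ R.B := by
  classical
  simpa [cmb_single] using cmb_mem (R := R) (single_mem s)

theorem wt_x [DecidableEq P] (s : P) : R.wt (R.x s) = Pi.single s 1 := by
  simpa [cmb_single] using wt_cmb (R := R) (single_mem s)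

@[simp] theorem pl_x (f : P → F) (s : P) : R.pl f (R.x s) = f s := by
  classical
  rw [pl, wt_x, cmb_single, one_smul]

theorem x_injective : Injective R.x := fun s t h => by
  classical
  have := R.wt_x s
  rw [h, wt_x] at this
  by_contra n
  simpa [n] using congrFun this s

theorem pl_real (f : P → ℝ) (p : E) : R.pl f p = ∑ s, R.lam s p * f s := rfl

theorem pl_single [DecidableEq P] (s : P) (p : E) : R.pl (Pi.single s (1 : ℝ)) p = R.lam s p := by
  simp [pl_real, Pi.single_apply]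

theorem isCompact_B : IsCompact R.B :=
  R.bij.image_eq ▸ isCompact_Wt.image (cmb R.x).continuous_of_finiteDimensional

theorem continuousOn_wt : ContinuousOn R.wt R.B := by
  rw [continuousOn_iff_isClosed]
  intro C hC
  refine ⟨cmb R.x '' (Wt P ∩ C), ((isCompact_Wt.inter_right hC).image
    (cmb R.x).continuous_of_finiteDimensional).isClosed, Subset.antisymm ?_ ?_⟩
  · rintro p ⟨h1, h2⟩
    exact ⟨⟨_, ⟨wt_mem h2, h1⟩, cmb_wt h2⟩, h2⟩
  · rintro _ ⟨⟨l, ⟨h1, h2⟩, rfl⟩, h3⟩
    exact ⟨by rwa [mem_preimage, wt_cmb h1], h3⟩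

theorem continuousOn_lam (s : P) : ContinuousOn (R.lam s) R.B :=
  (continuous_apply s).comp_continuousOn R.continuousOn_wt

theorem continuousOn_pl (f : P → F) : ContinuousOn (R.pl f) R.B :=
  (cmb f).continuous_of_finiteDimensional.comp_continuousOn R.continuousOn_wt

theorem spx_eq (c : Set P) : R.spx c = cmb R.x '' {l | l ∈ Wt P ∧ support l ⊆ c} := by
  refine Subset.antisymm (fun p h => ⟨_, ⟨wt_mem h.1, h.2⟩, cmb_wt h.1⟩) ?_
  rintro _ ⟨l, h, rfl⟩
  exact ⟨cmb_mem h.1, by rw [wt_cmb h.1]; exact h.2⟩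

theorem spx_mono {c d : Set P} (h : c ⊆ d) : R.spx c ⊆ R.spx d := fun _ k => ⟨k.1, k.2.trans h⟩

theorem spx_inter (c d : Set P) : R.spx (c ∩ d) = R.spx c ∩ R.spx d := by
  ext p
  simp only [spx, mem_ofPred_eq, subset_inter_iff, mem_inter_iff]
  tauto

theorem x_mem_spx {c : Set P} {s : P} : R.x s ∈ R.spx c ↔ s ∈ c := by
  classical
  refine ⟨fun h => h.2 (by simp [wt_x]), fun h => ⟨R.x_mem s, fun t ht => ?_⟩⟩
  by_cases e : t = s
  · exact e ▸ h
  · simp [wt_x, e] at ht

theorem isCompact_spx (c : Set P) : IsCompact (R.spx c) := by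
  rw [spx_eq]
  refine (isCompact_Wt.inter_right (t := {l | support l ⊆ c}) ?_).image
    (cmb R.x).continuous_of_finiteDimensional
  have : {l : P → ℝ | support l ⊆ c} = ⋂ s, ⋂ (_ : s ∉ c), {l | l s = 0} := by
    ext l
    simp only [mem_ofPred_eq, support_subset_iff', mem_iInter]
  rw [this]
  exact isClosed_iInter fun s => isClosed_iInter fun _ =>
    isClosed_eq (continuous_apply s) continuous_const

variable {R}

theorem convex_wts {c : Set P} (hc : IsChain (· ≤ ·) c) :
    Convex ℝ {l : P → ℝ | l ∈ Wt P ∧ support l ⊆ c} := by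
  intro l hl m hm a b ha hb hab
  have hs : support (a • l + b • m) ⊆ c := support_subset_iff'.2 fun s hs => by
    simp [support_subset_iff'.1 hl.2 s hs, support_subset_iff'.1 hm.2 s hs]
  refine ⟨IsWt.mk' hc (fun s => add_nonneg (mul_nonneg ha (hl.1.nonneg s))
    (mul_nonneg hb (hm.1.nonneg s))) ?_ hs, hs⟩
  simp [Finset.sum_add_distrib, ← Finset.mul_sum, hl.1.2, hm.1.2, hab]

theorem convex_spx {c : Set P} (hc : IsChain (· ≤ ·) c) : Convex ℝ (R.spx c) := by
  rw [spx_eq]
  exact (convex_wts hc).linear_image _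

theorem spx_eq_convexHull {c : Set P} (hc : IsChain (· ≤ ·) c) :
    R.spx c = convexHull ℝ (R.x '' c) := by
  refine Subset.antisymm (fun p h => ?_) (convexHull_min ?_ (convex_spx hc))
  · rw [← cmb_wt h.1]
    exact cmb_mem_convex (wt_mem h.1) (convex_convexHull _ _)
      fun s hs => subset_convexHull _ _ ⟨s, h.2 hs, rfl⟩
  · rintro _ ⟨s, hs, rfl⟩
    exact R.x_mem_spx.2 hs

theorem mem_spx_support {p : E} (h : p ∈ R.B) : p ∈ R.spx (support (R.wt p)) := ⟨h, subset_rfl⟩

/-- the barycentric coordinates are affine on simplices -/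
theorem wt_seg {c : Set P} (hc : IsChain (· ≤ ·) c) {p q : E} (hp : p ∈ R.spx c) (hq : q ∈ R.spx c)
    {a b : ℝ} (ha : 0 ≤ a) (hb : 0 ≤ b) (hab : a + b = 1) :
    R.wt (a • p + b • q) = a • R.wt p + b • R.wt q := by
  rw [← wt_cmb (R := R) (convex_wts hc ⟨wt_mem hp.1, hp.2⟩ ⟨wt_mem hq.1, hq.2⟩ ha hb hab).1, map_add,
    map_smul, map_smul, cmb_wt hp.1, cmb_wt hq.1]

/-- affine independence of the vertices of a simplex -/
theorem indep {c : Set P} (hc : IsChain (· ≤ ·) c) {m : P → ℝ} (hs : support m ⊆ c)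
    (h0 : ∑ s, m s = 0) (h1 : cmb R.x m = 0) : m = 0 := by
  by_contra n
  set a := ∑ s, max (m s) 0 with ha
  have e : ∀ s, max (m s) 0 - max (-m s) 0 = m s := fun s => max_zero_sub_eq_self _
  have hb : ∑ s, max (-m s) 0 = a := by
    have := Finset.sum_sub_distrib (s := Finset.univ) (fun s => max (m s) 0) fun s => max (-m s) 0
    simp only [e, h0] at this
    linarith
  have a0 : 0 < a := by
    refine (Finset.sum_nonneg fun s _ => le_max_right _ _).lt_of_ne' fun z => n (funext fun s => ?_)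
    have k1 := (Finset.sum_eq_zero_iff_of_nonneg fun s _ => le_max_right (m s) 0).1 z s (by simp)
    have k2 := (Finset.sum_eq_zero_iff_of_nonneg fun s _ => le_max_right (-m s) 0).1 (hb.trans z) s
      (by simp)
    rw [← e s, k1, k2, sub_zero, Pi.zero_apply]
  have w : ∀ u : P → ℝ, (∀ s, m s = 0 → u s = 0) → ∑ s, max (u s) 0 = a →
      (a⁻¹ • fun s => max (u s) 0) ∈ Wt P := fun u hu h =>
    IsWt.mk' hc (fun s => mul_nonneg (inv_nonneg.2 a0.le) (le_max_right _ _))
      (by simp only [Pi.smul_apply, smul_eq_mul, ← Finset.mul_sum, h, inv_mul_cancel₀ a0.ne'])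
      (support_subset_iff'.2 fun s k => by simp [hu s (support_subset_iff'.1 hs s k)])
  have em : ((fun s => max (m s) 0) - fun s => max (-m s) 0) = m := funext e
  have := R.bij.injOn (w m (fun _ h => h) rfl) (w (fun s => -m s) (fun _ h => by simp [h]) hb) (by
    rw [map_smul, map_smul, ← sub_eq_zero, ← smul_sub, ← map_sub, em, h1, smul_zero])
  rw [← sub_eq_zero, ← smul_sub, em, smul_eq_zero] at this
  exact this.elim (inv_pos.2 a0).ne' n

/-- on a simplex the barycentric coordinates are the restriction of one affine map -/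
theorem exists_aff [FiniteDimensional ℝ E] {c : Set P} (hc : IsChain (· ≤ ·) c) :
    ∃ (L : E →L[ℝ] (P → ℝ)) (b : P → ℝ), (∀ m : P → ℝ, support m ⊆ c → ∑ s, m s = 0 →
      L (cmb R.x m) = m) ∧ ∀ p ∈ R.spx c, R.wt p = L p + b := by
  let V : Submodule ℝ (P → ℝ) :=
    { carrier := {m | support m ⊆ c ∧ ∑ s, m s = 0}
      add_mem' := fun {m n} hm hn => ⟨(support_add _ _).trans (union_subset hm.1 hn.1), by
        simp [Finset.sum_add_distrib, hm.2, hn.2]⟩
      zero_mem' := ⟨by simp, by simp⟩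
      smul_mem' := fun a m hm => ⟨(support_const_smul_subset _ _).trans hm.1, by
        simp [← Finset.mul_sum, hm.2]⟩ }
  obtain ⟨g, hg⟩ := ((cmb R.x).comp V.subtype).exists_leftInverse_of_injective
    (LinearMap.ker_eq_bot'.2 fun m h => Subtype.ext (indep hc m.2.1 m.2.2 h))
  have k : ∀ m : P → ℝ, support m ⊆ c → ∑ s, m s = 0 →
      (V.subtype.comp g).toContinuousLinearMap (cmb R.x m) = m := fun m h1 h2 =>
    congrArg Subtype.val (LinearMap.congr_fun hg ⟨m, h1, h2⟩)
  rcases (R.spx c).eq_empty_or_nonempty with e | ⟨q, hq⟩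
  · exact ⟨_, 0, k, by simp [e]⟩
  refine ⟨_, R.wt q - (V.subtype.comp g).toContinuousLinearMap q, k, fun p hp => ?_⟩
  have := k (R.wt p - R.wt q) ((support_sub _ _).trans (union_subset hp.2 hq.2))
    (by simp [(wt_mem hp.1).2, (wt_mem hq.1).2])
  rw [map_sub, cmb_wt hp.1, cmb_wt hq.1, map_sub] at this
  linear_combination -this

theorem pl_mem_Icc {f : P → ℝ} {p : E} (h : p ∈ R.B) {a b : ℝ}
    (hf : ∀ s, R.lam s p ≠ 0 → f s ∈ Icc a b) : R.pl f p ∈ Icc a b := cmb_mem_Icc (wt_mem h) hf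

theorem pl_mem_convex {f : P → F} {p : E} (h : p ∈ R.B) {C : Set F} (hC : Convex ℝ C)
    (hf : ∀ s, R.lam s p ≠ 0 → f s ∈ C) : R.pl f p ∈ C := cmb_mem_convex (wt_mem h) hC hf

theorem pl_congr {f g : P → F} {p : E} (h : ∀ s, R.lam s p ≠ 0 → f s = g s) :
    R.pl f p = R.pl g p := cmb_congr h

theorem pl_const (v : F) {p : E} (h : p ∈ R.B) : R.pl (fun _ => v) p = v := by
  rw [pl, cmb_const, (wt_mem h).2, one_smul]

/-- transport along a linear isomorphism followed by a translation -/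
def map (R : Real P E) (L : E ≃L[ℝ] F) (v : F) : Real P F where
  x s := L (R.x s) + v
  B := (fun p => L p + v) '' R.B
  bij := by
    refine (((add_left_injective v).comp L.injective).injOn.bijOn_image.comp R.bij).congr
      fun l hl => ?_
    have := map_cmb (L : E →ₗ[ℝ] F) R.x l
    rw [show (fun s => L (R.x s) + v) = (L ∘ R.x) + fun _ => v from rfl, cmb_add, cmb_const, hl.2,
      one_smul]
    exact congrArg (· + v) this

end Real

/-- `R'` refines `R`: same underlying set, the coordinates of `R` are PL for `R'` -/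
structure Ref {P Q : Type*} [PartialOrder P] [Fintype P] [PartialOrder Q] [Fintype Q] {E : Type*}
    [NormedAddCommGroup E] [NormedSpace ℝ E] (R : Real P E) (R' : Real Q E) : Prop where
  B_eq : R'.B = R.B
  wt_eq : ∀ p ∈ R.B, R.wt p = R'.pl (fun c => R.wt (R'.x c)) p

namespace Ref

variable {P Q S : Type*} [PartialOrder P] [Fintype P] [PartialOrder Q] [Fintype Q] [PartialOrder S]
  [Fintype S] {E : Type*} [NormedAddCommGroup E] [NormedSpace ℝ E] {R : Real P E} {R' : Real Q E}
  {R'' : Real S E} {F : Type*} [NormedAddCommGroup F] [NormedSpace ℝ F]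

/-- a PL function stays PL -/
theorem pl_eq (h : Ref R R') (f : P → F) {p : E} (hp : p ∈ R.B) :
    R.pl f p = R'.pl (fun c => R.pl f (R'.x c)) p := by
  rw [Real.pl, h.wt_eq p hp, Real.pl, cmb_cmb]
  rfl

theorem refl (R : Real P E) : Ref R R := ⟨rfl, fun p _ => by
  classical
  funext s
  simp [Real.pl, cmb_pi, Real.wt_x, Pi.single_apply]⟩

theorem trans (h : Ref R R') (k : Ref R' R'') : Ref R R'' :=
  ⟨k.B_eq.trans h.B_eq, fun p hp => by
    rw [h.wt_eq p hp, k.pl_eq _ (h.B_eq ▸ hp)]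
    exact Real.pl_congr fun c _ => (h.wt_eq _ (h.B_eq ▸ k.B_eq ▸ R''.x_mem c)).symm⟩

/-- the carrier of a vertex of the fine simplex lies in the coarse carrier -/
theorem support_subset (h : Ref R R') {p : E} (hp : p ∈ R.B) {c : Q} (hc : R'.lam c p ≠ 0) :
    support (R.wt (R'.x c)) ⊆ support (R.wt p) := fun s hs => by
  have hp' : p ∈ R'.B := h.B_eq ▸ hp
  have w : ∀ d, R.wt (R'.x d) ∈ Wt P := fun d => Real.wt_mem (h.B_eq ▸ R'.x_mem d)
  rw [mem_support, h.wt_eq p hp, Real.pl, cmb_pi]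
  exact (Finset.sum_pos' (fun d _ => mul_nonneg ((Real.wt_mem hp').nonneg d) ((w d).nonneg s))
    ⟨c, Finset.mem_univ _, mul_pos ((Real.wt_mem hp').pos hc) ((w c).pos hs)⟩).ne'

theorem exists_support (h : Ref R R') {p : E} (hp : p ∈ R.B) {s : P} (hs : R.lam s p ≠ 0) :
    ∃ c, R'.lam c p ≠ 0 ∧ R.lam s (R'.x c) ≠ 0 := by
  rw [Real.lam, h.wt_eq p hp, Real.pl, cmb_pi] at hs
  obtain ⟨c, -, hc⟩ := Finset.exists_ne_zero_of_sum_ne_zero hs
  exact ⟨c, left_ne_zero_of_mul hc, right_ne_zero_of_mul hc⟩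

end Ref

end Crest.Agent.X212.Sm10
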