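import Crest.Agent.X212.Sm10.Hd2
import Crest.Agent.X212.Hel40.Twr
import Crest.Agent.X212.Hel40.Bas
import Crest.Agent.X212.Hd34.Hd

/-!
# X212 / Sm10 (helper10): `Hel40.Hd2Stmt`
-/

set_option autoImplicit false
set_option linter.unusedSectionVars false

open Set Filter Topology Function Complex
open scoped ContDiff Manifold
open Crest.Agent.X212.Dr59 Crest.Agent.X212.Int54 Crest.Agent.X212.Cyl58
open Crest.Agent.X212.Sep15 (CM)
open Crest.Agent.X212.Bb31 (Fm Df)
open Crest.Agent.X212.Hel40 Crest.Agent.X212.Orx52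

noncomputable section

namespace Crest.Agent.X212.Sm10

variable {R : CM 2} {o : Fm 2 R} {A B e : ℂ → R} {δ δ' : ℝ} {σ : ℝ → ℝ}

/-- a handle chart gives a handle whose first core does not separate the chart -/
theorem hd_loc (ho : Ori (𝓡 2) o) (h : Hdl e δ) : IsOpen (e '' Xo δ) ∧
    ∃ A B, H7.Hd o A B (δ / 2 / 2) ∧ range A ⊆ e '' Xo δ ∧ range B ⊆ e '' Xo δ ∧
      IsPreconnected (e '' Xo δ \ core A) := by
  have h0 := half_pos h.pos
  have h1 := half_lt_self h.pos
  obtain ⟨a, -, -, ⟨σ, hσ⟩, b⟩ := Hd34.hd1Stmt R e δ _ h h0 h1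
  obtain ⟨A, B, k, hd, rA, rB⟩ := hd_of_hdl ho h hσ h0 h1.le
  have s := image_mono (f := e) (Hd34.Xc_sub h1)
  refine ⟨a, A, B, hd, rA.trans s, rB.trans s, ?_⟩
  rcases k with rfl | rfl
  · exact (b σ hσ).2.2.1
  · rw [core_rf]; exact (b σ hσ).2.2.1

theorem core_sub (A : ℂ → R) : core A ⊆ range A := by
  rintro _ ⟨t, rfl⟩; exact ⟨_, rfl⟩

theorem rem_fin {X ι : Type*} [TopologicalSpace X] {V : Set X} {N H : ι → Set X}
    (hV : IsPreconnected V) (hN : ∀ i, IsOpen (N i)) (hH : ∀ i, IsClosed (H i))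
    (hHN : ∀ i, H i ⊆ N i) (hNV : ∀ i, N i ⊆ V) (hc : ∀ i, IsPreconnected (N i \ H i))
    (hd : ∀ i j, i ≠ j → Disjoint (N i) (N j)) (s : Finset ι) :
    IsPreconnected (V \ ⋃ i ∈ s, H i) := by
  classical
  induction s using Finset.induction_on with
  | empty => simpa using hV
  | insert i s hi ih =>
    rw [Finset.set_biUnion_insert, union_comm, ← Set.sdiff_sdiff]
    refine rem ih (hN i) (hH i) (hHN i) (fun x hx => ⟨hNV i hx, fun k => ?_⟩) (hc i)
    obtain ⟨j, hj, k⟩ := mem_iUnion₂.1 k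
    exact disjoint_left.1 (hd i j fun q => hi (q ▸ hj)) hx (hHN j k)

theorem an_post (h : H7.An o A) (k : Df R) (hk : Bb31.Pos o k) : H7.An o (k ∘ A) :=
  ⟨fun z => ld_comp (k.isLocalDiffeomorph _) (h.ld z),
    Orx52.Pos.comp (f := k) (s := univ) hk h.pos (fun y _ => k.isLocalDiffeomorph y)
      (fun z _ => h.ld z) (mapsTo_univ _ _),
    fun z w => k.injective.eq_iff.trans (h.per z w)⟩

theorem hd_post (h : H7.Hd o A B δ) (k : Df R) (hk : Bb31.Pos o k) : H7.Hd o (k ∘ A) (k ∘ B) δ :=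
  ⟨an_post h.hA k hk, an_post h.hB k hk, h.pos, h.small, fun z a b => congrArg k (h.box z a b),
    fun z w a b c => h.only z w a b (k.injective c)⟩

/-- **HD 2** -/
theorem hd2Stmt : Hd2Stmt := by
  refine fun R o ho => ⟨fun e δ h hc => ?_, fun e δ h hd hc => ?_, fun A B δ h => ?_,
    fun A B δ k h hk => hd_post h k hk⟩
  · obtain ⟨a, A, B, hd, rA, -, c⟩ := hd_loc ho h
    refine ⟨A, B, _, hd, ?_⟩
    have := rem hc a (Hd34.core_closed (an' hd.hA)) ((core_sub A).trans rA) (subset_univ _) c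
    rwa [← compl_eq_univ_sdiff] at this
  · choose A B hd' rA rB c using fun i => (hd_loc ho (h i)).2
    refine ⟨A, fun i => (hd' i).hA, fun i j k => (hd i j k).mono (rA i) (rA j), ?_⟩
    have := rem_fin hc (fun i => (hd_loc ho (h i)).1) (fun i => Hd34.core_closed (an' (hd' i).hA))
      (fun i => (core_sub _).trans (rA i)) (fun _ => subset_univ _) c hd Finset.univ
    simp only [Finset.mem_univ, iUnion_true, ← compl_eq_univ_sdiff] at this
    exact this
  · have := h.pos
    have := h.small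
    obtain ⟨e, he, -, -, k⟩ := hdl_of_hd h (δ' := δ / 2) (by linarith) (by linarith) (by linarith)
    exact ⟨e, _, he, image_subset_iff.2 fun z _ => k z⟩

end Crest.Agent.X212.Sm10
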