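import Crest.Agent.X212.Lad50.Gen
import Crest.Agent.X212.H7.K

/-!
# X212 / Sm10 (helper10): HEL-HD2, handle charts and plumbed annuli
-/

set_option autoImplicit false
set_option linter.unusedSectionVars false

open Set Filter Topology Function Complex
open scoped ContDiff Manifold
open Crest.Agent.X212.Dr59 Crest.Agent.X212.Int54 Crest.Agent.X212.Cyl58
open Crest.Agent.X212.Sep15 (CM)
open Crest.Agent.X212.Bb31 (Fm)
open Crest.Agent.X212.Hel40 Crest.Agent.X212.Orx52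

noncomputable section

namespace Crest.Agent.X212.Sm10

variable {R : CM 2} {o : Fm 2 R} {A B e : ℂ → R} {δ δ' : ℝ} {σ : ℝ → ℝ}

theorem an' (h : H7.An o A) : An' A := ⟨h.ld, h.per⟩

theorem an_of (ho : Ori (𝓡 2) o) (hA : An' A) (hp : Orx52.Pos Prf6.IC (𝓡 2) A {0} oZ o) :
    H7.An o A := by
  have : Nonempty R := ⟨A 0⟩
  exact ⟨hA.1, fun z _ => ((pm_C_iff ho).1 (Prf6.pm_of_conn isPreconnected_univ
    (fun z _ => ld_to.2 (hA.1 z)) (mem_univ 0) (mem_univ z)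
    ((pm_C_iff ho).2 ⟨hA.1 0, hp⟩))).2 z rfl, hA.2⟩

/-- reflection in the imaginary axis -/
def rf : ℂ ≃L[ℝ] ℂ := conjCLE.trans (ContinuousLinearEquiv.neg ℝ)

theorem rf_apply (z : ℂ) : rf z = -(starRingEnd ℂ) z := rfl
@[simp] theorem rf_re (z : ℂ) : (rf z).re = -z.re := by simp [rf_apply]
@[simp] theorem rf_im (z : ℂ) : (rf z).im = z.im := by simp [rf_apply]

theorem an'_rf (hA : An' A) : An' (A ∘ rf) :=
  ⟨fun z => ld_comp (hA.1 _) (Glue52.ld_clm rf z), fun z w => (hA.2 _ _).trans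
    ⟨fun ⟨n, h⟩ => ⟨-n, by simpa [Complex.ext_iff, neg_eq_iff_eq_neg, add_comm] using h⟩,
      fun ⟨n, h⟩ => ⟨-n, by simp [h, Complex.ext_iff, add_comm]⟩⟩⟩

/-- an annulus chart is positive up to a reflection which keeps the height -/
theorem an_or (ho : Ori (𝓡 2) o) (hA : An' A) : H7.An o A ∨ H7.An o (A ∘ rf) := by
  have : Nonempty R := ⟨A 0⟩
  refine (Mcg32.pm_or (o := (sf ho).o) (ld_to.2 (hA.1 0))).imp
    (fun h => an_of ho hA ((pm_C_iff ho).1 h).2) fun h => an_of ho (an'_rf hA) ((pm_C_iff ho).1 ?_).2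
  have k := Prf6.pm_affine (neg_ne_zero.2 one_ne_zero) 0 0
  refine (Prf6.Pm.comp (f := fun w => 0 + -1 * w) (by rw [mul_zero, add_zero]; exact h) k).congr
    (Eventually.of_forall fun z => ?_)
  simp [rf_apply]

theorem hdl_lin (h : Hdl e δ) (L : ℂ ≃L[ℝ] ℂ) (h1 : ∀ z ∈ Xo δ, L z ∈ Xo δ)
    (h2 : ∀ z w, Lat (L z) (L w) ↔ Lat z w) : Hdl (e ∘ L) δ :=
  ⟨h.pos, h.lt, fun z hz => ld_comp (h.ld _ (h1 z hz)) (Glue52.ld_clm L z),
    fun z hz w hw => (h.eq _ (h1 z hz) _ (h1 w hw)).trans (h2 z w)⟩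

theorem lat_iff {z w : ℂ} : Lat z w ↔ (∃ m : ℤ, w.re = z.re + m) ∧ ∃ n : ℤ, w.im = z.im + n :=
  ⟨fun ⟨m, n, h⟩ => ⟨⟨m, by simp [h]⟩, n, by simp [h]⟩,
    fun ⟨⟨m, h⟩, n, k⟩ => ⟨m, n, by simp [Complex.ext_iff, h, k]⟩⟩

theorem ex_neg {x y : ℝ} : (∃ m : ℤ, -x = -y + m) ↔ ∃ m : ℤ, x = y + m :=
  ⟨fun ⟨m, h⟩ => ⟨-m, by push_cast; linarith⟩, fun ⟨m, h⟩ => ⟨-m, by push_cast; linarith⟩⟩

theorem abs_neg_int {x : ℝ} {n : ℤ} : |-x - (-n : ℤ)| = |x - n| := by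
  rw [← abs_neg]; push_cast; ring_nf

theorem hdl_rf (h : Hdl e δ) : Hdl (e ∘ rf) δ :=
  hdl_lin h rf (fun z hz => hz.imp (fun ⟨n, k⟩ => ⟨-n, by rwa [rf_re, abs_neg_int]⟩) fun ⟨n, k⟩ =>
    ⟨n, by rwa [rf_im]⟩) fun z w => by simp only [lat_iff, rf_re, rf_im, ex_neg]

/-- the quarter turn -/
def qt : ℂ ≃L[ℝ] ℂ := (rotation ⟨I, by simp [Submonoid.unitSphere]⟩).toContinuousLinearEquiv

theorem qt_apply (z : ℂ) : qt z = I * z := rfl

theorem hdl_qt (h : Hdl e δ) : Hdl (e ∘ qt) δ :=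
  hdl_lin h qt (fun z hz => (hz.imp (fun ⟨n, k⟩ => ⟨n, by simpa [qt_apply] using k⟩) fun ⟨n, k⟩ =>
    ⟨-n, by rw [← abs_neg_int] at k; simpa [qt_apply] using k⟩).symm) fun z w => by
      simp [lat_iff, qt_apply, ex_neg, and_comm]

theorem ld_sq (hσ : Sq δ' σ) (z : ℂ) :
    Prf6.Pm Prf6.oC Prf6.oC (fun z : ℂ => (z.re + σ z.im * I : ℂ)) z := by
  have h1 := hσ.sm
  refine Prf6.pm_C isOpen_univ (mem_univ z) (ContDiff.contDiffOn (by
    exact (ofRealCLM.contDiff.comp reCLM.contDiff).add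
      ((ofRealCLM.contDiff.comp (h1.comp imCLM.contDiff)).mul contDiff_const))) ?_
  have := (ofRealCLM.hasFDerivAt.comp z reCLM.hasFDerivAt).add
    ((ofRealCLM.hasFDerivAt.comp z ((h1.differentiable (by simp) z.im).hasDerivAt.hasFDerivAt.comp z
      imCLM.hasFDerivAt)).mul_const I)
  rw [show fderiv ℝ (fun z : ℂ => (z.re + σ z.im * I : ℂ)) z = _ from this.fderiv, Prf6.det_C]
  simpa using hσ.pos z.im

theorem sq_mem (hσ : Sq δ' σ) (z : ℂ) : (z.re + σ z.im * I : ℂ) ∈ Xc δ' :=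
  Or.inr ⟨0, by simpa using (hσ.lt _).le⟩

theorem an'_hA (h : Hdl e δ) (hσ : Sq δ' σ) (hδ : δ' ≤ δ) : An' (hA e σ) := by
  have m : ∀ z : ℂ, (z.re + σ z.im * I : ℂ) ∈ Xo δ := fun z =>
    Or.inr ⟨0, by simpa using (hσ.lt _).trans_le hδ⟩
  refine ⟨fun z => ld_comp (h.ld _ (m z)) (ld_sq hσ z).1, fun z w => (h.eq _ (m z) _ (m w)).trans ?_⟩
  rw [lat_iff]
  simp only [add_re, ofReal_re, mul_re, I_re, mul_zero, ofReal_im, I_im, mul_one, sub_self, add_zero,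
    add_im, mul_im, zero_add]
  refine ⟨fun ⟨⟨m, h1⟩, n, h2⟩ => ⟨m, Complex.ext (by simpa using h1) ?_⟩, fun ⟨n, k⟩ =>
    ⟨⟨n, by simp [k]⟩, 0, by simp [k]⟩⟩
  have a := abs_lt.1 (hσ.lt z.im)
  have b := abs_lt.1 (hσ.lt w.im)
  have : |n| < 1 := by
    rw [← @Int.cast_lt ℝ, Int.cast_abs, Int.cast_one, abs_lt]
    constructor <;> linarith [h.lt]
  rw [Int.abs_lt_one_iff.1 this, Int.cast_zero, add_zero] at h2
  simpa using (strictMono_of_deriv_pos hσ.pos).injective h2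

theorem hd_of_an (ho : Ori (𝓡 2) o) (h : Hdl e δ) (hσ : Sq δ' σ) (h0 : 0 < δ') (hδ : δ' ≤ δ)
    (hp : H7.An o (hA e σ)) : H7.Hd o (hA e σ) (hA (e ∘ qt) σ) (δ' / 2) := by
  have : Nonempty R := ⟨e 0⟩
  have eq : ∀ (e : ℂ → R) (z : ℂ), |z.im| < δ' / 2 → hA e σ z = e z := fun e z hz => by
    rw [hA, hσ.id _ hz.le, re_add_im]
  have box : ∀ z : ℂ, |z.re| < δ' / 2 → |z.im| < δ' / 2 → hA (e ∘ qt) σ z = hA e σ (I * z) :=
    fun z h1 h2 => by rw [eq _ _ h2, eq _ _ (by simpa using h1)]; rfl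
  refine ⟨hp, an_of ho (an'_hA (hdl_qt h) hσ hδ) ((pm_C_iff ho).1 ?_).2, half_pos h0,
    by linarith [h.lt], box, fun z w h1 h2 k => ?_⟩
  · refine (Prf6.Pm.comp (f := fun w => 0 + I * w) ((pm_C_iff ho).2 ⟨hp.ld _, fun y _ => hp.pos y trivial⟩)
      (Prf6.pm_affine I_ne_zero 0 0)).congr ?_
    filter_upwards [continuous_re.abs.continuousAt.eventually_lt_const
      (show |(0 : ℂ).re| < δ' / 2 by simpa using h0), continuous_im.abs.continuousAt.eventually_lt_const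
      (show |(0 : ℂ).im| < δ' / 2 by simpa using h0)] with z h1 h2
    rw [comp_apply, box z h1 h2, comp_apply, comp_apply, zero_add]
  · rw [eq _ _ h1, eq _ _ h2] at k
    obtain ⟨n, hn⟩ := (lat_iff.1 ((h.eq z (Or.inr ⟨0, by simpa using by linarith⟩) (I * w)
      (Or.inl ⟨0, by simpa using by linarith⟩)).1 k)).2
    exact ⟨n, by rwa [show w.re - n = z.im by simpa [sub_eq_iff_eq_add] using hn]⟩

theorem hA_rf (e : ℂ → R) (σ : ℝ → ℝ) : hA (e ∘ rf) σ = hA e σ ∘ rf := funext fun z =>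
  congrArg e (by simp [Complex.ext_iff])

theorem range_hA (hσ : Sq δ' σ) (L : ℂ → ℂ) (hL : MapsTo L (Xc δ') (Xc δ')) :
    range (hA (e ∘ L) σ) ⊆ e '' Xc δ' := by
  rintro _ ⟨z, rfl⟩
  exact ⟨_, hL (sq_mem hσ z), rfl⟩

theorem xc_rf : MapsTo rf (Xc δ) (Xc δ) := fun _ hz =>
  hz.imp (fun ⟨n, k⟩ => ⟨-n, by rwa [rf_re, abs_neg_int]⟩) fun ⟨n, k⟩ => ⟨n, by rwa [rf_im]⟩

theorem xc_qt : MapsTo qt (Xc δ) (Xc δ) := fun _ hz =>
  (hz.imp (fun ⟨n, k⟩ => ⟨n, by simpa [qt_apply] using k⟩) fun ⟨n, k⟩ =>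
    ⟨-n, by rw [← abs_neg_int] at k; simpa [qt_apply] using k⟩).symm

/-- **HD 2**: a handle chart gives two plumbed positive annuli -/
theorem hd_of_hdl (ho : Ori (𝓡 2) o) (h : Hdl e δ) (hσ : Sq δ' σ) (h0 : 0 < δ') (hδ : δ' ≤ δ) :
    ∃ A B, (A = hA e σ ∨ A = hA e σ ∘ rf) ∧ H7.Hd o A B (δ' / 2) ∧ range A ⊆ e '' Xc δ' ∧
      range B ⊆ e '' Xc δ' := by
  rcases an_or ho (an'_hA h hσ hδ) with k | k
  · exact ⟨_, _, Or.inl rfl, hd_of_an ho h hσ h0 hδ k, range_hA hσ id (mapsTo_id _),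
      range_hA hσ qt xc_qt⟩
  · exact ⟨_, _, Or.inr (hA_rf e σ), hd_of_an ho (hdl_rf h) hσ h0 hδ (hA_rf e σ ▸ k),
      range_hA hσ rf xc_rf, range_hA hσ (rf ∘ qt) (xc_rf.comp xc_qt)⟩

theorem core_rf (A : ℂ → R) : core (A ∘ rf) = core A := by
  ext x
  constructor <;> rintro ⟨t, rfl⟩ <;> exact ⟨-t, by simp [rf_apply]⟩

theorem range_rf (A : ℂ → R) : range (A ∘ rf) = range A := rf.surjective.range_comp A

theorem band_rf (A : ℂ → R) (p : ℝ → Prop) : (A ∘ rf) '' {z | p z.im} = A '' {z | p z.im} := by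
  ext x
  constructor <;> rintro ⟨z, hz, rfl⟩ <;> exact ⟨rf z, by simpa using hz, by simp [rf_apply]⟩

theorem del_rf (hA : An' A) (ε : ℝ) : del (A ∘ rf) ε = del A ε := funext fun x => by
  by_cases h : ∃ z, (A ∘ rf) z = x
  · obtain ⟨z, rfl⟩ := h
    rw [Hd34.del_app (an'_rf hA), comp_apply, Hd34.del_app hA, rf_im]
  · rw [del, del, dif_neg h, dif_neg fun ⟨z, k⟩ => h ⟨rf.symm z, by
      rw [comp_apply, rf.apply_symm_apply, k]⟩]

/-- two plumbed annuli give a handle chart -/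
theorem hdl_of_hd (h : H7.Hd o A B δ) (h0 : 0 < δ') (h1 : δ' ≤ δ) (h2 : δ' < 1 / 2) :
    ∃ e, Hdl e δ' ∧ (∀ z : ℂ, |z.im| < δ' → e z = A z) ∧
      (∀ z : ℂ, |z.re| < δ' → e z = B (-I * z)) ∧ ∀ z, e z ∈ range A ∪ range B := by
  have box := fun z (a : |z.re| < δ') (b : |z.im| < δ') => h.box z (a.trans_le h1) (b.trans_le h1)
  refine ⟨Lad50.Gn.hc A B δ', Lad50.Gn.hdl_hc (an' h.hA) (an' h.hB) h0 h2 box fun z w a b k => ?_,
    fun z hz => ?_, fun z hz => ?_, fun z => ?_⟩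
  · obtain ⟨m, hm⟩ := h.only z w (a.trans_le h1) (b.trans_le h1) k
    have c := h.box (w - m) (by simpa using hm) (by simpa using b.trans_le h1)
    rw [← Lad50.Gn.An'.per (an' h.hB) _ m, sub_add_cancel, ← k] at c
    obtain ⟨n, hn⟩ := (h.hA.per _ _).1 c
    exact ⟨m, by rwa [show w.re - m = z.im by simpa using congrArg im hn]⟩
  · simpa using Lad50.Gn.hc_H (A := A) (B := B) h2 (z := z) (n := 0) (by simpa using hz)
  · simpa using Lad50.Gn.hc_V (an' h.hA) (an' h.hB) h2 box (z := z) (m := 0) (by simpa using hz)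
  · unfold Lad50.Gn.hc
    split_ifs
    exacts [Or.inl ⟨_, rfl⟩, Or.inr ⟨_, rfl⟩]

end Crest.Agent.X212.Sm10
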