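import Crest.Agent.X212.Kh11.Bas
import Crest.Agent.X212.Hp13.TraD
import Crest.Agent.X212.Cut21.Brg

/-!
# X212 / Sm10 (helper10): KH-MV3, levels and sides
-/

set_option autoImplicit false
set_option linter.unusedSectionVars false

open Finset Classical

noncomputable section

namespace Crest.Agent.X212.Sm10.Mv

open Hp13 hiding sub_cl cl_low om_low cl_mono exOn_pb exOn_add exOn_neg exOn_congr dp_iff coc_iff
open Hk
open Alg36 (Om Esc mix Clo)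
open Kh11 (WS CE)

variable {P R : Type} [PartialOrder P] [Fintype P] [PartialOrder R]
  {X Y G H K A B Z N X' U V : Set P} {w u : P → P → ℤ} {car : P → R} {t t' : St} {f : t.P → P}

/-! ### levels -/

theorem tw_trans {g : t'.P → t.P} (h : Tw P t f) (h' : Tw t.P t' g) : Tw P t' (f ∘ g) := by
  have e : t.A = Set.univ := h.A_eq
  obtain ⟨Q, A⟩ := t
  obtain rfl : A = Set.univ := e
  exact Desc.trans h h'

theorem tw2 : Tw P (lv0 P).sd.sd t2 := (Desc.sd _).step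

theorem tw_t2 {f : t.P → Ch (Ch P)} (h : Tw (Ch (Ch P)) t f) : Tw P t (t2 ∘ f) :=
  tw_trans (t := (lv0 P).sd.sd) tw2 h

theorem tw_mono (h : Tw P t f) : Monotone f := Desc.mono h

theorem tw_ws (h : Tw P t f) (E : Set P) : WS (f ⁻¹' E) E f := (Desc.ce h).ws_pre E

theorem tw_ctr (h : Tw P t f) (k : Ctr K) : Ctr (f ⁻¹' K) := (tw_ws h K).ctr_iff.2 k

theorem tw_conn (h : Tw P t f) (k : Conn K) : Conn (f ⁻¹' K) := (tw_ws h K).conn_iff.2 k

theorem tw_ne (h : Tw P t f) (k : K.Nonempty) : (f ⁻¹' K).Nonempty := k.preimage (Desc.surj h)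

theorem tw_ind (p : (t : St) → (t.P → P) → Prop) (h : Tw P t f) (h0 : p (lv0 P) id)
    (hs : ∀ t f, Tw P t f → p t f → p t.sd (f ∘ Ch.top)) : p t f :=
  Desc.rec (s := lv0 P) (motive := fun t f _ => p t f) h0 (fun a ih => hs _ _ a ih) h

theorem tw_cl (h : Tw P t f) : cl (f ⁻¹' X) = f ⁻¹' cl X :=
  tw_ind (fun _ f => cl (f ⁻¹' X) = f ⁻¹' cl X) h rfl fun _ _ _ ih =>
    cl_sd.trans (congrArg (Ch.top ⁻¹' ·) ih)

theorem tw_om (h : Tw P t f) : Om (f ⁻¹' X) = f ⁻¹' Om X :=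
  Set.ext fun x => by rw [mem_om, tw_cl h]; rfl

theorem tw_rg (h : Tw P t f) (k : Rg X) : Rg (f ⁻¹' X) :=
  tw_ind (fun _ f => Rg (f ⁻¹' X)) h k fun _ _ _ ih => rg_sd ih

theorem tw_amb (h : Tw P t f) (k : Amb X) : Amb (f ⁻¹' X) :=
  tw_ind (fun _ f => Amb (f ⁻¹' X)) h k fun _ _ _ ih => amb_sd ih

theorem tw_sub (h : Tw P t f) (k : Sub Y X) : Sub (f ⁻¹' Y) (f ⁻¹' X) :=
  ⟨tw_rg h k.toRg, tw_amb h k.amb, Set.preimage_mono k.sub⟩

theorem tw_mfIn (h : Tw P t f) (hH : IsLowerSet H) (k : MfIn H A) : MfIn (f ⁻¹' H) (f ⁻¹' A) :=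
  tw_ind (fun _ f => MfIn (f ⁻¹' H) (f ⁻¹' A)) h k fun _ _ a ih =>
    mfIn_sd (hH.preimage (tw_mono a)) ih

theorem tw_bd (h : Tw P t f) (k : Bd X G) : Bd (f ⁻¹' X) (f ⁻¹' G) :=
  ⟨k.low.preimage (tw_mono h), tw_om h ▸ Set.preimage_mono k.sub, fun x a y b l =>
    k.clo _ a _ (by rwa [tw_om h] at b) (tw_mono h l)⟩

theorem tv_sd (k : TV car X G) :
    TV (car ∘ Ch.top) (Ch.top ⁻¹' X : Set (Ch P)) (Ch.top ⁻¹' G) := fun T hT c a b => by
  have := Pt30.ctr_over (d := c) (V := {y | y ∈ X ∧ car y ∈ T}) (fun _ => True) trivial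
    (by convert k T hT c.top a b using 1; exact Set.ext fun _ => ⟨fun j => ⟨j.1.1, j.2, j.1.2⟩,
      fun j => ⟨⟨j.1, j.2.2⟩, j.2.1⟩⟩)
  convert this using 1
  exact Set.ext fun _ =>
    ⟨fun j => ⟨j.2.1, ⟨j.1, j.2.2⟩, trivial⟩, fun j => ⟨j.2.1.1, j.1, j.2.1.2⟩⟩

theorem tw_tv (h : Tw P t f) (k : TV car X G) : TV (car ∘ f) (f ⁻¹' X) (f ⁻¹' G) :=
  tw_ind (fun _ f => TV (car ∘ f) (f ⁻¹' X) (f ⁻¹' G)) h k fun _ _ _ ih => tv_sd ih

theorem tw_two (h : Tw P t f) (k : Two car Y X G X') :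
    Two (car ∘ f) (f ⁻¹' Y) (f ⁻¹' X) (f ⁻¹' G) (f ⁻¹' X') :=
  ⟨k.mono.comp (tw_mono h), k.up.preimage (tw_mono h), k.up'.preimage (tw_mono h),
    Set.preimage_mono k.sub, Set.preimage_mono k.sub', fun _ a => k.cov _ a, k.dj.preimage f,
    k.dg.preimage f, tw_bd h k.bd, tw_tv h k.tv, tw_tv h k.tv'⟩

theorem tw_inc (h : Tw P t f) (k : INC X G) : INC (f ⁻¹' X) (f ⁻¹' G) :=
  fun _ _ a => k _ _ (tw_trans h a)

theorem tw_nb (h : Tw P t f) (k : NB Y G) : NB (f ⁻¹' Y) (f ⁻¹' G) :=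
  fun _ _ a => k _ _ (tw_trans h a)

theorem tw_mem (h : Tw P t f) (k : Mem car Y U G V) :
    Mem (car ∘ f) (f ⁻¹' Y) (f ⁻¹' U) (f ⁻¹' G) (f ⁻¹' V) :=
  ⟨tw_two h k.two, Set.preimage_mono k.sub, tw_conn h k.conn, tw_ne h k.ne,
    tw_om h ▸ Set.preimage_mono k.om, tw_inc h k.inc, tw_inc h k.inc', tw_nb h k.nb⟩

theorem tw_ex {Γ : Type} [AddCommGroup Γ] {ζ : P → P → Γ} (h : Tw P t f) (k : CocOn K ζ) :
    ExOn K ζ ↔ ExOn (f ⁻¹' K) (pb f ζ) :=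
  ⟨fun a => exOn_pb a (tw_mono h), (tw_ws h K).ex k⟩

/-- a move keeps the boundary on `G` -/
theorem tr_on {w' : t.P → t.P → ℤ} (h : Tr X A w t f w') (hX : IsUpperSet X) (hG : Bd X G)
    (hA : Disjoint (Om X \ G) A) (o : On X G w) : On (f ⁻¹' X) (f ⁻¹' G) w' := by
  have := h.flat _ (hG.low_diff hX) hA (Flat.mono o Set.inter_subset_left)
  unfold On
  rw [tw_om h.tw]
  exact this.mono fun _ a => ⟨a, a.1.2⟩

theorem cmp_ctr (h : Ctr K) : ∀ D, IsCmp K D → Ctr D := fun D ⟨x, a, e⟩ => by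
  rwa [show D = K from e.trans (Set.ext fun y => ⟨fun b => b.1, fun b => ⟨b, h.conn x a y b⟩⟩)]

/-! ### sides -/

/-- a connected set off `G` lies on one side -/
theorem side (h : Two car Y X G X') (hK : K ⊆ Y) (c : Conn K) (d : Disjoint K G) {x : P}
    (a : x ∈ K) (b : x ∈ X) : K ⊆ X := fun y k =>
  (c x a y k).ind b fun p hp _ _ l => ⟨h.up l, fun j =>
    ((h.cov p (hK hp)).resolve_right fun m => m.elim (Set.disjoint_left.1 d hp)
      fun m => Set.disjoint_left.1 h.dj j (h.up' l m))⟩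

theorem two_symm (h : Two car Y X G X') (hY : IsUpperSet Y) (hG : G ⊆ Y) : Two car Y X' G X :=
  ⟨h.mono, h.up', h.up, h.sub', h.sub, fun y a => by have := h.cov y a; tauto, h.dj.symm,
    Set.disjoint_left.2 fun _ a b => h.bd.not b a,
    ⟨h.bd.low, fun x a =>
      let ⟨y, b⟩ := (h.tv' Set.univ isLowerSet_univ x ⟨a, hG a⟩ trivial).ne
      ⟨fun j => Set.disjoint_left.1 h.dg j a, y, b.1, b.2.1⟩,
    fun x a y b l => by
      obtain ⟨b1, v, b2, b3⟩ := b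
      rcases h.cov y (hY l (hG a)) with j | j | j
      · exact absurd b2 (Set.disjoint_left.1 h.dj (h.up b3 j))
      · exact j
      · exact absurd j b1⟩, h.tv', h.tv⟩

theorem two_rg (h : Two car Y X G X') (hY : Rg Y) (hG : G ⊆ Y) : Rg X := by
  refine rg_of h.up (hY.mf.mono h.sub) fun x ⟨a, v, b, l⟩ => ?_
  by_cases k : x ∈ G
  · simpa using h.tv Set.univ isLowerSet_univ x ⟨k, hG k⟩ trivial
  · have c := hY.ctr (x := x) ⟨v, h.sub b, l⟩
    have s := side h (K := {a | a ∈ Y ∧ x ≤ a}) (fun _ j => j.1) c.conn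
      (Set.disjoint_left.2 fun _ j m => k (h.bd.low j.2 m)) ⟨h.sub b, l⟩ b
    convert c using 1
    exact Set.ext fun y => ⟨fun j => ⟨h.sub j.1, j.2⟩, fun j => ⟨s j, j.2⟩⟩

theorem mem_cl_sub (h : Mem car Y U G V) : cl U ⊆ U ∪ G := fun _ a =>
  (mem_cl.1 a).imp_right fun b => h.om b

/-- members are nested -/
theorem nest {U' G' V' : Set P} (hY : Amb Y) (h : Mem car Y U G V) (h' : Mem car Y U' G' V')
    (d : Disjoint G G') (s : G' ⊆ U) : G ⊆ V' := by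
  obtain ⟨x, a⟩ := h.ne
  rcases h'.two.cov x (h.sub a) with j | j | j
  · have s' := side h'.two h.sub h.conn d a j
    obtain ⟨b, -, r, o, o1, o2⟩ := hY.esc x (h.sub a)
    have lo : ∀ p q, p ≤ q → q ∈ U ∪ U' → p ∈ U ∪ U' := fun p q l m => m.elim
      (fun m => (mem_cl_sub h ⟨q, m, l⟩).imp_right fun i => s' i)
      fun m => ((mem_cl_sub h' ⟨q, m, l⟩).imp_right fun i => s i).symm
    have : b ∈ U ∪ U' := r.ind (Or.inr j) fun p _ q _ l =>
      ⟨fun m => m.imp (h.two.up l) (h'.two.up l), lo p q l⟩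
    exact absurd (o2.elim (fun l => hY.up l (this.elim (fun i => h.two.sub i) fun i => h'.two.sub i))
      fun l => (lo _ _ l this).elim (fun i => h.two.sub i) fun i => h'.two.sub i) o1
  · exact absurd j (Set.disjoint_left.1 d a)
  · exact side (two_symm h'.two hY.up h'.sub) h.sub h.conn d a j

/-- a surface along `A` stays one in a smaller carrier that contains the stars -/
theorem mfIn_of (h : MfIn K B) (s : H ⊆ K) (a : H ∩ A ⊆ B)
    (c : ∀ x ∈ H ∩ A, ∀ y ∈ K, Cm x y → y ∈ H) : MfIn H A :=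
  Mf.emb (f := fun x : H => (⟨x.1, s x.2⟩ : K)) (fun _ _ => Iff.rfl) (fun x k => a ⟨x.2, k⟩)
    (fun x k y l => ⟨⟨y.1, c x.1 ⟨x.2, k⟩ y.1 y.2 l⟩, rfl⟩) h

theorem bd_mfIn (nm : NmStmt) (h : Rg X) (hG : Bd X G) : MfIn G Set.univ :=
  mfIn_of ((nm P).1 X h).1 hG.sub (fun _ _ => trivial) fun x a y b l =>
    l.elim (hG.clo x a.1 y b) fun l => hG.low l a.1

/-- a disc whose interior lies in `X'` is a disc of `X'` -/
theorem td_res (h : Rg X) (h' : Rg X') (s : X' ⊆ X) (k : TD X w) (i : ∀ c ∈ CA X w, c.top ∈ X') :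
    TD X' w := by
  have e : CA X' w = CA X w := Set.ext fun c => ⟨fun a => ⟨s a.1, a.2⟩, fun a => ⟨i c a, a.2⟩⟩
  refine ⟨k.toS1.mono s, e ▸ k.conn, ?_, ?_⟩
  · rw [Cut21.chi_ca h' (k.toS1.mono s), e, ← Cut21.chi_ca h k.toS1, k.chi]
  · obtain ⟨q, a⟩ := k.ne
    obtain ⟨c, b, l⟩ := Cut21.ex_ca h.up (k.toS1.z1 h.up) ((Cut21.cv_om h.up).1 a).1
    exact ⟨q, fun x j => ⟨fun m => (a.1 x j).1 (s m), _, i c b, Ch.le_top (l j)⟩, a.2⟩

end Crest.Agent.X212.Sm10.Mv
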