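import Crest.Agent.X212.Sm10.Cel
import Crest.Agent.X212.Mol27.Lc
import Crest.Agent.X212.Thk1.Disc
import Crest.Agent.X212.Sf30.Le
import Crest.Agent.X212.Ind26.Defs

/-!
# X212 / Sm10 (helper10): CERT, the faces of the last stage are topological discs
-/

set_option autoImplicit false
set_option linter.unusedSectionVars false

open Set Filter Topology Function Metric
open Crest.Agent.X212.Hp13 Crest.Agent.X212.Srf12 Crest.Agent.R096.Ce_537 Crest.Agent.X212.Alg36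
  Crest.Agent.X212.Mol27

noncomputable section

namespace Crest.Agent.X212.Sm10

section comb

variable {P : Type} [PartialOrder P] [Fintype P] {A C : Set P}

theorem ctr_lev (hM : Mf 3 C) {z : P → P → ℤ} [IsCoc C z] (hm : Mono C z) {U : Set P}
    (hz : ∀ e, Mt C e → z e.bot e.top = iMt U e) (hc : Conn (LA C z)) (h1 : chi C z = 1)
    {e : Ch P} (m0 : Mt C e) (m1 : Mt U e) (hb : e.bot ∉ C) (ht : e.top ∉ C) :
    Conn {e | Mt C e ∧ Mt U e} ∧ ∀ w : Ch P → Ch P → ZMod 2,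
      CocOn {e | Mt C e ∧ Mt U e} w → ExOn {e | Mt C e ∧ Mt U e} w := by
  classical
  let l : ∀ d : Ch P, Mt C d ∧ Mt U d → Lv C z := fun d h =>
    ⟨(d, 0), h.1.dom, le_rfl, by rw [hz d h.1, iMt_of h.2]; exact one_pos⟩
  have le : ∀ d d' h h', d ≤ d' → l d h ≤ l d' h' := fun d d' h h' k => Sf30.lv_le.2 ⟨k, by
    have a1 := IsCoc.coc.add' (z := z) h'.1.dom d'.bot_mem (k d.bot_mem) d'.top_mem (Ch.bot_anti k)
      (Ch.le_top (k d.bot_mem))
    have a3 := IsCoc.coc.add' (z := z) h'.1.dom (k d.bot_mem) (k d.top_mem) d'.top_mem d.bot_le_top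
      (Ch.top_mono k)
    have a4 := hm _ _ (h'.1.dom.dp (k d.top_mem) d'.top_mem (Ch.top_mono k))
    have a5 := hm _ _ (h'.1.dom.dp d'.bot_mem (k d.bot_mem) (Ch.bot_anti k))
    rw [hz d h.1, iMt_of h.2] at a3
    rw [hz d' h'.1, iMt_of h'.2] at a1
    show (0 : ℤ) = 0 + z d'.bot d.bot
    omega⟩
  have mem : ∀ p ∈ LA C z, Mt C p.1.1 ∧ Mt U p.1.1 := fun p hp => ⟨hp, by_contra fun n => by
    have := p.2.2
    rw [hz _ hp, iMt_not n] at this
    omega⟩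
  let q : Lv C z := ⟨(Ch.pr e.bot e.top e.bot_le_top, 0), (dom_pr e.bot_le_top).2 m0.bt, le_rfl, by
    rw [Ch.bot_pr, Ch.top_pr, hz e m0, iMt_of m1]; exact one_pos⟩
  have K := Sf30.ctr_of_chiC hM hm Subset.rfl Sf30.la_upper hc (p := l e ⟨m0, m1⟩) (q := q) m0
    (fun ⟨a, ha, k⟩ => by
      rcases (by simpa [q] using ha : a = e.bot ∨ a = e.top) with rfl | rfl
      exacts [hb k, ht k])
    (Sf30.lv_le.2 ⟨fun a ha => by
      rcases (by simpa [q] using ha : a = e.bot ∨ a = e.top) with rfl | rfl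
      exacts [e.bot_mem, e.top_mem], by
      show (0 : ℤ) = 0 + z e.bot (Ch.pr e.bot e.top e.bot_le_top).bot
      rw [Ch.bot_pr, Sf30.z_self (z := z) m0.dom e.bot_mem]; rfl⟩)
    (by rw [← Sf30.chi_eq_chiC hm, h1])
  refine ⟨fun d h d' h' => (K.conn (l d h) h.1 (l d' h') h'.1).map (f := fun p => p.1.1)
    fun p hp p' hp' k => Rch.of_cm (mem p hp) (mem p' hp') (Or.inl (Sf30.lv_ch_le k)), fun w hw => ?_⟩
  obtain ⟨g, hg⟩ := K.ex _ (pb (fun p : Lv C z => p.1.1) w) fun a ha b hb c hc h1 h2 =>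
    hw _ (mem a ha) _ (mem b hb) _ (mem c hc) (Sf30.lv_ch_le h1) (Sf30.lv_ch_le h2)
  refine ⟨fun d => if h : Mt C d ∧ Mt U d then g (l d h) else 0, fun d h d' h' k => ?_⟩
  have h : Mt C d ∧ Mt U d := h
  have h' : Mt C d' ∧ Mt U d' := h'
  simp only [dif_pos h, dif_pos h']
  exact hg (l d h) h.1 (l d' h') h'.1 (le d d' h h' k)

theorem conv_cmp (hA : A.OrdConnected) (hC : IsCmp A C) : C.OrdConnected :=
  ⟨fun _ ha _ hb _ hx => hC.clopen ha (hA.out (hC.sub ha) (hC.sub hb) hx) (Or.inl hx.1)⟩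

theorem mem_iff (hC : IsCmp A C) {e : Ch P} (h : Mt C e) {x : P} (hx : x ∈ e.1) : x ∈ C ↔ x ∈ A :=
  let ⟨_, ha, k⟩ := h; ⟨fun j => hC.sub j, fun j => hC.clopen k j (e.cm ha hx)⟩

theorem mt_sub (hC : C ⊆ A) {e : Ch P} (h : Mt C e) : Mt A e := h.imp fun _ k => ⟨k.1, hC k.2⟩

theorem mf_sub {d : ℕ} (hC : C ⊆ A) (h : Mf d A) : Mf d C :=
  ⟨fun c k => h.card_le c (mt_sub hC k), fun c k => h.eul c (mt_sub hC k),
    fun c k => h.conn c (mt_sub hC k), fun c k => h.pure c (mt_sub hC k)⟩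

theorem Rp_cmp (hA : A.OrdConnected) (hC : IsCmp A C) (e : Ch P) (h : Mt C e) :
    Rp C e.bot e.top = iMt (Op A) e := by
  rw [Rp_bt (conv_cmp hA hC) h, iMt, iMt, mt_op (conv_cmp hA hC) h, mt_op hA (mt_sub hC.sub h),
    mem_iff hC h e.top_mem]

theorem Rm_cmp (hA : A.OrdConnected) (hC : IsCmp A C) (e : Ch P) (h : Mt C e) :
    Rm C e.bot e.top = iMt (Om A) e := by
  rw [Rm_bt (conv_cmp hA hC) h, iMt, iMt, mt_om (conv_cmp hA hC) h, mt_om hA (mt_sub hC.sub h),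
    mem_iff hC h e.bot_mem]

/-- every component carries a suture -/
theorem exists_sut (hA : A.OrdConnected) (hC : IsCmp A C) (hn : NoCl A (Rp A))
    (h1 : chi C (Rp C) ≠ 0) : ∃ e : Ch P, Mt C e ∧ e.bot ∉ A ∧ e.top ∉ A := by
  classical
  obtain ⟨c, hc, h0⟩ := Finset.exists_ne_zero_of_sum_ne_zero h1
  have m : Mt C c := (Finset.mem_filter.1 hc).2
  have m1 : Mt (Op A) c := by_contra fun n => h0 (by rw [Rp_cmp hA hC c m, iMt_not n, mul_zero])
  let p : Lv A (Rp A) := ⟨(c, 0), (mt_sub hC.sub m).dom, le_rfl, by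
    rw [Rp_bt hA (mt_sub hC.sub m), iMt_of m1]; exact one_pos⟩
  obtain ⟨p', hp', q, hq, l⟩ := hn _ (isCmp_cmp (x := p) (mt_sub hC.sub m))
  have m' : Mt C p'.1.1 := hp'.2.ind (p := fun r => Mt C r.1.1) m fun a ha b _ k =>
    ⟨fun j => j.mono (Sf30.lv_ch_le k), fun j =>
      let ⟨x, h1, h2⟩ := ha; ⟨x, h1, (mem_iff hC j (Sf30.lv_ch_le k h1)).2 h2⟩⟩
  have l' : q.1.1 ≤ p'.1.1 := Sf30.lv_ch_le (show q ≤ p' from l)
  have z := q.2.2.1.trans_lt q.2.2.2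
  have z1 : q.1.1.bot ∉ Op A ∧ q.1.1.top ∈ Op A := by
    unfold Rp cb Hp13.ind at z
    split_ifs at z with h1 h2 h2 <;> first | omega | exact ⟨h2, h1⟩
  have nb : q.1.1.bot ∉ A := fun k => hq ⟨_, q.1.1.bot_mem, k⟩
  obtain ⟨a, ha, ha'⟩ := hp'.1
  exact ⟨_, m', (mt_om hA hp'.1).1 ⟨_, l' q.1.1.bot_mem, nb, a, ha',
    (p'.1.1.cm ha (l' q.1.1.bot_mem)).resolve_left fun k => z1.1 ⟨nb, a, ha', k⟩⟩,
    (mt_op hA hp'.1).1 ⟨_, l' q.1.1.top_mem, z1.2⟩⟩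

open Classical in
/-- the types of the vertices -/
def typ (C U L : Set P) (s : P) : Fin 4 :=
  if s ∈ C then 0 else if s ∈ U then 1 else if s ∈ L then 2 else 3

/-- a component with its two sides -/
structure Sid (A C U L : Set P) : Prop where
  sub : C ⊆ A
  u : ∀ s ∈ U, s ∉ A
  l : ∀ s ∈ L, s ∉ A ∧ s ∉ U
  cov : ∀ a ∈ C, ∀ s, Cm a s → s ∈ C ∨ s ∈ U ∨ s ∈ L

theorem sid_p (hA : A.OrdConnected) (hC : IsCmp A C) : Sid A C (Op A) (Om A) :=
  ⟨hC.sub, fun _ h => h.1, fun _ h => ⟨h.1, om_op hA h⟩, fun a ha s k => (em (s ∈ A)).imp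
    (fun j => hC.clopen ha j k) fun j => k.imp (fun i => ⟨j, a, hC.sub ha, i⟩)
      fun i => ⟨j, a, hC.sub ha, i⟩⟩

theorem sid_m (hA : A.OrdConnected) (hC : IsCmp A C) : Sid A C (Om A) (Op A) :=
  ⟨hC.sub, fun _ h => h.1, fun _ h => ⟨h.1, fun k => om_op hA k h⟩, fun a ha s k =>
    ((sid_p hA hC).cov a ha s k).imp_right Or.symm⟩

namespace Sid

variable {U L : Set P} (h : Sid A C U L)
include h

theorem t0 : Ty (typ C U L) 0 = C := Set.ext fun s => by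
  simp only [Ty, typ, mem_ofPred_eq]
  split_ifs <;> simp [*]

theorem t1 : Ty (typ C U L) 1 = U := Set.ext fun s => by
  have := fun a b => h.u s b (h.sub a)
  simp only [Ty, typ, mem_ofPred_eq]
  split_ifs <;> simp_all

theorem t2 : Ty (typ C U L) 2 = L := Set.ext fun s => by
  have := fun a b => (h.l s b).1 (h.sub a)
  have := fun b => (h.l s b).2
  simp only [Ty, typ, mem_ofPred_eq]
  split_ifs <;> simp_all

theorem junk (a s : P) (ha : typ C U L a = 0) (k : Cm a s) : typ C U L s ≠ 3 := by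
  have := h.cov a (h.t0 ▸ ha) s k
  unfold typ
  split_ifs <;> simp_all

/-- the PL disc -/
theorem ball [Nonempty P] (hM : Mf 3 C) {c : ℝ} (h0 : 0 < c) (h1 : c < 1 / 2)
    (k : Conn {e | Mt C e ∧ Mt U e} ∧ ∀ w : Ch P → Ch P → ZMod 2,
      CocOn {e | Mt C e ∧ Mt U e} w → ExOn {e | Mt C e ∧ Mt U e} w)
    {e : Ch P} (m0 : Mt C e) (m1 : Mt U e) (m2 : Mt L e) :
    IsBall 2 (Dc (typ C U L) c) (dDc (typ C U L) c) := by
  have H : Hyp (typ C U L) c := ⟨h0, h1, h.t0.symm ▸ hM, h.junk⟩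
  have := Fintype.ofFinite (Cl (typ C U L) c)
  have hc := H.pre (by rw [h.t0, h.t1]; exact k.1)
  have hb := fun Γ => H.sc.bounds (Γ := Γ) (H.sc.ex_of_H1 (H.h1 (by rw [h.t0, h.t1]; exact k.2)))
  exact H.sc.ball hc (Thk1.circ_bd H.sc hc
    (H.bd_ne (h.t0.symm ▸ m0) (h.t1.symm ▸ m1) (h.t2.symm ▸ m2)) hb) hb

end Sid

theorem tw_eq_wS (ty : P → Fin 4) (i : Fin 4) (ν : P → ℝ) : tw ty i ν = wS (Ty ty i) ν :=
  Finset.sum_congr rfl fun s _ => by by_cases h : ty s = i <;> simp [io, Ty, h]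

end comb

theorem exists_round : ∃ ρ : ℂ ≃ₜ (Fin 2 → ℝ), ρ '' closedBall 0 1 = R096.Ce_537.cube 2 ∧
    ρ '' sphere 0 1 = sph 2 := by
  let Λ : ℂ ≃L[ℝ] (Fin 2 → ℝ) := ContinuousLinearEquiv.ofFinrankEq (by simp)
  obtain ⟨h, -, h2, h3⟩ := exists_homeomorph_image_interior_closure_frontier_eq_unitBall
    (s := Λ.toHomeomorph '' closedBall 0 1) ((convex_closedBall _ _).linear_image Λ.toLinearMap)
    (by rw [← Homeomorph.image_interior, interior_closedBall _ one_ne_zero]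
        exact (nonempty_ball.2 one_pos).image _)
    ((isCompact_closedBall _ _).image Λ.continuous).isBounded
  rw [← Homeomorph.image_closure, closure_closedBall, image_image] at h2
  rw [← Homeomorph.image_frontier, frontier_closedBall _ one_ne_zero, image_image] at h3
  exact ⟨Λ.toHomeomorph.trans h, h2, h3⟩

variable {E : Type} [NormedAddCommGroup E] [NormedSpace ℝ E] {P : Type} [PartialOrder P]
  [Fintype P] {A C C' : Set P} {δ : ℝ}

/-- the point `y` belongs to the part `C` -/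
def In (L : LC E A δ) (C : Set P) (y : E) : Prop := ∃ a ∈ C, L.lam y a ≠ 0

theorem isOpen_In (L : LC E A δ) (C : Set P) : IsOpen {y | y ∈ L.U ∧ In L C y} :=
  isOpen_iff_mem_nhds.2 fun y ⟨hy, a, ha, k⟩ => by
    have := (((continuous_apply a).comp_continuousOn L.cont).continuousAt
      (L.isOpen.mem_nhds hy)).eventually_ne k
    filter_upwards [this, L.isOpen.mem_nhds hy] with x h1 h2 using ⟨h2, a, ha, h1⟩

theorem exists_In {L : LC E A δ} {y : E} (hy : y ∈ L.U) : ∃ C, IsCmp A C ∧ In L C y :=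
  let ⟨b, hb, k⟩ := LC.exists_bigA hy
  ⟨_, isCmp_cmp hb, b, mem_cmp_self hb, LC.ne_of_le (k.le hy)⟩

theorem In.mem {L : LC E A δ} {y : E} (hy : y ∈ L.U) (hC : IsCmp A C) (h : In L C y) {b : P}
    (hb : b ∈ A) (k : L.lam y b ≠ 0) : b ∈ C :=
  let ⟨_, ha, j⟩ := h; hC.clopen ha hb ((L.wt y hy).cm j k)

theorem In.unique {L : LC E A δ} {y : E} (hy : y ∈ L.U) (hC : IsCmp A C) (hC' : IsCmp A C')
    (h : In L C y) (h' : In L C' y) : C = C' :=
  let ⟨_, ha, j⟩ := h'; (hC.eq (h.mem hy hC (hC'.sub ha) j)).trans (hC'.eq ha).symm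

/-- the parts of a compact set are compact -/
theorem isCompact_In {L : LC E A δ} (hC : IsCmp A C) {K : Set E} (hK : IsCompact K)
    (hU : K ⊆ L.U) : IsCompact {y | y ∈ K ∧ In L C y} := by
  have : {y | y ∈ K ∧ In L C y} = K \ ⋃ D ∈ {D | IsCmp A D ∧ D ≠ C}, {y | y ∈ L.U ∧ In L D y} := by
    ext y
    simp only [mem_ofPred_eq, Set.mem_sdiff, mem_iUnion, not_exists]
    refine and_congr_right fun hy => ⟨fun h D hD k => hD.2 (k.2.unique k.1 hD.1 hC h), fun h => ?_⟩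
    obtain ⟨D, h1, h2⟩ := exists_In (hU hy)
    exact by_contra fun n => h D ⟨h1, fun e => n (e ▸ h2)⟩ ⟨hU hy, h2⟩
  rw [this]
  exact hK.diff (isOpen_biUnion fun D _ => isOpen_In L D)

/-- at the corner both weights can be increased -/
theorem exists_corner {L : LC E A δ} {y : E} (hy : y ∈ L.U)
    (hp : 2 * (Fintype.card P * δ) < L.p y) (hm : 2 * (Fintype.card P * δ) < L.m y) :
    ∃ w w', fderiv ℝ L.p y w = 1 ∧ fderiv ℝ L.m y w = 0 ∧ fderiv ℝ L.p y w' = 0 ∧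
      fderiv ℝ L.m y w' = 1 := by
  obtain ⟨a, ha, ba⟩ := LC.exists_bigA hy
  obtain ⟨u, hu, bu⟩ := LC.exists_big hp
  obtain ⟨l, hl, bl⟩ := LC.exists_big hm
  have a1 : a ∉ Op A := fun k => k.1 ha
  have a2 : a ∉ Om A := fun k => k.1 ha
  refine ⟨L.X u - L.X a, L.X l - L.X a, ?_, ?_, ?_, ?_⟩
  · rw [LC.p, LC.fderiv_w hy (ba.le hy) (bu.le hy), io_mem hu, io_not a1, sub_zero]
  · rw [LC.m, LC.fderiv_w hy (ba.le hy) (bu.le hy), io_not fun k => om_op L.conv k hu, io_not a2,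
      sub_zero]
  · rw [LC.p, LC.fderiv_w hy (ba.le hy) (bl.le hy), io_not (om_op L.conv hl), io_not a1, sub_zero]
  · rw [LC.m, LC.fderiv_w hy (ba.le hy) (bl.le hy), io_mem hl, io_not a2, sub_zero]

theorem wS_le_of_S0 {U V : Set P} (h : Sid A C U V) {ν : P → ℝ} (hν : ν ∈ S0 (typ C U V)) :
    wS Aᶜ ν ≤ 1 / 6 := by
  have h1 := tw_zero (ty := typ C U V) hν.1
  have h2 : wS C ν ≤ wS A ν := wS_mono hν.1.nonneg fun _ _ k => h.sub k
  rw [tw_eq_wS, h.t0] at h1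
  rw [wS_compl, hν.1.sum]
  linarith [hν.2.1, hν.2.2]

/-- the smooth coordinates follow the moves -/
theorem mu_mv (L : LC E A δ) {ι : Type} [Fintype ι] [DecidableEq ι] {ty : P → ι} {a : ι → ℝ}
    {ν : P → ℝ} (ok : OK ty δ a ν) (ha : ∑ i, a i = 0) (hν : IsWt ν) (k : wS Aᶜ ν ≤ 1 / 6)
    (k' : wS Aᶜ (mv ty δ a ν) ≤ 1 / 6) :
    L.mu (pt L.X (mv ty δ a ν)) - mv ty δ a ν = L.mu (pt L.X ν) - ν := by
  classical
  set w := mv ty δ a ν - ν with hw
  have r := fun τ hτ => L.real_seg hν (ok.isWt L.δ0.le ha hν)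
    (fun s t hs ht => hν.cm hs ((ok.ne L.δ0.le).1 ht)) k k' (τ := τ) hτ
  have hd : ∀ τ : ℝ, HasDerivAt (fun τ : ℝ => pt L.X ν + τ • pt L.X w) (pt L.X w) τ := fun τ => by
    simpa using ((hasDerivAt_id τ).smul_const (pt L.X w)).const_add (pt L.X ν)
  have d : ∀ τ ∈ Icc (0 : ℝ) 1,
      HasDerivAt (fun τ : ℝ => L.mu (pt L.X ν + τ • pt L.X w) - τ • w) 0 τ := fun τ hτ => by
    have := ((LC.diff (r τ hτ).1 L.smooth).hasFDerivAt.comp_hasDerivAt τ (hd τ)).sub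
      ((hasDerivAt_id τ).smul_const w)
    rw [L.der _ (r τ hτ).1 _ ⟨by simp [hw, ok.sum_mv ha], fun q hq => by
      rw [(r τ hτ).2, ← mv_smul]
      exact ((ok.smul hτ).big.2 (big_of_mv_ne hq)).le⟩, one_smul, sub_self] at this
    exact this
  have := constant_of_has_deriv_right_zero (fun τ hτ => (d τ hτ).continuousAt.continuousWithinAt)
    (fun τ hτ => (d τ (Ico_subset_Icc_self hτ)).hasDerivWithinAt) 1 (right_mem_Icc.2 zero_le_one)
  simp only [zero_smul, add_zero, sub_zero, one_smul] at this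
  rw [← pt_add, hw, add_sub_cancel] at this
  rw [← this]
  abel

theorem cert_of (L : LC E A δ) {U V : Set P} (h : Sid A C U V) {c : ℝ}
    (h8 : 8 * (Fintype.card P * δ) < c) (hc : c ≤ 1 / 14)
    (hB : IsBall 2 (Dc (typ C U V) c) (dDc (typ C U V) c)) :
    ∃ k : ℂ → E, ContinuousOn k (closedBall 0 1) ∧ InjOn k (closedBall 0 1) ∧
      k '' closedBall 0 1 = {y | (y ∈ L.U ∧ In L C y) ∧ L.w U y = c ∧ L.w V y ≤ c} ∧
      k '' sphere 0 1 = {y | (y ∈ L.U ∧ In L C y) ∧ L.w U y = c ∧ L.w V y = c} := by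
  classical
  set ty := typ C U V
  have re := fun ν (hν : ν ∈ S0 ty) => L.real ν hν.1 (wS_le_of_S0 h hν)
  let κ : (P → ℝ) → P → ℝ := fun ν => L.mu (pt L.X ν) - ν
  have κc : ContinuousOn κ (S0 ty) := (L.smooth.continuousOn.comp (ptL L.X).continuous.continuousOn
    fun ν hν => (re ν hν).1).sub continuousOn_id
  have κb : ∀ i, ∀ ν ∈ S0 ty, |tw ty i (κ ν)| ≤ Fintype.card P * δ := fun i ν hν =>
    abs_tw_le ty i L.δ0.le fun s => by
      have := L.close _ (re ν hν).1 s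
      rw [(re ν hν).2] at this
      exact this.le
  obtain ⟨G, G1, G2, G3, G4⟩ := exists_cmp (ty := ty) L.δ0.le le_rfl h8 hc
    (k1 := fun ν => tw ty 1 (κ ν)) (k2 := fun ν => tw ty 2 (κ ν))
    ((continuous_tw ty 1).comp_continuousOn κc) ((continuous_tw ty 2).comp_continuousOn κc)
    (κb 1) (κb 2) fun ν hν a b ok hν' => by
      have : κ (mv ty δ (vec a b) ν) = κ ν :=
        mu_mv L ok (sum_vec a b) hν.1 (wS_le_of_S0 h hν) (wS_le_of_S0 h hν')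
      simp only [this, and_self]
  have e1 : ∀ ν, tw ty 1 ν + tw ty 1 (κ ν) = L.w U (pt L.X ν) := fun ν => by
    rw [← tw_add, add_sub_cancel, tw_eq_wS, h.t1]; rfl
  have e2 : ∀ ν, tw ty 2 ν + tw ty 2 (κ ν) = L.w V (pt L.X ν) := fun ν => by
    rw [← tw_add, add_sub_cancel, tw_eq_wS, h.t2]; rfl
  simp only [e1, e2] at G3 G4
  have GS : ∀ ν ∈ Dc ty c, G ν ∈ S0 ty := fun ν hν => (G3.subset (mem_image_of_mem G hν)).1
  have im : (pt L.X ∘ G) '' Dc ty c =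
      {y | (y ∈ L.U ∧ In L C y) ∧ L.w U y = c ∧ L.w V y ≤ c} := by
    rw [image_comp, G3]
    refine Subset.antisymm ?_ fun y ⟨⟨hy, a, ha, k⟩, y1, y2⟩ => ⟨L.lam y, ⟨⟨L.wt y hy, ?_, ?_⟩, ?_⟩,
      L.pos y hy⟩
    · rintro _ ⟨ν, ⟨hν, k⟩, rfl⟩
      refine ⟨⟨(re ν hν).1, ?_⟩, k⟩
      obtain ⟨a, a1, a2⟩ := exists_of_tw_ne ty (i := 0) (ν := ν)
        (ne_of_gt (by rw [tw_zero hν.1]; linarith [hν.2.1, hν.2.2]))
      exact ⟨a, h.t0 ▸ a1, by rwa [(re ν hν).2]⟩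
    · exact tw_eq_zero ty fun s hs => by_contra fun n =>
        h.junk a s (show a ∈ Ty ty 0 from h.t0.symm ▸ ha) ((L.wt y hy).cm k n) hs
    · rw [tw_eq_wS, tw_eq_wS, h.t1, h.t2]
      linarith [LC.le_w hy U, LC.le_w hy V]
    · rw [L.pos y hy]; exact ⟨y1, y2⟩
  obtain ⟨ρ, r1, r2⟩ := exists_round
  obtain ⟨e, he⟩ := hB
  have m1 : MapsTo ρ (closedBall 0 1) (R096.Ce_537.cube 2) := r1 ▸ mapsTo_image _ _
  refine ⟨(pt L.X ∘ G) ∘ e.f ∘ ρ, ((ptL L.X).continuous.comp_continuousOn G1).comp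
    (e.pf.1.comp ρ.continuous.continuousOn m1) (e.mf.comp m1), InjOn.comp ?_
      (e.injOn.comp ρ.injective.injOn m1) (e.mf.comp m1), ?_, ?_⟩
  · intro ν hν ν' hν' k
    refine G2 hν hν' ?_
    rw [← (re _ (GS ν hν)).2, ← (re _ (GS ν' hν')).2]
    exact congrArg L.lam k
  · rw [image_comp, image_comp e.f, r1, e.image_eq, im]
  · rw [image_comp, image_comp e.f, r2, he]
    refine Subset.antisymm ?_ fun y hy => ?_
    · rintro _ ⟨ν, hν, rfl⟩
      have := im.subset (mem_image_of_mem _ hν.1)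
      exact ⟨this.1, this.2.1, (G4 ν hν.1).2 hν.2⟩
    · obtain ⟨ν, hν, rfl⟩ := im.superset ⟨hy.1, hy.2.1, hy.2.2.le⟩
      exact ⟨ν, ⟨hν, (G4 ν hν).1 hy.2.2⟩, rfl⟩

/-- **CERT** -/
theorem cert {s : St} (hs : Ind26.End s) (L : LC E s.A δ) {C : Set s.P} (hC : IsCmp s.A C) {c : ℝ}
    (h8 : 8 * (Fintype.card s.P * δ) < c) (hc : c ≤ 1 / 14) :
    (∃ k : ℂ → E, ContinuousOn k (closedBall 0 1) ∧ InjOn k (closedBall 0 1) ∧
      k '' closedBall 0 1 = {y | (y ∈ L.U ∧ In L C y) ∧ L.p y = c ∧ L.m y ≤ c} ∧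
      k '' sphere 0 1 = {y | (y ∈ L.U ∧ In L C y) ∧ L.p y = c ∧ L.m y = c}) ∧
    ∃ k : ℂ → E, ContinuousOn k (closedBall 0 1) ∧ InjOn k (closedBall 0 1) ∧
      k '' closedBall 0 1 = {y | (y ∈ L.U ∧ In L C y) ∧ L.m y = c ∧ L.p y ≤ c} ∧
      k '' sphere 0 1 = {y | (y ∈ L.U ∧ In L C y) ∧ L.m y = c ∧ L.p y = c} := by
  have hA := hs.conv
  have B := hs.box C hC
  have : Nonempty s.P := ⟨hC.ne.some⟩
  have c0 : 0 < c := lt_of_le_of_lt (by have := L.δ0; positivity) h8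
  have hM := mf_sub hC.sub hs.mf
  obtain ⟨e, m0, hb, ht⟩ := exists_sut hA hC hs.sfp.noCl (by rw [B.ep]; exact one_ne_zero)
  have m1 := (mt_op hA (mt_sub hC.sub m0)).2 ht
  have m2 := (mt_om hA (mt_sub hC.sub m0)).2 hb
  exact ⟨cert_of L (sid_p hA hC) h8 hc ((sid_p hA hC).ball hM c0 (by linarith)
      (ctr_lev hM (mono_Rp (conv_cmp hA hC)) (Rp_cmp hA hC) B.cp B.ep m0 m1
        (fun k => hb (hC.sub k)) fun k => ht (hC.sub k)) m0 m1 m2),
    cert_of L (sid_m hA hC) h8 hc ((sid_m hA hC).ball hM c0 (by linarith)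
      (ctr_lev hM mono_Rm (Rm_cmp hA hC) B.cm B.em m0 m2
        (fun k => hb (hC.sub k)) fun k => ht (hC.sub k)) m0 m2 m1)⟩

end Crest.Agent.X212.Sm10
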