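import Crest.Agent.X212.Sm10.P2a
import Crest.Agent.X212.Sf30.P2Pk

/-!
# X212 / Sm10 (helper10): P2-FIN, `Pt30.FinStmt`
-/

set_option autoImplicit false
set_option linter.unusedSectionVars false

open Finset Classical

noncomputable section

namespace Crest.Agent.X212.Sm10

open Crest.Agent.X212.Hp13 Alg36 Cut21 Pt30
open Sf30 hiding Inn
open Sup43 (Inn inn_up inn_sub)

section
variable {P Q : Type} [PartialOrder P] [Fintype P] [PartialOrder Q] [Fintype Q] {A : Set P}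
  {e : P → P → ℤ} {F : Set (Ch P)}

theorem nc_le {S : Set (Ch P)} {T : Set (Ch Q)} (r : Ch P → Ch Q → Prop)
    (h1 : ∀ c ∈ S, ∃ t ∈ T, r c t) (h2 : ∀ t ∈ T, ∀ c ∈ S, ∀ c' ∈ S, r c t → r c' t → c = c') :
    nc S ≤ nc T := by
  choose f f1 f2 using h1
  rw [← nc_eq (· ∈ S) fun _ => Iff.rfl, ← nc_eq (· ∈ T) fun _ => Iff.rfl, Nat.cast_le,
    ← Fintype.card_subtype, ← Fintype.card_subtype]
  exact Fintype.card_le_of_injective (fun c => ⟨f c.1 c.2, f1 _ _⟩) fun c c' l => Subtype.ext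
    (h2 _ (f1 _ c.2) _ c.2 _ c'.2 (f2 _ _) ((Subtype.mk.inj l).symm ▸ f2 _ c'.2))

theorem ep_eq (C : Set (Ch P)) : (ep A e C : ℤ) = nc (C ∩ {c | Pat A e c}) := nc_eq _ fun _ => Iff.rfl

theorem ep_ne (h : ep A e F ≠ 0) : ∃ c ∈ F, Pat A e c :=
  let ⟨c, k⟩ := card_ne_zero.1 h; ⟨c, (mem_filter.1 k).2⟩

/-- a boundary curve crosses the sutures an even number of times -/
theorem ep_even (hA : A.OrdConnected) (hM : Mf 3 (Inn A)) (he : Z1 (Inn A) e)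
    (hF : IsCmp (Mx (Inn A) e) F) : Even (ep A e F) := by
  have uF := hF.upper (mx_upper he inn_up subset_rfl)
  have D : ∀ d ∈ F, Dom (Inn A) d := fun d k => dom_top (hF.sub k).1
  have := tri hM (S := {c | c ∈ F ∧ ∃ y ∈ c.1, y ∉ A ∧ 0 < e c.bot y})
    (fun c k => ⟨_, c.top_mem, (hF.sub k.1).1⟩)
    (fun c d l ⟨k, y, a, b, m⟩ => ⟨uF l k, y, l a, b, by
      have := lev_le he (D d (uF l k)) (l c.bot_mem) (l a) (Ch.bot_le a); omega⟩)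
    (fun d => {x | ¬ 0 < e d.bot x}) (fun d => {x | 0 < e d.bot x ∧ x ∉ A})
    (fun d => {x | 0 < e d.bot x ∧ x ∈ Inn A}) (fun _ => Set.disjoint_left.2 fun _ a b => a b.1)
    (fun _ => Set.disjoint_left.2 fun _ a b => a b.1)
    (fun _ => Set.disjoint_left.2 fun _ a b => a.2 b.2.1) fun d hd c l => by
      have k := fun y (a : y ∈ c.1) => lev_le he (D d hd.1) (l c.bot_mem) (l a) (Ch.bot_le a)
      refine ⟨fun ⟨m, y, a, b, n⟩ => ?_, fun ⟨⟨x, a, x1⟩, ⟨y, b, y1, y2⟩, w, w0, w1, w2⟩ => ?_⟩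
      · have := he.bot_bot (D d hd.1) l (hF.sub m).2
        have := k y a
        have := k _ c.top_mem
        have := (hF.sub m).2
        exact ⟨⟨_, c.bot_mem, show ¬ _ by omega⟩, ⟨y, a, by omega, b⟩, _, c.top_mem, by omega,
          (hF.sub m).1⟩
      · have := k x a
        have := k y b
        have x1 : ¬ 0 < e d.bot x := x1
        have p : 0 < e c.bot y := by omega
        exact ⟨hF.clopen hd.1 ⟨inn_up (Ch.le_top w0) w2,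
          he.pos ((D d hd.1).mono l) c.bot_mem b (Ch.bot_le b) p⟩ (.inr l), y, b, y2, p⟩
  rw [← Int.even_coe_nat, ep_eq]
  refine ⟨_, Eq.trans ?_ (this.trans (two_mul _))⟩
  refine congrArg _ (Set.ext fun d => ⟨fun ⟨m, x, a, y, b, w, c, l, y1, w1, p⟩ => ?_,
    fun ⟨⟨m, y, a, b, p⟩, w, c, w1⟩ => ⟨m, _, d.bot_mem, y, a, w, c, Ch.bot_le a, b, ?_, p⟩⟩)
  · have := lev_le he (D d m) a b l
    have := lev_le he (D d m) b c ((d.total b c).resolve_right fun j =>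
      y1 (hA.out w1.1 (hF.sub m).1.1 ⟨j, Ch.le_top b⟩))
    exact ⟨⟨m, y, b, y1, by omega⟩, w, c, fun j => j.elim (fun j => j.elim (fun j => j (by omega))
      fun j => j.2 w1.1) fun j => j.2.2 w1⟩
  · have p : 0 < e d.bot w := by_contra fun j => w1 (.inl (.inl j))
    exact fr_of (by_contra fun j => w1 (.inl (.inr ⟨p, j⟩))) fun j => w1 (.inr ⟨p, j⟩)

end

variable {s s' : St} {z e : s.P → s.P → ℤ} {π : s'.P → s.P} {D V : Set (Ch s.P)}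

theorem two (h : Pk s s' z π) : Two (Inn s.A) (Uz s.A z) z where
  mf := h.mf
  up := inn_up
  sub := uz_sub
  upU := h.uz_up
  lev _ _ _ a l := (h.lz_cases a l).imp (·.2.2) (·.2.2)
  l1 _ _ _ a _ l m := (h.lz_up ⟨a, l, rfl⟩ m).2.2
  l2 _ k _ _ _ a l m := ((h.lz_kz (Pk.kz_of k) l).1 ⟨a, m, rfl⟩).1.2.2
  ctr _ k _ j := h.ctr_lz (by
    rcases j with rfl | rfl
    exacts [h.lz0_ne k.1.1, h.lz1_kz (Pk.kz_of k)])

/-- a crossing with a suture of the cut, seen below -/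
def Pd (A : Set s.P) (z e : s.P → s.P → ℤ) (c : Ch s.P) : Prop :=
  ∃ x ∈ c.1, ∃ y ∈ c.1, ∃ b ∈ c.1, x ≤ y ∧ y ≤ b ∧ 0 < e x y ∧ y ∉ Inn A ∧
    (y ∈ A → z y b = 1) ∧ b ∈ A ∧ b ∉ Uz A z ∧ z b c.top = 0

theorem pd_of (h : Pk s s' z π) {c : Ch s'.P} (hc : c.top ∈ Inn s'.A) (p : Pat s'.A (pb π e) c) :
    Pd s.A z e (h.im c) := by
  obtain ⟨x, x0, y, y0, b, b0, l, y1, b1, p⟩ := p
  have m : y ≤ b := (c.total y0 b0).resolve_right fun j =>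
    y1 (h.st'.conv.out b1.1 hc.1 ⟨j, Ch.le_top y0⟩)
  have bA := h.cov.mem b1.1
  have k : π y ∈ s.A → z (π y) (π b) = 1 := fun j => by
    have := h.nn bA (h.mon m) le_rfl
    have := h.le1 bA (h.mon m) le_rfl
    have : z (π y) (π b) ≠ 0 := fun i => y1 ((h.cov.dn b b1.1 y m).2 ⟨j, i⟩)
    omega
  refine ⟨_, h.mem_im.2 ⟨x, x0, rfl⟩, _, h.mem_im.2 ⟨y, y0, rfl⟩, _, h.mem_im.2 ⟨b, b0, rfl⟩,
    h.mon l, h.mon m, p, fun j => ?_, k, bA, (h.mem_fr.1 b1).2,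
    h.top_im c ▸ h.cov.zero b1.1 hc.1 (Ch.le_top b0)⟩
  have := h.z_kz (Pk.kz_of ⟨inn_up (h.mon m) j, (h.mem_fr.1 b1).2⟩) (h.mon m)
  have := k j.1
  omega

theorem Pd.rim {c : Ch s.P} (p : Pd s.A z e c) : Rim (Inn s.A) e c :=
  let ⟨x, a, y, b, _, _, l, _, m, n, _⟩ := p; ⟨x, a, y, b, l, n, m⟩

theorem one_side (h : Pk s s' z π) (he : Z1 (Inn s.A) e) {t c c' : Ch s.P}
    (ht : t ∈ Mx (Inn s.A \ Uz s.A z) e) (r : Rim (Inn s.A) e t) (hc : c ∈ Sdj (Uz s.A z) z t 0)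
    (hc' : c' ∈ Sdj (Uz s.A z) z t 0) : c = c' := by
  obtain ⟨q, q1, q2, q3⟩ := r.face (dom_top ht.1.1)
  have := Ch.card_lt (q2.lt_of_ne fun k => q3 (k ▸ ht.1.1))
  have : 1 < q.1.card := one_lt_card.2 ⟨_, q.bot_mem, _, q.top_mem, he.bot_ne_top q1.1 q1.2⟩
  refine (((two h).sd_ctr ht.1 (.inl rfl)).conn c hc c' hc').eq (g := id) fun a ha b hb l => ?_
  have := Ch.card_lt (ha.1.lt_of_ne fun k => ht.1.2 (k ▸ ha.2.1))
  have := h.mf.card_le b ⟨_, b.top_mem, hb.2.1.1⟩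
  exact Ch.ext (c := a) (d := b) (eq_of_subset_of_card_le l (by omega))

/-- the link of a boundary vertex over a double point -/
theorem one_end (h : Pk s s' z π) (he : Z1 (Inn s.A) e) {q t c c' : Ch s.P}
    (ht : t ∈ Mx (Inn s.A \ Uz s.A z) e) (q1 : q ≤ t) (q2 : q.top ∉ Inn s.A)
    (q3 : 0 < e q.bot q.top) (c1 : q ≤ c) (c2 : c.top ∈ Lz s.A z q.top 1)
    (c3 : ∃ b ∈ c.1, b ∉ Inn s.A ∧ b ∉ q.1) (d1 : q ≤ c') (d2 : c'.top ∈ Lz s.A z q.top 1)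
    (d3 : ∃ b ∈ c'.1, b ∉ Inn s.A ∧ b ∉ q.1) : c = c' := by
  have ne := he.bot_ne_top ((dom_top ht.1.1).mono q1) q3
  have := (two h).card3 ht.1
  have := Ch.card_lt (q1.lt_of_ne fun k => q2 (k ▸ ht.1.1))
  have eq : q.1 = {q.bot, q.top} := (eq_of_subset_of_card_le
    (insert_subset q.bot_mem (singleton_subset_iff.2 q.top_mem)) (by rw [card_pair ne]; omega)).symm
  have nq : ∀ x ∈ q.1, x ∉ Inn s.A := fun x a b => q2 (inn_up (Ch.le_top a) b)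
  let S : Set (Ch s.P) := {d | q ≤ d ∧ d.top ∈ Lz s.A z q.top 1}
  have uS : IsUpperSet S := fun a b l k => ⟨k.1.trans l, h.lz_up k.2 (Ch.top_mono l)⟩
  have cS : Ctr S := by
    convert ctr_over (V := Lz s.A z q.top 1) (d := q) (fun _ => True) trivial
      (by convert h.ctr_lz ⟨_, c2⟩ using 1; exact Set.ext fun _ => ⟨fun k => k.1, fun k => ⟨k, k.2.1⟩⟩)
      using 1
    ext d; simp [S]
  have key := tri h.mf (S := S) (fun d k => ⟨_, d.top_mem, k.2.1.1⟩) uS (fun _ => {q.bot})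
    (fun _ => {q.top}) (fun _ => Lz s.A z q.top 1) (fun _ => Set.disjoint_singleton.2 ne)
    (fun _ => Set.disjoint_singleton_left.2 fun k => nq _ q.bot_mem k.1.1)
    (fun _ => Set.disjoint_singleton_left.2 fun k => q2 k.1.1) fun d _ c _ =>
      ⟨fun k => ⟨⟨_, k.1 q.bot_mem, rfl⟩, ⟨_, k.1 q.top_mem, rfl⟩, _, c.top_mem, k.2⟩,
        fun ⟨⟨_, a, rfl⟩, ⟨_, b, rfl⟩, u, u0, u1⟩ => ⟨Ch.le_iff.2 (eq ▸ insert_subset a
          (singleton_subset_iff.2 b)), h.lz_up u1 (Ch.le_top u0)⟩⟩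
  rw [← sc_eu he h.mf (fun d k => ⟨k.2.1.1, he.up (dom_top k.2.1.1) k.1 q3⟩) uS, cS.eu,
    ← nc_eq (· ∈ _) fun _ => Iff.rfl] at key
  have rest : ∀ d ∈ S, ∀ b ∈ d.1, b ∉ q.1 → b ∉ Uz s.A z → d ∈ univ.filter (· ∈ {d | d ∈ S ∧
      Mt (({q.bot} ∪ {q.top} : Set s.P) ∪ Lz s.A z q.top 1)ᶜ d}) := fun d k b b0 b1 b2 =>
    mem_filter.2 ⟨mem_univ _, k, b, b0, fun j => j.elim (fun j => b1
      (j.elim (fun j => j ▸ q.bot_mem) fun j => j ▸ q.top_mem)) fun j => b2 j.1⟩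
  obtain ⟨u, u1⟩ := h.lz1_kz (Pk.kz_of ht.1)
  have u2 := (h.lz_kz (Pk.kz_of ht.1) (Ch.top_mono q1)).1 u1
  have tq : ∀ x ∈ t.1, x ∉ Inn s.A → x ∈ q.1 := fun x a b => by_contra fun j => by
    have : insert x q.1 = t.1 := eq_of_subset_of_card_le (insert_subset a q1)
      (by rw [card_insert_of_notMem j, eq, card_pair ne]; omega)
    have m : t.top ∈ insert x q.1 := this ▸ t.top_mem
    exact (mem_insert.1 m).elim (fun i => b (i ▸ ht.1.1)) fun i => nq _ i ht.1.1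
  have df : ∀ c : Ch s.P, (∃ b ∈ c.1, b ∉ Inn s.A ∧ b ∉ q.1) → c ≠ tp t u u2.2 := by
    rintro _ ⟨b, b0, b1, b2⟩ rfl
    exact (mem_tp.1 b0).elim (fun i => b1 (i ▸ u1.1.1)) fun i => b2 (tq b i b1)
  by_contra n
  have := two_lt_card.2 ⟨c, let ⟨b, b0, b1, b2⟩ := c3; rest c ⟨c1, c2⟩ b b0 b2 fun j => b1 j.1,
    c', let ⟨b, b0, b1, b2⟩ := d3; rest c' ⟨d1, d2⟩ b b0 b2 fun j => b1 j.1, tp t u u2.2,
    rest _ ⟨q1.trans (le_tp _ _ _), by simpa using u2.1⟩ _ (le_tp _ _ _ t.top_mem)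
      (fun j => nq _ j ht.1.1) ht.1.2, n, df c c3, df c' d3⟩
  omega

/-- the new crossings are paid by the ends of the arcs -/
theorem new_le (h : Pk s s' z π) (he : Z1 (Inn s.A) e) (hD : IsCmp (Mx (Inn s.A) e) D) :
    nc ((Mx (Uz s.A z) e ∩ D ∩ {c | Pd s.A z e c}) \ {c | Pat s.A e c}) ≤
      nc {c | c ∈ Mx (Inn s.A \ Uz s.A z) e ∩ D ∧ Rim (Inn s.A) e c} := by
  refine nc_le (fun c t => (c ∈ Sdj (Uz s.A z) z t 0 ∧ ∀ y ∈ t.1, y ∉ Fr s.A) ∨ ∃ q : Ch s.P, q ≤ t ∧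
    q.top ∈ Fr s.A ∧ 0 < e q.bot q.top ∧ q ≤ c ∧ c.top ∈ Lz s.A z q.top 1 ∧
      ∃ b ∈ c.1, b ∉ Inn s.A ∧ b ∉ q.1) ?_ ?_
  · rintro c ⟨⟨⟨c1, c2⟩, x, x0, y, y0, b, b0, l, m, p, y1, y2, b1, b2, b3⟩, n⟩
    have qc : Ch.pr x y l ≤ c := insert_subset x0 (singleton_subset_iff.2 y0)
    have mk : ∀ k ∈ Inn s.A \ Uz s.A z, ∀ j : (Ch.pr x y l).top ≤ k, tp _ k j ∈
        {c | c ∈ Mx (Inn s.A \ Uz s.A z) e ∩ D ∧ Rim (Inn s.A) e c} := fun k k1 j =>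
      have a : (tp _ k j).top ∈ Inn s.A := by simpa using k1.1
      ⟨⟨⟨by simpa using k1, he.up (dom_top a) (le_tp _ _ _) (by simpa using p)⟩,
        he.cmp_over inn_up h.nice hD (by simpa using p) c2 qc (le_tp _ _ _) a⟩,
        x, by simp, y, by simp, l, y1, p⟩
    by_cases bM : b ∈ Inn s.A
    · have yA : y ∉ s.A := fun j => by
        have := h.z_kz (Pk.kz_of ⟨bM, b2⟩) m
        have := y2 j
        omega
      refine ⟨_, mk b ⟨bM, b2⟩ (by simpa using m), .inl ⟨⟨tp_le qc b0, c1.1, by simpa using b3⟩,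
        fun w w0 w1 => ?_⟩⟩
      simp only [mem_tp, Ch.pr_val, mem_insert, mem_singleton] at w0
      rcases w0 with rfl | rfl | rfl
      exacts [bM.2 w1, yA (h.st.conv.out w1.1 b1 ⟨l, m⟩), yA w1.1]
    · have yA : y ∈ s.A := by_contra fun j => n ⟨x, x0, y, y0, b, b0, l, j, fr_of b1 bM, p⟩
      have t1 : c.top ∈ Lz s.A z y 1 := ⟨c1.1, Ch.le_top y0, by
        rw [h.add c1.1.1.1 m (Ch.le_top b0) le_rfl, y2 yA, b3, add_zero]⟩
      obtain ⟨k, k1, k2⟩ := (h.kc y1 (h.lz0_ne yA) ⟨_, t1⟩).1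
      refine ⟨_, mk k k1 (by simpa using k2), .inr ⟨Ch.pr x y l, le_tp _ _ _,
        by simpa using fr_of yA y1, by simpa using p, qc, by simpa using t1, b, b0, bM, fun j => ?_⟩⟩
      have : b ≤ y := by simpa using Ch.le_top j
      have := y2 yA
      rw [le_antisymm m ‹b ≤ y›, h.coc.self b1 Cm.rfl] at this
      exact zero_ne_one this
  · rintro t ⟨⟨t1, -⟩, t2⟩ c - c' - (a | ⟨q, q1, q2, q3, a⟩) (b | ⟨q', r1, r2, r3, b⟩)
    · exact one_side h he t1 t2 a.1 b.1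
    · exact (a.2 _ (r1 q'.top_mem) r2).elim
    · exact (b.2 _ (q1 q.top_mem) q2).elim
    have k : ∀ q : Ch s.P, q ≤ t → q.top ∈ Fr s.A → 0 < e q.bot q.top → q.1 = t.1.erase t.top :=
      fun q q1 q2 q3 => eq_of_subset_of_card_le (fun x i => mem_erase.2 ⟨fun j =>
        (inn_up (Ch.le_top i) (j ▸ t1.1.1)).2 q2, q1 i⟩) (by
          have := (two h).card3 t1.1
          have := one_lt_card.2 ⟨_, q.bot_mem, _, q.top_mem,
            he.bot_ne_top ((dom_top t1.1.1).mono q1) q3⟩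
          rw [card_erase_of_mem t.top_mem]; omega)
    obtain rfl : q = q' := Ch.ext ((k q q1 q2 q3).trans (k q' r1 r2 r3).symm)
    exact one_end h he t1 q1 (fun j => j.2 q2) q3 a.1 a.2.1 a.2.2 b.1 b.2.1 b.2.2

theorem tc_lift (h : Pk s s' z π) (hV : V ⊆ Mx (Uz s.A z) e) (t : Tc (Uz s.A z) e V) :
    Tc (Inn s'.A) (pb π e) {d | d ∈ Mx (Inn s'.A) (pb π e) ∧ h.im d ∈ V} := by
  obtain ⟨c, k, x, a, y, b, l, m, n⟩ := t
  obtain ⟨d, d1, rfl⟩ := h.ex_im (hV k).1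
  obtain ⟨x, a', rfl⟩ := h.mem_im.1 a
  obtain ⟨y, b', rfl⟩ := h.mem_im.1 b
  exact ⟨d, ⟨h.mem_mx.2 ⟨d1, hV k⟩, k⟩, x, a', y, b', h.le_dn d1.1 (Ch.le_top a') (Ch.le_top b') l,
    fun j => m (h.uz_of j), n⟩

/-- **P2-FIN** -/
theorem finStmt : FinStmt := by
  intro s s' z π e h hd hn
  have he := hd.toZ1
  have w := h.ws_mx e
  have a4 : ∀ C, IsCmp (Mx (Inn s.A \ Uz s.A z) e) C → Tc (Inn s.A) e C := fun C =>
    (two h).tc_band he hd fun V hV v1 v2 => by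
      have := hn _ (w.isCmp_pre hV) ((w.restr (Kh11.clo_cmp hV)).eu_eq.trans v1) (tc_lift h hV.sub v2)
      obtain ⟨c, k, p⟩ := ep_ne this
      exact ⟨_, k.2, (pd_of h k.1.1 p).rim⟩
  have a1 : ∀ F, IsCmp (Mx (Inn s'.A) (pb π e)) F → eu F = 1 ∧ Tc (Inn s'.A) (pb π e) F :=
    fun F hF => by
      obtain ⟨V, hV, rfl⟩ := w.isCmp_ex hF
      exact ⟨(w.restr (Kh11.clo_cmp hV)).eu_eq.trans ((two h).eu_one he hd a4 hV),
        tc_lift h hV.sub ((two h).tc_piece he hd hV)⟩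
  refine ⟨⟨h.z1_pb he, a1⟩, fun F hF => ?_, fun D hD => ?_, a4⟩
  · have := hn F hF (a1 F hF).1 (a1 F hF).2
    obtain ⟨k, hk⟩ := ep_even h.st'.conv h.mf' (h.z1_pb he) hF
    omega
  have cl : Kh11.Clo (Mx (Uz s.A z) e) (Mx (Uz s.A z) e ∩ D) := ⟨fun _ k => k.1, fun a k b m l =>
    ⟨m, hD.clopen k.2 (mx_mono uz_sub m) l⟩⟩
  have i := fun F => Two.isCmp_inter (V := F) (E := Mx (Inn s'.A) (pb π e)) (D := h.im ⁻¹' D)
    fun a _ k b m l => hD.clopen k (mx_mono uz_sub (w.maps m)) (l.map h.cov.toLift.im_mono)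
  rw [show (cs (Mx (Inn s'.A) (pb π e))).filter (fun F => ∀ c ∈ F, h.cov.toLift.im c ∈ D) =
    cs (Mx (Inn s'.A) (pb π e) ∩ h.im ⁻¹' D) from
      Finset.ext fun F => by rw [mem_filter, mem_cs, mem_cs, i]; rfl,
    sum_congr rfl (g := fun F => nc (F ∩ {c | Pat s'.A (pb π e) c}) - 2 * eu F) fun F k => by
      rw [ep_eq, (a1 F ((i F).1 (mem_cs.1 k)).1).1, mul_one], sum_sub_distrib, ← mul_sum, sum_nc,
    sum_eu_cs, show eu (Mx (Inn s'.A) (pb π e) ∩ h.im ⁻¹' D) = eu (Mx (Uz s.A z) e ∩ D) from by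
      rw [← (w.restr cl).eu_eq]
      exact congrArg _ (Set.ext fun _ => ⟨fun k => ⟨k.1, w.maps k.1, k.2⟩, fun k => ⟨k.1, k.2.2⟩⟩),
    (two h).eu_piece he hd hD, ep_eq]
  have b1 := new_le h he hD
  have b2 : nc (Mx (Inn s'.A) (pb π e) ∩ h.im ⁻¹' D ∩ {c | Pat s'.A (pb π e) c}) ≤
      nc (Mx (Uz s.A z) e ∩ D ∩ {c | Pd s.A z e c}) := nc_le (fun c t => h.im c = t)
    (fun c k => ⟨_, ⟨⟨w.maps k.1.1, k.1.2⟩, pd_of h k.1.1.1 k.2⟩, rfl⟩)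
    fun t _ c k c' k' a b => h.im_inj k.1.1.1 k'.1.1.1 (a.trans b.symm)
  have b3 := nc_split (S := Mx (Uz s.A z) e ∩ D ∩ {c | Pd s.A z e c}) Set.sdiff_subset
    (C := _ \ {c | Pat s.A e c})
  have b4 : nc ((Mx (Uz s.A z) e ∩ D ∩ {c | Pd s.A z e c}) \
      ((Mx (Uz s.A z) e ∩ D ∩ {c | Pd s.A z e c}) \ {c | Pat s.A e c})) ≤
      nc (D ∩ {c | Pat s.A e c}) := nc_le Eq
    (fun c k => ⟨c, ⟨k.1.1.2, by_contra fun j => k.2 ⟨k.1, j⟩⟩, rfl⟩)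
    fun t _ c _ c' _ a b => a.trans b.symm
  omega

end Crest.Agent.X212.Sm10
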