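import Crest.Agent.X212.Sm10.Mv3b

/-!
# X212 / Sm10 (helper10): KH-MV3, `FamStmt`
-/

set_option autoImplicit false
set_option linter.unusedSectionVars false

open Finset Classical

noncomputable section

namespace Crest.Agent.X212.Sm10.Mv

open Hp13 hiding sub_cl cl_low om_low cl_mono exOn_pb exOn_add exOn_neg exOn_congr dp_iff coc_iff
open Hk
open Alg36 (Om Esc mix Clo)
open Kh11 (WS CE)

variable {P R : Type} [PartialOrder P] [Fintype P] [PartialOrder R]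
  {X Y G J S N X' U V : Set P} {car : P → R} {ζ : P → P → ℤ}

/-- a class on the band goes to the new band; `W` is the new side -/
def Band (X G N S : Set P) (W : Set (Ch (Ch P))) (ζ : P → P → ℤ) : Prop :=
  ∃ ζ' : Ch (Ch P) → Ch (Ch P) → ℤ, CocOn ((W ∪ mvG X G N) ∩ t2 ⁻¹' S) ζ' ∧
    (ExOn G ζ ↔ ExOn (mvG X G N) ζ') ∧ (ExOn J ζ ↔ ExOn (t2 ⁻¹' J) ζ')

theorem shrink (m2 : Mv2Stmt) (hX : Rg X) (hG : Bd X G) (hN : Bl X G N)
    (c : CocOn ((X ∪ G) ∩ S) ζ) (s : G ⊆ S) (s' : mvG X G N ⊆ t2 ⁻¹' S) (hJ : J ⊆ (X ∪ G) ∩ S) :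
    Band (J := J) X G N S (mvX X N) ζ :=
  have k := cocOn_pb c t2_mono
  ⟨pb t2 ζ, cocOn_mono k fun _ a => ⟨a.1.elim (fun b => Or.inl b.1) fun b => g_sub hN.toOpn b, a.2⟩,
    (((m2 P X G N hX hG).1 hN).2.2.2.2.2.2.2.2 ℤ).1 ζ _ (cocOn_mono c fun _ a => ⟨Or.inr a, s a⟩)
      (cocOn_mono k fun _ a => ⟨g_sub hN.toOpn a, s' a⟩) (by rw [sub_self]; exact exOn_zero),
    tw_ex tw2 (cocOn_mono c hJ)⟩

theorem grow (m2 : Mv2Stmt) (hX : Rg X) (h : Two car Y X G X') (hN : Bl X G N)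
    (c : CocOn ((X' ∪ G) ∩ S) ζ) (s : G ⊆ S) (hJ : J ⊆ (X' ∪ G) ∩ S) :
    Band (J := J) X G N S (mvY Y X' N) ζ := by
  obtain ⟨k1, k2⟩ := ((m2 P X G N hX h.bd).1 hN).2.2.2.2.2.2.2.2 ℤ
  have sG : G ⊆ (X' ∪ G) ∩ S := fun _ a => ⟨Or.inr a, s a⟩
  obtain ⟨ζ', c', e⟩ := k2 _ ζ sG (Set.disjoint_left.2 fun _ a b =>
    a.1.elim (Set.disjoint_left.1 h.dj b) fun a => h.bd.not a b) c
  have g : mvG X G N ⊆ t2 ⁻¹' ((X' ∪ G) ∩ S) ∪ mvS X N := fun _ a =>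
    a.imp (fun a => sG a.1) And.left
  refine ⟨ζ', cocOn_mono c' fun x a => a.1.elim (fun b => ?_) fun b => g b,
    k1 ζ ζ' (cocOn_mono c sG) (cocOn_mono c' g) (exOn_mono e fun _ a => sG a.1),
    (tw_ex tw2 (cocOn_mono c hJ)).trans
      (exOn_iff_of_sub (exOn_mono e (Set.preimage_mono hJ))).symm⟩
  rcases b with b | b
  · exact Or.inl ⟨Or.inl b, a.2⟩
  · rcases h.cov _ b.1 with j | j
    · exact Or.inr ⟨sub_cl j, _, x.bot.bot_mem, b.2 _ x.bot.bot_mem⟩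
    · exact Or.inl ⟨j.symm, a.2⟩

theorem pre_sub_mvX (h : t2 ⁻¹' J ⊆ mvX X N) : J ⊆ X := fun x a =>
  let ⟨c, e⟩ := Desc.surj (tw2 (P := P)) x
  e ▸ (h (show t2 c ∈ J from e.symm ▸ a)).1

theorem pre_sub_mvY (d : Disjoint N J) (h : t2 ⁻¹' J ⊆ mvY Y X' N) : J ⊆ X' := fun x a => by
  rcases h (show Ch.pt (Ch.pt x) ∈ t2 ⁻¹' J by simpa using a) with b | b
  · simpa using b
  · exact absurd a (Set.disjoint_left.1 d (b.2 x (by simp)))

/-- the two new sides of the moved member -/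
structure New (car : P → R) (Y U G V X N : Set P) (U₁ V₁ : Set (Ch (Ch P))) : Prop where
  mem : Mem (car ∘ t2) (t2 ⁻¹' Y) U₁ (mvG X G N) V₁
  sub : ∀ J, Disjoint N J → t2 ⁻¹' J ⊆ U₁ → J ⊆ U
  bu : ∀ J S ζ, CocOn ((U ∪ G) ∩ S) ζ → G ⊆ S → mvG X G N ⊆ t2 ⁻¹' S → J ⊆ (U ∪ G) ∩ S →
    Band (J := J) X G N S U₁ ζ
  bv : ∀ J S ζ, CocOn ((V ∪ G) ∩ S) ζ → G ⊆ S → mvG X G N ⊆ t2 ⁻¹' S → J ⊆ (V ∪ G) ∩ S →
    Band (J := J) X G N S V₁ ζ

theorem new (m1 : Mv1Stmt) (m2 : Mv2Stmt) (m3 : Mv3Stmt) (hY : Amb Y) (h : Mem car Y U G V)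
    (hX : X = U ∨ X = V) (hN : Bl X G N) : ∃ U₁ V₁, New car Y U G V X N U₁ V₁ := by
  have key : ∀ X', Two car Y X G X' → Rg X ∧ mvG X G N ⊆ t2 ⁻¹' Y ∧ Conn (mvG X G N) ∧
      (mvG X G N).Nonempty ∧ Om (mvX X N) = mvG X G N ∪ t2 ⁻¹' (Om X \ G) ∧
      Two (car ∘ t2) (t2 ⁻¹' Y) (mvX X N) (mvG X G N) (mvY Y X' N) ∧
      (INC X G → INC (mvX X N) (mvG X G N)) ∧ (INC X' G → INC (mvY Y X' N) (mvG X G N)) ∧
      NB (t2 ⁻¹' Y) (mvG X G N) := fun X' k => by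
    have r := two_rg k hY.toRg h.sub
    obtain ⟨-, -, -, o, -, a⟩ := m1 P X G N r k.bd hN.toOpn
    obtain ⟨-, -, -, -, ⟨c, c1, -⟩, -, b, -⟩ := (m2 P X G N r k.bd).1 hN
    obtain ⟨i1, i2⟩ := m3 P Y X G N ⟨r, hY, k.sub⟩ k.bd hN
    exact ⟨r, fun _ j => (g_sub hN.toOpn j).elim (fun j => k.sub j) fun j => h.sub j, b h.conn,
      ⟨c, Or.inl c1⟩, o, a R car Y X' hY.up k, i1, (i2 R car X' k h.sub).1,
      (i2 R car X' k h.sub).2 h.conn h.nb⟩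
  rcases hX with rfl | rfl
  · obtain ⟨r, a1, a2, a3, a4, a5, a6, a7, a8⟩ := key V h.two
    exact ⟨_, _, ⟨a5, a1, a2, a3, fun c j => by
      rw [a4] at j; exact j.resolve_right fun j => j.2 (h.om j.1), a6 h.inc, a7 h.inc', a8⟩,
      fun _ _ => pre_sub_mvX, fun _ _ _ => shrink m2 r h.two.bd hN,
      fun _ _ _ c s _ => grow m2 r h.two hN c s⟩
  · have k := two_symm h.two hY.up h.sub
    obtain ⟨r, a1, a2, a3, -, a5, a6, a7, a8⟩ := key U k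
    refine ⟨_, _, ⟨two_symm a5 (hY.up.preimage t2_mono) a1, a1, a2, a3, fun c ⟨j, e, j1, l⟩ => ?_,
      a7 h.inc, a6 h.inc', a8⟩, fun _ => pre_sub_mvY, fun _ _ _ c s _ => grow m2 r k hN c s,
      fun _ _ _ => shrink m2 r k.bd hN⟩
    have i : t2 c ∈ Y := j1.elim (fun i => (mem_cl_sub h ⟨_, i, t2_mono l⟩).elim
      (fun i => h.two.sub i) fun i => h.sub i) fun i =>
      hY.up (le_t2 (Ch.bot_anti l e.bot.bot_mem)) ((hN.sub (i.2 _ e.bot.bot_mem)).elim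
        (fun i => k.sub i) fun i => h.sub i)
    rcases a5.cov c i with m | m | m
    exacts [absurd j1 (Set.disjoint_left.1 a5.dj (a5.up l m)), m, absurd m j]

theorem famStmt (m1 : Mv1Stmt) (m2 : Mv2Stmt) (m3 : Mv3Stmt) : FamStmt := by
  intro P _ _ R _ car Y k U G V i X N hY h hX hN d
  obtain ⟨U₁, V₁, n⟩ := new m1 m2 m3 hY (h.mem i) hX hN
  have Y2 := tw_amb tw2 hY
  have dg : ∀ j, j ≠ i → Disjoint (mvG X (G i) N) (t2 ⁻¹' G j) := fun j a =>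
    Set.disjoint_left.2 fun c b => b.elim (fun b => Set.disjoint_left.1 (h.dj i j a.symm) b.1)
      fun b => Set.disjoint_left.1 (d j a) (d_sub hN.toOpn b)
  refine ⟨fun j => if j = i then U₁ else t2 ⁻¹' U j, fun j => if j = i then V₁ else t2 ⁻¹' V j,
    fun j => ?_, fun a b c => ?_, fun a b c => ?_⟩
  · split_ifs with e
    exacts [n.mem, tw_mem tw2 (h.mem j)]
  · split_ifs with e e' e'
    exacts [absurd (e.trans e'.symm) c, dg b e', (dg a e).symm, (h.dj a b c).preimage _]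
  · have ns := nest hY (h.mem a) (h.mem b) (h.dj a b c)
    split_ifs with e e' e'
    · exact absurd (e.trans e'.symm) c
    · subst e
      intro s
      have s0 := n.sub _ (d b e') s
      obtain ⟨ζ, c1, c2⟩ := h.np a b c s0
      obtain ⟨ζ', b1, b2, b3⟩ := n.bu (G b) _ ζ c1 (fun _ j => Or.inl (ns s0 j))
        (fun _ j => Or.inl (nest Y2 n.mem (tw_mem tw2 (h.mem b)) (dg b e') s j))
        fun _ j => ⟨Or.inl (s0 j), Or.inr j⟩
      exact ⟨ζ', b1, fun j => c2 (b2.trans (j.trans b3.symm))⟩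
    · subst e'
      intro s
      obtain ⟨-, -, -, -, ⟨x, x1, -⟩, -⟩ := (m2 P X (G b) N
        (hX.elim (· ▸ two_rg (h.mem b).two hY.toRg (h.mem b).sub)
          (· ▸ two_rg (two_symm (h.mem b).two hY.up (h.mem b).sub) hY.toRg (h.mem b).sub))
        (hX.elim (· ▸ (h.mem b).two.bd)
          (· ▸ (two_symm (h.mem b).two hY.up (h.mem b).sub).bd))).1 hN
      have s0 : G b ⊆ U a := side (h.mem a).two (h.mem b).sub (h.mem b).conn (h.dj a b c).symm x1.1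
        (s (Or.inl x1))
      obtain ⟨ζ, c1, c2⟩ := h.np a b c s0
      obtain ⟨ζ', b1, b2, b3⟩ := n.bv (G a) (U a ∪ G a) ζ (Set.inter_comm _ _ ▸ c1)
        (fun _ j => Or.inl (s0 j)) (fun _ j => Or.inl (s j)) fun _ j => ⟨Or.inl (ns s0 j), Or.inr j⟩
      exact ⟨ζ', Set.inter_comm _ _ ▸ b1, fun j => c2 (b3.trans (j.trans b2.symm))⟩
    · intro s
      have s0 : G b ⊆ U a := (Set.preimage_subset_preimage_iff
        (fun x _ => Desc.surj (tw2 (P := P)) x)).1 s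
      obtain ⟨ζ, c1, c2⟩ := h.np a b c s0
      exact ⟨pb t2 ζ, cocOn_pb c1 t2_mono, fun j => c2
        ((tw_ex tw2 (cocOn_mono c1 fun _ j => ⟨Or.inr j, Or.inl (ns s0 j)⟩)).trans (j.trans
          (tw_ex tw2 (cocOn_mono c1 fun _ j => ⟨Or.inl (s0 j), Or.inr j⟩)).symm))⟩

end Crest.Agent.X212.Sm10.Mv
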