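import Crest.Agent.X212.Sm10.Dg1
import Crest.Agent.X212.Sep15.CvD

/-!
# Row 212, CV-SITE (helper10): the frame of the site
-/

set_option autoImplicit false
set_option linter.unusedSectionVars false
noncomputable section
open scoped Manifold ContDiff Topology InnerProductSpace ENNReal
open MeasureTheory Set Function Filter

namespace Crest.Agent.X212.Sm10.Cv
open An Sw Sob92 Cyf70 Sw.En3 Dg
open Wz78 (SA)
open Neck67 (Lb)
open Sep15.S (sa_clm Cc Tz tz ir SiteStmt)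
open Pb50 (Dw_congr sa_D th)
open M (Mf pm)

variable {κ lam ν : Type} [Fintype κ] [Fintype lam] [Fintype ν] [DecidableEq ν]
  {N N' : Type} [NormedAddCommGroup N] [NormedSpace ℝ N] [NormedAddCommGroup N'] [NormedSpace ℝ N']
  {α : Type} {l : Filter α}

section gen
variable {E : Type} [NormedAddCommGroup E] [NormedSpace ℝ E] [FiniteDimensional ℝ E]
  [MeasurableSpace E] [BorelSpace E]
  {HM : Type} [TopologicalSpace HM] {I : ModelWithCorners ℝ E HM}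
  {M : Type} [TopologicalSpace M] [ChartedSpace HM M] [IsManifold I ∞ M]
  [MeasurableSpace M] [T2Space M] [BorelSpace M] [SecondCountableTopology M] {ι : Type} [Fintype ι]
  {F : Pre I M ι} {S : Set M} {u : M → N} {k : ℕ} {C C' : ℝ} {O : α → Set M} {f f' : α → M → N}

theorem cont_Dw (hu : Sm I u) (w : List ι) : Continuous (F.Dw w u) :=
  (show Sm I (F.Dw w u) from fun x => sa_Dw (u := u) w (hu x)).continuous

theorem lb_open (hu : Sm I u) (h : ∀ w : List ι, w.length ≤ k → ∀ x ∈ S, ‖F.Dw w u x‖ ≤ C)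
    (hC : C < C') : ∃ O, IsOpen O ∧ S ⊆ O ∧ Lb F O k u C' :=
  ⟨⋂ w ∈ {w : List ι | w.length ≤ k}, {x | ‖F.Dw w u x‖ < C'},
    (List.finite_length_le ι k).isOpen_biInter fun w _ =>
      isOpen_lt (cont_Dw hu w).norm continuous_const,
    fun x hx => mem_iInter₂.2 fun w hw => (h w hw x hx).trans_lt hC,
    Lb.of_Dw (fun x _ => hu x) fun w hw _ hx => le_of_lt (mem_iInter₂.1 hx w hw)⟩

theorem lb_cpt (hu : Sm I u) (hS : IsCompact S) (k : ℕ) :
    ∃ C O, 0 < C ∧ IsOpen O ∧ S ⊆ O ∧ Lb F O k u C := by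
  choose c hc using fun w => hS.exists_bound_of_continuousOn (cont_Dw (F := F) hu w).continuousOn
  obtain ⟨C, hC⟩ := ((List.finite_length_le ι k).image c).bddAbove
  obtain ⟨O, h⟩ := lb_open (C' := |C| + 1) hu
    (fun w hw x hx => (hc w x hx).trans (hC ⟨w, hw, rfl⟩)) (by linarith [le_abs_self C])
  exact ⟨_, O, by positivity, h⟩

theorem n2_zero (k : ℕ) : ∀ {f : α → M → N}, (∀ i, Sm I (f i)) →
    (∀ w : List ι, w.length ≤ k → Tendsto (fun i => I2 F univ (F.Dw w (f i))) l (𝓝 0)) →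
    Tendsto (fun i => N2 F k (f i)) l (𝓝 0) := by
  have h0 : ∀ {f : α → M → N}, (∀ i, Sm I (f i)) → Tendsto (fun i => I2 F univ (f i)) l (𝓝 0) →
      Tendsto (fun i => N2 F 0 (f i)) l (𝓝 0) := fun {f} e h => by
    refine ((ENNReal.tendsto_toReal ENNReal.zero_ne_top).comp h).congr fun i => ?_
    show (I2 F univ (f i)).toReal = ∫ x, ‖f i x‖ ^ 2 ∂F.μ
    rw [integral_eq_lintegral_of_nonneg_ae (.of_forall fun _ => sq_nonneg _)
      ((e i).continuous.norm.pow 2).aestronglyMeasurable, I2, Measure.restrict_univ]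
    simp [ENNReal.ofReal_pow]
  induction k with
  | zero => exact fun e h => h0 e (h [] le_rfl)
  | succ k ih =>
    intro f e h
    have := (h0 e (h [] (by simp))).add (tendsto_finsetSum Finset.univ fun a _ =>
      ih (fun i => F.sm_D (e i) a) fun w hw => h (a :: w) (by simpa using hw))
    rw [Finset.sum_const_zero, add_zero] at this
    exact this

theorem n0_clm (L : N →L[ℝ] N') (h : N0 F l O f) : N0 F l O fun i x => L (f i x) :=
  h.le (h.sm.mono fun _ hi x hx => sa_clm L (hi.2 x hx)) (.of_forall fun _ _ _ => L.le_opNorm _)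

theorem n0_sum {β : Type} (s : Finset β) {u : β → α → M → N} (o : ∀ᶠ i in l, IsOpen (O i))
    (h : ∀ b ∈ s, N0 F l O (u b)) : N0 F l O fun i x => ∑ b ∈ s, u b i x := by
  classical
  induction s using Finset.induction_on with
  | empty => simpa [Pre.Dw] using Nl.zero (F := F) (N := N) o []
  | insert a s ha ih =>
    simp only [Finset.sum_insert ha]
    exact (h a (by simp)).add (ih fun i hi => h i (by simp [hi]))

/-- the triangle inequality for one word -/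
theorem n0_tri {g : M → N} (w : List ι) (e : ∀ᶠ i in l, ∀ x ∈ O i, SA I (f i - g) x ∧ SA I (f' i - g) x)
    (h : N0 F l O fun i => F.Dw w (f i - g)) (h' : N0 F l O fun i => F.Dw w (f' i - g)) :
    N0 F l O fun i => F.Dw w (f i - f' i) := by
  refine (h.add (n0_clm (-ContinuousLinearMap.id ℝ N) h')).congr
    ((e.and h.sm).mono fun i hi x hx => ?_)
  have h1 := Dw_add_on (F := F) hi.2.1 w (u := f i - f' i) (v := f' i - g)
    (fun y hy => by simpa [← Pi.sub_def] using (hi.1 y hy).1.sub (hi.1 y hy).2)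
    (fun y hy => (hi.1 y hy).2) x hx
  rw [show (fun y => (f i - f' i) y + (f' i - g) y) = f i - g from funext fun y => by simp] at h1
  simp [h1]

open Classical in
theorem eq_sum {A : Type} [Fintype A] (v : Fm A ℝ) :
    v = ∑ a, (ContinuousLinearMap.id ℝ ℝ).smulRight (PiLp.single 2 a (1 : ℝ) : Fm A ℝ) (v a) := by
  ext a
  simp [Finset.sum_apply, Pi.single_apply]

end gen

variable {X : Mf 4} {nc nr : ℕ} {A : Type} [Fintype A] {d : Dt κ lam ν} {ty : A → d.𝓔}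
  {T : Type} [NormedAddCommGroup T] [NormedSpace ℝ T] [FiniteDimensional ℝ T]
  {s : Pz X 0 fun i => d.e (ty i)} {𝓕 : Fam s nc T} {t t₀ : T} {c c₀ : Cfg X.M κ ν}
  {i : A} {K : Nk (d.e (ty i)) s.bg} {x : (d.e (ty i)).Y.M × ℝ} {r : ℝ}

theorem sm_al (h : 𝓕.OK) (ht : t ∈ 𝓕.Q) (hc : (𝓕.P t).bg.Adm c) : Sm X.I (𝓕.al t c) := fun x => by
  rw [funext fun x => eq_sum (𝓕.al t c x)]
  exact Wz78.SA.sum _ fun a _ => sa_clm _ (Wz78.SA.sum _ fun j _ =>
    Wz78.SA.mul (((h.sSi a j).cb t ht).choose_spec.1 x) (hc.sa j x))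

theorem ψ_core (h : s.OK) (hK : K ∈ s.nk i) (hx : x.2 ∈ K.J) (hr : |x.2| ≤ r) :
    K.ψ x ∈ s.core r := fun j b K' hK' _ hz => by
  have h1 := K.mem_src.2 hx
  by_cases e : i = j
  · subst e
    obtain rfl := Option.some.inj (hK.symm.trans hK')
    rw [img_eq K (S := K.far b r) inter_subset_left, mem_preimage, K.tm_ψ x h1] at hz
    have h2 := hz.2
    have h3 := abs_le.1 hr
    cases b <;> simp only [pm, mem_ofPred_eq] at h2 <;> norm_num at h2 <;> linarith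
  · obtain ⟨z, hz, e'⟩ := hz
    exact Set.disjoint_left.1 (h.dj e K hK K' hK') (K.ψ.map_source h1)
      (e' ▸ K'.ψ.map_source (K'.mem_src.2 hz.2.1))

theorem dw_a (h : 𝓕.OK) (ht : t ∈ 𝓕.Q) (ht₀ : t₀ ∈ 𝓕.Q) (hc : (𝓕.P t).bg.Adm c)
    (hc₀ : (𝓕.P t₀).bg.Adm c₀) (hK : K ∈ s.nk i) (hx : x ∈ K.ψ.source) (w : List (Option κ))
    (a : Option κ) : s.bg.F.Dw w (𝓕.al t c - 𝓕.al t₀ c₀) (K.ψ x) a =
      (d.e (ty i)).D.Z.Dw w ((K.pb c).a a - (K.pb c₀).a a) x := by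
  refine (congrFun (Prm93.Dw_clm (F := s.bg.F.toPre) (PiLp.proj 2 (fun _ : Option κ => ℝ) a) w
    ((sm_al h ht hc).sub (sm_al h ht₀ hc₀))) (K.ψ x)).symm.trans ((Pb50.Dw_ψ K hx _ w).trans
      (Dw_on K.ψ.open_source w (fun y hy => ?_) hx))
  exact congrArg₂ (· - ·)
    ((alC_nk h ht hK hy fun a => by simpa only [h.B _ ht] using hc.pa a (K.ψ y)).1 a)
    ((alC_nk h ht₀ hK hy fun a => by simpa only [h.B _ ht₀] using hc₀.pa a (K.ψ y)).1 a)

theorem act (h : 𝓕.OK) {u : X.M → ℂ} (hu : Gau X.I u) (r : ℝ) (k : ℕ) {ε : ℝ} (hε : 0 < ε) :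
    ∃ η > 0, ∀ t ∈ 𝓕.Q, ∀ t₀ ∈ 𝓕.Q, ∀ c c₀, (𝓕.P t).bg.Adm c → (𝓕.P t₀).bg.Adm c₀ →
      Cc 𝓕 t c t₀ c₀ r k η → Cc 𝓕 t ((𝓕.P t).bg.act u c) t₀ ((𝓕.P t₀).bg.act u c₀) r k ε := by
  obtain ⟨C, O, h0, h1, h2, h3⟩ := lb_cpt (F := s.bg.F.toPre) hu.1 (h.site.cpt r) k
  obtain ⟨B, hB⟩ : ∃ B, B = 2 ^ k * ‖Pb50.cB s.bg.m.J‖ * C := ⟨_, rfl⟩
  have h4 : 0 ≤ B := by rw [hB]; positivity
  have h5 : 0 < ε / (2 * B + 1) := by positivity
  refine ⟨_, h5, fun t ht t₀ ht₀ c c₀ hc hc₀ g w hw x hx => ⟨?_, ?_⟩⟩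
  · rw [show 𝓕.al t ((𝓕.P t).bg.act u c) - 𝓕.al t₀ ((𝓕.P t₀).bg.act u c₀) =
      𝓕.al t c - 𝓕.al t₀ c₀ from funext fun y => PiLp.ext fun a => by
        simp [al_act h ht, al_act h ht₀]]
    exact (g w hw x hx).1.trans (div_le_self hε.le (by linarith))
  obtain ⟨O', k1, k2, k3⟩ := lb_open (C' := 2 * (ε / (2 * B + 1))) (hc.sΦ.sub hc₀.sΦ)
    (fun w hw x hx => (g w hw x hx).2) (by linarith)
  have k4 := (Lb.bil (h1.inter k1) (Pb50.cB s.bg.m.J) h0.le (by positivity)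
    (h3.sub inter_subset_left) (k3.sub inter_subset_right)).Dw w hw x ⟨h2 hx, k2 hx⟩
  rw [show ((𝓕.P t).bg.act u c).Φ - ((𝓕.P t₀).bg.act u c₀).Φ =
    fun y => Pb50.cB s.bg.m.J (u y) (c.Φ y - c₀.Φ y) from funext fun y => by
      simp only [Pi.sub_apply, Pb50.act_Φ, h.m t ht, h.m t₀ ht₀, map_sub]]
  refine k4.trans ?_
  rw [← hB, ← mul_assoc, mul_div_assoc', div_le_iff₀ (by positivity)]
  nlinarith

theorem loc {u u' : X.M → ℂ} {z : X.M} (h : u' =ᶠ[𝓝 z] u) :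
    ∀ᶠ y in 𝓝 z, At (alC 𝓕 t ((𝓕.P t).bg.act u' c)) (alC 𝓕 t ((𝓕.P t).bg.act u c)) y :=
  h.eventuallyEq_nhds.mono fun _ hy => alC_congr (ac_congr (F := (𝓕.P t).bg.F.toPre)
    (J := (𝓕.P t).bg.m.J) hy (c := c) ⟨fun _ => rfl, rfl⟩)

theorem cover {f : α → X.M → N} {r : α → ℝ}
    (h : Tendsto (fun j => I2 s.bg.F.toPre (s.core (r j)) (f j)) l (𝓝 0))
    (h' : ∀ i b, ∀ K ∈ s.nk i, K.Inf b →
      Tendsto (fun j => I2 s.bg.F.toPre (K.ψ '' (univ ×ˢ K.far b (r j))) (f j)) l (𝓝 0)) :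
    Tendsto (fun j => I2 s.bg.F.toPre univ (f j)) l (𝓝 0) := by
  let S : A × Bool → ℝ → Set X.M := fun p r =>
    {z | ∃ K ∈ s.nk p.1, K.Inf p.2 ∧ z ∈ K.ψ '' (univ ×ˢ K.far p.2 r)}
  have h1 : ∀ p, Tendsto (fun j => I2 s.bg.F.toPre (S p (r j)) (f j)) l (𝓝 0) := fun p => by
    by_cases e : s.Inf p.1 p.2
    · obtain ⟨K, hK, e⟩ := e
      refine tendsto_le (h' _ _ K hK e) (.of_forall fun j => lintegral_mono_set ?_)
      rintro z ⟨K', hK', -, hz⟩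
      rwa [Option.some.inj (hK.symm.trans hK')]
    · refine tendsto_le tendsto_const_nhds (.of_forall fun j => ?_)
      rw [show S p (r j) = ∅ from eq_empty_of_forall_notMem fun z ⟨K, a, b, _⟩ => e ⟨K, a, b⟩]
      simp [I2]
  have h2 := h.add (tendsto_finsetSum Finset.univ fun p _ => h1 p)
  rw [Finset.sum_const_zero, add_zero] at h2
  refine tendsto_le h2 (.of_forall fun j => ?_)
  refine (lintegral_mono_set (t := s.core (r j) ∪ ⋃ p, S p (r j)) fun z _ => ?_).trans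
    ((lintegral_union_le _ _ _).trans (add_le_add_right ((lintegral_iUnion_le _ _).trans
      (tsum_fintype _).le) _))
  by_contra k
  exact k (.inl fun i b K hK e hz => k (.inr (mem_iUnion.2 ⟨(i, b), K, hK, e, hz⟩)))

theorem i2_core (h : s.OK) {f : X.M → N} {η : ℝ} (e : ∀ z ∈ s.core r, ‖f z‖ ≤ η) :
    I2 s.bg.F.toPre (s.core r) f ≤ ENNReal.ofReal (η ^ 2) * s.bg.F.μ (s.core r) := by
  rw [← setLIntegral_const]
  refine setLIntegral_mono' (h.cpt r).measurableSet fun z hz => ?_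
  rw [← ofReal_norm, ← ENNReal.ofReal_pow (norm_nonneg _)]
  exact ENNReal.ofReal_le_ofReal (pow_le_pow_left₀ (norm_nonneg _) (e z hz) 2)

theorem dk {σ : Cel s nc nr T} (h : σ.OK) {y : α → σ.Pnt} {y₀ : σ.Pnt} {k : ℕ} {η r η' : α → ℝ}
    (hη : Tendsto η l (𝓝 0)) (hr : Tendsto r l atTop) (hη' : Tendsto η' l (𝓝 0))
    (hv : Tendsto (fun j => ENNReal.ofReal (η' j ^ 2) * s.bg.F.μ (s.core (r j))) l (𝓝 0))
    (e : ∀ᶠ j in l, ‖(y j).1.1 - y₀.1.1‖ ≤ η' j ∧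
      Cc σ.toFam (y j).1.1 (y j).1.2 y₀.1.1 y₀.1.2 (r j) k (η' j) ∧ ∀ i b, ∀ K ∈ s.nk i, K.Inf b →
        Tz (K.pb (y j).1.2) (σ.β i b) (ir b (r j)) k (η j)) :
    Tendsto (fun j => σ.dk k (y j) y₀) l (𝓝 0) := by
  have hF := h.toOK
  have h0 : Tendsto (fun j => ENNReal.ofReal (η j)) l (𝓝 0) := by
    simpa using ENNReal.tendsto_ofReal hη
  have h1 : ∀ (y : σ.Pnt) i, ∀ K ∈ s.nk i, ∀ z ∈ K.ψ.source,
      (∀ a, SA (IC (d.e (ty i)).Y.I) ((K.pb y.1.2).a a) z) ∧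
        SA (IC (d.e (ty i)).Y.I) (K.pb y.1.2).Φ z := fun y i K _ z hz =>
    ⟨fun a => Pb50.sa_ψ K hz (y.2.2.1.sa a _), Pb50.sa_ψ K hz (y.2.2.1.sΦ _)⟩
  have h2 : ∀ w : List (Option κ), w.length ≤ k → ∀ i b, ∀ K ∈ s.nk i, K.Inf b →
      (∀ a, N0 (d.e (ty i)).D.Z.toPre l (fun j => univ ×ˢ K.far b (r j)) fun j =>
        (d.e (ty i)).D.Z.Dw w ((K.pb (y j).1.2).a a - (K.pb y₀.1.2).a a)) ∧
      N0 (d.e (ty i)).D.Z.toPre l (fun j => univ ×ˢ K.far b (r j)) fun j =>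
        (d.e (ty i)).D.Z.Dw w ((K.pb (y j).1.2).Φ - (K.pb y₀.1.2).Φ) := fun w hw i b K hK hb => by
    have hv := (h.gd i b ⟨K, hK, hb⟩).crit.1
    obtain ⟨K', hK', g⟩ := hF.en _ y₀.2.1 i K hK
    have k1 := asy_nc K' y₀.2.2.1 hv (y₀.2.2.2 i b K' hK' ((Pb50.ng_inf g).2 hb)) hr
    simp only [Nk.pb, Nk.far, Nd18.Nk.J, Pb50.ng_ψ g, Pb50.ng_p g, Pb50.ng_q g] at k1
    have k2 : ∀ j, ∀ z ∈ univ ×ˢ K.far b (r j), z ∈ K.ψ.source := fun j z hz => K.mem_src.2 hz.2.1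
    have k3 : ∀ j, (univ : Set (d.e (ty i)).Y.M) ×ˢ K.far b (r j) ⊆ univ ×ˢ ir b (r j) :=
      fun j z hz => ⟨trivial, hz.2.2⟩
    refine ⟨fun a => n0_tri (g := (fz (σ.β i b)).a a) w (.of_forall fun j z hz =>
        ⟨((h1 _ i K hK z (k2 j z hz)).1 a).sub (hv.sa a z),
          ((h1 _ i K hK z (k2 j z hz)).1 a).sub (hv.sa a z)⟩) ⟨.of_forall fun j =>
        ⟨Pb50.isOpen_far K _, fun z hz => sa_Dw (u := (K.pb (y j).1.2).a a) w
          (((h1 _ i K hK z (k2 j z hz)).1 a).sub (hv.sa a z))⟩, tendsto_le h0 (e.mono fun j hj =>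
          .trans ?_ (hj.2.2 i b K hK hb w hw))⟩ (k1.1 a w),
      n0_tri (g := (fz (σ.β i b)).Φ) w (.of_forall fun j z hz =>
        ⟨(h1 _ i K hK z (k2 j z hz)).2.sub (hv.sΦ z), (h1 _ i K hK z (k2 j z hz)).2.sub (hv.sΦ z)⟩)
        ⟨.of_forall fun j => ⟨Pb50.isOpen_far K _, fun z hz => sa_Dw (u := (K.pb (y j).1.2).Φ) w
          ((h1 _ i K hK z (k2 j z hz)).2.sub (hv.sΦ z))⟩, tendsto_le h0 (e.mono fun j hj =>
          .trans ?_ (hj.2.2 i b K hK hb w hw))⟩ (k1.2 w)⟩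
    · exact (lintegral_mono_set (k3 j)).trans (lintegral_mono fun z => le_self_add.trans'
        (Finset.single_le_sum (f := fun a => ‖(d.e (ty i)).D.Z.Dw w ((K.pb (y j).1.2).a a -
          (fz (σ.β i b)).a a) z‖ₑ ^ 2) (fun _ _ => zero_le) (Finset.mem_univ a)))
    · exact (lintegral_mono_set (k3 j)).trans (lintegral_mono fun z => le_add_self)
  have h3 : ∀ {V : Type} [NormedAddCommGroup V] [InnerProductSpace ℝ V] {f : α → X.M → V},
      (∀ j, Sm X.I (f j)) → (∀ w : List (Option κ), w.length ≤ k →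
        (∀ᶠ j in l, ∀ z ∈ s.core (r j), ‖s.bg.F.Dw w (f j) z‖ ≤ η' j) ∧ ∀ i b, ∀ K ∈ s.nk i, K.Inf b →
          N0 (d.e (ty i)).D.Z.toPre l (fun j => univ ×ˢ K.far b (r j)) fun j z =>
            s.bg.F.Dw w (f j) (K.ψ z)) → Tendsto (fun j => s.bg.F.nrm k (f j)) l (𝓝 0) := by
    intro V _ _ f hf g
    have := (n2_zero k hf fun w hw => cover (tendsto_le hv ((g w hw).1.mono fun j hj =>
      i2_core hF.site hj)) fun i b K hK hb => ((g w hw).2 i b K hK hb).z.congr fun j =>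
        I2_iso K.iso (Pb50.isOpen_far K _) (fun z hz => K.mem_src.2 hz.2.1)
          fun z _ => sa_Dw (u := f j) w (hf j _)).sqrt
    simpa only [nrm_eq, Real.sqrt_zero] using this
  have h4 := ((h3 (fun j => (sm_al hF (y j).2.1 (y j).2.2.1).sub (sm_al hF y₀.2.1 y₀.2.2.1))
    fun w hw => ⟨e.mono fun j hj z hz => (hj.2.1 w hw z hz).1, fun i b K hK hb =>
      (n0_sum Finset.univ (.of_forall fun j => Pb50.isOpen_far K _) fun a _ => n0_clm _
        ((h2 w hw i b K hK hb).1 a)).congr (.of_forall fun j z hz => (eq_sum _).trans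
          (Finset.sum_congr rfl fun a _ => congrArg _ (dw_a hF (y j).2.1 y₀.2.1 (y j).2.2.1
            y₀.2.2.1 hK (K.mem_src.2 hz.2.1) w a)))⟩).add
    (h3 (fun j => (y j).2.2.1.sΦ.sub y₀.2.2.1.sΦ) fun w hw => ⟨e.mono fun j hj z hz =>
      (hj.2.1 w hw z hz).2, fun i b K hK hb => (h2 w hw i b K hK hb).2.congr
        (.of_forall fun j z hz => Pb50.Dw_ψ K (K.mem_src.2 hz.2.1) _ w)⟩)).add
    (squeeze_zero' (.of_forall fun _ => norm_nonneg _) (e.mono fun _ hj => hj.1) hη')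
  rw [add_zero, add_zero] at h4
  exact h4

variable (d ty X nc nr T) in
/-- **CV-SITE** -/
theorem site : SiteStmt d ty X nc nr T where
  cl s 𝓕 h t ht t₀ ht₀ c c₀ r k η hc hc₀ g i K hK w hw x hx := by
    have h1 := g w hw _ (ψ_core h.site hK hx.2.1 hx.2.2)
    have h2 := K.mem_src.2 hx.2.1
    exact ⟨fun a => dw_a h ht ht₀ hc hc₀ hK h2 w a ▸ (PiLp.norm_apply_le _ a).trans h1.1,
      (Pb50.Dw_ψ K h2 (c.Φ - c₀.Φ) w ▸ h1.2 :)⟩
  act _ _ h _ hu r k _ hε := act h hu r k hε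
  loc s 𝓕 t t₀ c c₀ u u' r k η h g w hw x hx := by
    rw [(Dw_congr w (f := 𝓕.al t ((𝓕.P t).bg.act u' c) - 𝓕.al t₀ c₀)
        (g := 𝓕.al t ((𝓕.P t).bg.act u c) - 𝓕.al t₀ c₀) ((loc (h x hx)).mono
        fun y hy => congrArg (· - 𝓕.al t₀ c₀ y) (PiLp.ext hy.1))).self_of_nhds,
      (Dw_congr w (f := ((𝓕.P t).bg.act u' c).Φ - c₀.Φ) (g := ((𝓕.P t).bg.act u c).Φ - c₀.Φ)
        ((loc (h x hx)).mono fun y hy => congrArg (· - c₀.Φ y) hy.2)).self_of_nhds]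
    exact g w hw x hx
  dk s σ h y₀ k ε hε := by
    let H : ℝ × ℝ × ℝ × σ.Pnt → Prop := fun p => ‖p.2.2.2.1.1 - y₀.1.1‖ ≤ p.2.2.1 ∧
      Cc σ.toFam p.2.2.2.1.1 p.2.2.2.1.2 y₀.1.1 y₀.1.2 p.2.1 k p.2.2.1 ∧ ∀ i b, ∀ K ∈ s.nk i,
        K.Inf b → Tz (K.pb p.2.2.2.1.2) (σ.β i b) (ir b p.2.1) k p.1
    let l : Filter (ℝ × ℝ × ℝ × σ.Pnt) := (𝓝[>] 0).curry (atTop.curry ((𝓝[>] 0).curry ⊤))
    have h1 : ∀ {γ : Type} {f : ℝ → ℝ → γ} {m : Filter γ}, (∀ r, Tendsto (f r) (𝓝[>] 0) m) →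
        Tendsto (fun p : ℝ × ℝ × ℝ × σ.Pnt => f p.2.1 p.2.2.1) l m :=
      fun {_ f _} g => tendsto_def.2 fun U hU => eventually_curry_iff.2 (.of_forall fun _ =>
        eventually_curry_iff.2 (.of_forall fun r => eventually_curry_iff.2
          (((g r).eventually_mem hU).mono fun _ k => .of_forall fun _ => k)))
    have h2 := (dk h (l := l ⊓ 𝓟 {p | H p}) (y := fun p => p.2.2.2) (y₀ := y₀) (k := k)
      (η := fun p => p.1) (r := fun p => p.2.1) (η' := fun p => p.2.2.1)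
      (.mono_left (tendsto_def.2 fun U hU => eventually_curry_iff.2 (mem_of_superset
        (nhdsWithin_le_nhds hU) fun _ k => Eventually.of_forall fun _ => k)) inf_le_left)
      (.mono_left (tendsto_def.2 fun U hU => eventually_curry_iff.2 (.of_forall fun _ =>
        eventually_curry_iff.2 (mem_of_superset hU fun _ k => Eventually.of_forall fun _ => k)))
        inf_le_left)
      ((h1 (f := fun _ η => η) fun _ => nhdsWithin_le_nhds).mono_left inf_le_left)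
      ((h1 (f := fun r η => ENNReal.ofReal (η ^ 2) * s.bg.F.μ (s.core r)) fun r => ?_).mono_left
        inf_le_left) (mem_inf_of_right (mem_principal_self _))).eventually_le_const hε
    · obtain ⟨η, k1, k2⟩ := ((eventually_curry_iff.1 (eventually_inf_principal.1 h2)).and
        self_mem_nhdsWithin).exists
      refine ⟨η, k2, (eventually_curry_iff.1 k1).mono fun r k3 => ?_⟩
      obtain ⟨η', k4, k5⟩ := ((eventually_curry_iff.1 k3).and self_mem_nhdsWithin).exists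
      exact ⟨η', k5, fun y a b c => k4 y ⟨a, b, c⟩⟩
    have : Tendsto (fun η : ℝ => ENNReal.ofReal (η ^ 2)) (𝓝 0) (𝓝 (ENNReal.ofReal (0 ^ 2))) :=
      (ENNReal.continuous_ofReal.comp (continuous_pow 2)).tendsto 0
    simpa using (ENNReal.Tendsto.mul_const this (.inr (h.site.cpt r).measure_lt_top.ne)).mono_left
      nhdsWithin_le_nhds

end Crest.Agent.X212.Sm10.Cv
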