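import Crest.Agent.X212.Sm10.Dg4

/-!
# Row 212, SW-DEG (helper10), part 5: `MkP`
-/

set_option autoImplicit false
set_option linter.unusedSectionVars false
noncomputable section
open scoped Manifold ContDiff Topology InnerProductSpace ENNReal
open MeasureTheory Set Function Filter

namespace Crest.Agent.X212.Sm10.Dg
open An Sw Sob92 Cyf70 Sw.En3
open Wz78 (SA)
open Neck67 (Lb)
open Pb50 (th LG LA Hi Gl nd nd_basis src)
open Cut71 (mem_img tm_tgt pm_not pm_sq sH sH_lit shf)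
open M (Mf pm)

variable {κ lam ν : Type} [Fintype κ] [Fintype lam] [Fintype ν] [DecidableEq ν]
  {X X' X'' : Mf 4} {nc nc' nc'' nr nr' nr'' : ℕ} {α : Type} {l : Filter α}

theorem nl_of_hi {ι V : Type} [Fintype ι] [NormedAddCommGroup V] [InnerProductSpace ℝ V]
    {F : Pre X.I X.M ι} {f : α → X.M → V} (h : ∀ i, Hi F (f i))
    (h' : ∀ k, Tendsto (fun i => F.nrm k (f i)) l (𝓝 0)) : Nl F l (fun _ => univ) f :=
  .mk' (.of_forall fun i => ⟨isOpen_univ, fun x _ => (h i).1 x⟩) fun w => tendsto_le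
    (b := fun i => ENNReal.ofReal (F.nrm w.length (f i) ^ 2))
    (by simpa using ENNReal.tendsto_ofReal ((h' w.length).pow 2))
    (.of_forall fun i => by rw [nrm_sq]; exact I2_of_n2 w le_rfl ((h i).2 _))

theorem Hi.sub' {ι V : Type} [Fintype ι] [NormedAddCommGroup V] [NormedSpace ℝ V]
    {F : Pre X.I X.M ι} {f g u : X.M → V} (h : Hi F (f - u)) (h' : Hi F (g - u)) : Hi F (f - g) := by
  convert h.add (h'.clm (-ContinuousLinearMap.id ℝ V)) using 1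
  funext x
  simp

theorem NC.shf {e : En3 κ lam ν} {c : α → e.ZC} {v : e.YC} {J J' : α → Set ℝ} {δ : α → ℝ}
    (h : NC e.D.Z.toPre l (fun i => univ ×ˢ J' i) c fun _ => fz v)
    (k : ∀ᶠ i in l, IsOpen (J i) ∧ ∀ t ∈ J i, t + δ i ∈ J' i) :
    NC e.D.Z.toPre l (fun i => univ ×ˢ J i) (fun i => shf (δ i) (c i)) fun _ => fz v := by
  have := (NC.iso (X := e.Z) (F := e.D.Z) (F' := e.D.Z)
    (φ := fun i => (sH e (δ i)).toOpenPartialHomeomorph) (S := fun i => univ ×ˢ J i)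
    (c := c) (c' := fun _ => fz v) ?_).2 (h.sub ?_)
  · exact this.right (.of_forall fun i x _ => by
      rw [show (fz v).pb (sH e (δ i)).toOpenPartialHomeomorph = fz v from Cut71.shf_fz _ v]
      exact ⟨fun _ => rfl, rfl⟩)
  · filter_upwards [k, NC.sm (X := e.Z) h] with i k h
    exact ⟨(sH_lit _).iso, isOpen_univ.prod k.1, subset_univ _, fun x hx =>
      h _ ⟨trivial, k.2 _ hx.2⟩⟩
  · exact k.mono fun i k => ⟨(sH e (δ i)).isOpenMap _ (isOpen_univ.prod k.1),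
      image_subset_iff.2 fun x hx => ⟨trivial, k.2 _ hx.2⟩⟩

variable {d : Dt κ lam ν} [Fintype d.𝓔] {Sl : Type} [Fintype Sl]
  {T T' T'' : Type} [NormedAddCommGroup T] [NormedSpace ℝ T] [FiniteDimensional ℝ T]
  [NormedAddCommGroup T'] [NormedSpace ℝ T'] [FiniteDimensional ℝ T']
  [NormedAddCommGroup T''] [NormedSpace ℝ T''] [FiniteDimensional ℝ T'']

section side
variable {s : StS d Sl X} {σ : Cel s nc nr T} {j₀ : d.𝓔 × Sl} {K : Nk (d.e j₀.1) s.bg} {b : Bool}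
  {r : α → ℝ} {y : α → σ.Pnt} {y₀ : σ.Pnt}

theorem dk_mono {j k : ℕ} (h : j ≤ k) (y y' : σ.Pnt) : σ.dk j y y' ≤ σ.dk k y y' := by
  simp only [Cel.dk, nrm_eq]
  gcongr <;> exact n2_mono h _

/-- one gauge for all orders -/
theorem diag [l.NeBot] (h : σ.OK) (hr : Tendsto r l atTop) (hc : σ.Cvg l y y₀) :
    ∃ y' : α → σ.Pnt, (∀ᶠ i in l, σ.Eqv (y i) (y' i)) ∧ Tendsto (fun i => (y i).1.1) l (𝓝 y₀.1.1) ∧
      Cg σ l (fun _ => univ) (fun i => (y' i).1.1) (fun i => (y' i).1.2) y₀ := by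
  classical
  let A : ℕ → α → Prop := fun k i => ∃ y', σ.Eqv (y i) y' ∧ σ.dk k y' y₀ ≤ 1 / ((k : ℝ) + 1)
  let n : α → ℕ := fun i => Nat.findGreatest (A · i) ⌊r i⌋₊
  have h1 : ∀ k, ∀ᶠ i in l, A k i ∧ k ≤ ⌊r i⌋₊ := fun k => (hc k _ (by positivity)).and
    ((tendsto_nat_floor_atTop.comp hr).eventually_ge_atTop k)
  have h2 : Tendsto n l atTop := tendsto_atTop.2 fun k => (h1 k).mono fun i hi =>
    Nat.le_findGreatest hi.2 hi.1
  obtain ⟨y', h3⟩ := Eventually.choice ((h1 0).mono fun i hi =>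
    Nat.findGreatest_spec (P := (A · i)) hi.2 hi.1)
  have n0 := fun k (i : α) => nrm_nonneg (F := s.bg.F.toPre) k
    (σ.al (y' i).1.1 (y' i).1.2 - σ.al y₀.1.1 y₀.1.2)
  have n1 := fun k (i : α) => nrm_nonneg (F := s.bg.F.toPre) k ((y' i).1.2.Φ - y₀.1.2.Φ)
  have n2 := fun i : α => norm_nonneg ((y' i).1.1 - y₀.1.1)
  have h4 : ∀ k (f : α → ℝ), (∀ i, 0 ≤ f i ∧ f i ≤ σ.dk k (y' i) y₀) → Tendsto f l (𝓝 0) :=
    fun k f hf => squeeze_zero' (.of_forall fun i => (hf i).1)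
      ((h3.and (h2.eventually_ge_atTop k)).mono fun i hi =>
        (hf i).2.trans ((dk_mono hi.2 _ _).trans hi.1.2))
      (tendsto_one_div_add_atTop_nhds_zero_nat.comp h2)
  have h5 := fun y : σ.Pnt => ((Pb50.as_iff h.site fun i b k => (h.gd i b k).crit).1
    ((Pb50.as_fam h.toOK y.2.1 _ _).1 y.2.2).1).2
  have h6 : Nl s.bg.F.toPre l (fun _ => univ) fun i =>
      σ.al (y' i).1.1 (y' i).1.2 - σ.al y₀.1.1 y₀.1.2 :=
    nl_of_hi (fun i => Pb50.Hi.toLp fun a => Hi.sub' ((h5 (y' i)).1 a) ((h5 y₀).1 a)) fun k =>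
      h4 k _ fun i => ⟨n0 k i, by rw [Cel.dk]; linarith [n1 k i, n2 i]⟩
  refine ⟨y', h3.mono fun _ k => k.1, ?_, fun a => h6.clm (PiLp.proj 2 (fun _ : Option κ => ℝ) a),
    nl_of_hi (f := fun i => (y' i).1.2.Φ - y₀.1.2.Φ)
      (fun i => Hi.sub' (h5 (y' i)).2 (h5 y₀).2) fun k => h4 k _ fun i =>
      ⟨n1 k i, by rw [Cel.dk]; linarith [n0 k i, n2 i]⟩⟩
  exact (tendsto_iff_norm_sub_tendsto_zero.2 (h4 0 _ fun i =>
    ⟨n2 i, by rw [Cel.dk]; linarith [n0 0 i, n1 0 i]⟩)).congr' (h3.mono fun _ k => k.1.1.symm)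

theorem la_nk (h : σ.toFam.OK) (hK : s.nk j₀ = some K) (y : σ.Pnt) {z : (d.e j₀.1).Y.M × ℝ}
    (hz : z.2 ∈ K.J) : LA (d.e j₀.1).cyl (K.pb y.1.2) z ∧ ∀ u,
      At (K.pb ((σ.P y.1.1).bg.act u y.1.2)) ((d.e j₀.1).cyl.act (fun x => u (K.ψ x)) (K.pb y.1.2)) z := by
  obtain ⟨K', -, k⟩ := h.en _ y.2.1 j₀ K hK
  have := K.mem_src.2 hz
  simp only [Nk.pb, ← Pb50.ng_ψ k] at this ⊢
  exact ⟨Pb50.la_ψ K' this (.of_adm y.2.2.1 _), fun u => Pb50.pb_act K' this u _⟩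

theorem asy_site (h : σ.OK) (hK : s.nk j₀ = some K) (hb : K.Inf b) (hr : Tendsto r l atTop)
    (y : σ.Pnt) : NC (d.e j₀.1).D.Z.toPre l (fun i => univ ×ˢ K.far b (r i)) (fun _ => K.pb y.1.2)
      fun _ => fz (σ.β j₀ b) := by
  have k := ((Pb50.as_fam h.toOK y.2.1 _ _).1 y.2.2)
  exact (asy_nc K k.1.1 (h.gd j₀ b ⟨K, hK, hb⟩).crit.1 (k.1.2 j₀ b K hK hb) hr).left
    (.of_forall fun i z hz => (alC_nk h.toOK y.2.1 hK (K.mem_src.2 hz.2.1) fun a => k.2 a _).symm)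

theorem nc_of_tl (h : σ.OK) (hK : s.nk j₀ = some K) (hb : K.Inf b)
    (ht : ∀ w, ∀ η > 0, ∀ᶠ i in l, K.tl b (σ.β j₀ b) (y i).1.2 (r i) w ≤ ENNReal.ofReal η) :
    NC (d.e j₀.1).D.Z.toPre l (fun i => univ ×ˢ K.far b (r i)) (fun i => K.pb (y i).1.2)
      fun _ => fz (σ.β j₀ b) := by
  have hv := (h.gd j₀ b ⟨K, hK, hb⟩).crit.1
  have z : ∀ w, Tendsto (fun i => K.tl b (σ.β j₀ b) (y i).1.2 (r i) w) l (𝓝 0) := fun w =>
    ENNReal.tendsto_nhds_zero.2 fun ε hε => by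
      obtain ⟨η, h1, h2⟩ := ENNReal.lt_iff_exists_real_btwn.1 hε
      exact (ht w η (ENNReal.ofReal_pos.1 h2.1)).mono fun _ k => k.trans h2.2.le
  exact ⟨fun a => .mk' (.of_forall fun i => ⟨Pb50.isOpen_far K _, fun x hx =>
      ((la_nk h.toOK hK (y i) hx.2.1).1.sa a).sub (hv.sa a x)⟩) fun w => tendsto_le (z w)
      (.of_forall fun i => lintegral_mono fun x => le_self_add.trans' (Finset.single_le_sum
        (f := fun a => ‖(d.e j₀.1).D.Z.Dw w ((K.pb (y i).1.2).a a - (fz (σ.β j₀ b)).a a) x‖ₑ ^ 2)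
        (fun _ _ => zero_le) (Finset.mem_univ a))),
    .mk' (.of_forall fun i => ⟨Pb50.isOpen_far K _, fun x hx =>
      (la_nk h.toOK hK (y i) hx.2.1).1.sΦ.sub (hv.sΦ x)⟩) fun w => tendsto_le (z w)
      (.of_forall fun i => lintegral_mono fun x => le_add_self)⟩

/-- a convergent sequence with small tails -/
theorem cut_cvg [l.NeBot] (h : σ.OK) (hK : s.nk j₀ = some K) (hb : K.Inf b) (hr : Tendsto r l atTop)
    (hc : σ.Cvg l y y₀)
    (ht : ∀ w, ∀ η > 0, ∀ᶠ i in l, K.tl b (σ.β j₀ b) (y i).1.2 (r i - 4) w ≤ ENNReal.ofReal η) :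
    Tendsto (fun i => (y i).1.1) l (𝓝 y₀.1.1) ∧ ∃ v : α → X.M → ℂ,
      (∀ᶠ i in l, s.Al (v i) ∧ ∀ x, r i - 1 ≤ pm b * K.tm x → v i x = 1) ∧
      Cg σ l (fun i => Up K b (r i + 1)) (fun i => (y i).1.1)
        (fun i => (σ.P (y i).1.1).bg.act (v i) (y i).1.2) y₀ := by
  obtain ⟨y', h1, h2, h3⟩ := diag h hr hc
  obtain ⟨u, hu⟩ := Eventually.choice (h1.mono fun _ k => k.2)
  have hu' : ∀ᶠ i in l, s.Al (u i) := hu.mono fun i k => (Pb50.al_fam h.toOK (y i).2.1 _).1 k.1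
  have hr' : Tendsto (fun i => r i - 4) l atTop := tendsto_atTop_add_const_right _ (-4) hr
  obtain ⟨T₁, hT⟩ := big hb
  have gd := h.gd j₀ b ⟨K, hK, hb⟩
  have he := h.site.en j₀
  have wn : ∀ᶠ i in l, ∀ τ ∈ Wn b (r i), Ioo (τ - 1) (τ + 1) ⊆ K.far b (r i - 4) :=
    (hr.eventually_ge_atTop (T₁ + 4)).mono fun i hi τ hτ τ' h' => by
      have : r i - 4 < pm b * τ' := by
        have := (mem_Wn.1 hτ).1
        cases b <;> simp only [pm] at this ⊢ <;> norm_num at this ⊢ <;> linarith [h'.1, h'.2]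
      exact ⟨hT _ (by linarith), this⟩
  have z1 := (nc_of_tl h hK hb ht).zs he one_pos wn
  have z2 := (((cg_nk h.toOK hK h3 (J := fun i => K.far b (r i - 4)) (.of_forall fun i =>
    ⟨(y' i).2.1, Nd18.isOpen_Jv.inter (isOpen_lt continuous_const (by fun_prop)), inter_subset_left,
      fun z _ => ⟨trivial, .of_adm (y' i).2.2.1 z⟩⟩)).trans (asy_site h hK hb hr' y₀)).left
    (c'' := fun i => (d.e j₀.1).cyl.act (fun x => u i (K.ψ x)) (K.pb (y i).1.2))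
    (hu.mono fun i k z hz => k.2 ▸ ((la_nk h.toOK hK (y i) hz.2.1).2 (u i)).symm)).zs he one_pos wn
  obtain ⟨E, e1, e2, e3⟩ := cut h.site hK hb hr hu' (Cn.of_mul fun k => by
    obtain ⟨C, hC, k1⟩ := Win39.rigOn _ _ he gd.crit.1 gd.irr k
    refine ⟨C, fun η hη => ?_⟩
    have p : 0 < min η (1 / 2) := lt_min hη one_half_pos
    filter_upwards [z1 k _ p, z2 k _ p, wn, hu'] with i a1 a2 a3 a4
    have a5 : ∀ x ∈ (univ : Set (d.e j₀.1).Y.M) ×ˢ Wn b (r i), x.2 ∈ K.J := fun x hx =>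
      (a3 _ hx.2 ⟨by linarith, by linarith⟩).1
    have a6 := fun x hx => Pb50.sa_ψ K (K.mem_src.2 (a5 x hx)) (a4.1.1 _)
    exact Lb.of_Dw (fun x hx => (a6 x hx).sub contMDiffAt_const) fun w hw x hx =>
      (k1 _ _ _ _ isOpen_Ioo (min_le_right _ _) (Pb50.admOn_of fun x hx =>
        (la_nk h.toOK hK (y i) (a5 x hx)).1) ⟨fun x hx => (a6 x hx).contMDiffWithinAt,
        fun x _ => a4.1.2 _⟩ a1 a2 w (hw.trans k.le_succ) x hx).trans
        (mul_le_mul_of_nonneg_left (min_le_left _ _) hC))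
  have sb : ∀ i, Up K b (r i + 1) ⊆ Up K b (r i + 3) := fun i z hz =>
    lt_of_lt_of_le hz (show r i + 1 ≤ r i + 3 by linarith)
  refine ⟨h2, _, e1.mono fun _ k => k.2, cg_cut h ((e1.and hu').mono fun i k =>
    ⟨(y i).2.1, k.1.1, k.2.1⟩) (e2.sub (.of_forall sb)) (e3.sub (.of_forall fun i =>
      ⟨isOpen_Up _ _ _, sb i⟩)) ((h3.sub (.of_forall fun i => ⟨isOpen_Up _ _ _, subset_univ _⟩)).left
        ((h1.and hu).mono fun i k z _ => ?_))⟩
  beta_reduce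
  rw [← k.2.2, k.1.1]
  exact ⟨fun _ => rfl, rfl⟩

end side

section one
variable {s : StS d Sl X} {s' : StS d Sl X'} {s'' : StS d Sl X''} {σ : Cel s nc nr T}
  {σ' : Cel s' nc' nr' T'} {σ'' : Cel s'' nc'' nr'' T''} {ε : d.𝓔} {a a' a'' : Sl} {b : Bool}
  {K' : Nk (d.e ε) s'.bg} {K'' : Nk (d.e ε) s''.bg} {t : α → T} {t' : α → T'} {t'' : α → T''}
  {φ : α → OpenPartialHomeomorph X'.M X.M} {φ'' : α → OpenPartialHomeomorph X''.M X.M}
  {δ δ'' r ρ ρ'' : α → ℝ} {y : α → σ.Pnt} {x : σ'.Pnt} {z : σ''.Pnt}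

/-- moving the time of the cut -/
theorem move (hσ' : σ'.OK) (hσ'' : σ''.OK) (hK' : s'.nk (ε, a') = some K')
    (hK'' : s''.nk (ε, a'') = some K'') (h1 : K'.Inf b) (h2 : K''.Inf !b)
    (hβ : σ'.β (ε, a') b = σ''.β (ε, a'') !b)
    (h : ∀ᶠ i in l, (y i).1.1 = t i ∧ TwS σ σ' σ'' a a' a'' b K' K'' (t i) (t' i) (t'' i) (φ i)
      (φ'' i) (δ i) (δ'' i)) (hρ : Tendsto ρ l atTop) (hρ'' : Tendsto ρ'' l atTop)
    (e : ∀ i, ρ i + ρ'' i = pm b * (δ'' i - δ i)) (hr : Tendsto r l atTop)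
    (hr' : Tendsto (fun i => pm b * (δ'' i - δ i) - r i) l atTop)
    (c1 : Cg σ' l (fun i => Up K' b (ρ i + 1)) t' (fun i => (y i).1.2.pb (φ i)) x)
    (c2 : Cg σ'' l (fun i => Up K'' (!b) (ρ'' i + 1)) t'' (fun i => (y i).1.2.pb (φ'' i)) z) :
    Cg σ' l (fun i => Up K' b (r i)) t' (fun i => (y i).1.2.pb (φ i)) x := by
  let J : α → Set ℝ := fun i => K'.far b (ρ i) ∩ {τ | pm b * τ < r i}
  let J'' : α → Set ℝ := fun i => K''.far (!b) (pm b * (δ'' i - δ i) - r i) ∩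
    {τ | pm (!b) * τ < ρ'' i + 1}
  have o : ∀ {X : Mf 4} {g : Bg X.I X.M κ lam ν 0} (K : Nk (d.e ε) g) b r r',
      IsOpen (K.far b r ∩ {τ | pm b * τ < r'}) := fun K b r r' => (Nd18.isOpen_Jv.inter
    (isOpen_lt continuous_const (by fun_prop))).inter (isOpen_lt (by fun_prop) continuous_const)
  obtain ⟨T₁, b1⟩ := big h1
  obtain ⟨T₂, b2⟩ := big h2
  have s1 := (ev_src (h.mono fun _ k => k.2) h1 h2 hr hr').and (ev_la h)
  have s2 := (ev_src (h.mono fun _ k => k.2.symm) h2 ((Bool.not_not b).symm ▸ h1)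
    (tendsto_atTop_add_const_right _ 1 hρ'') ((tendsto_atTop_add_const_right _ (-1) hρ).congr
      fun i => by rw [pm_not]; linarith [e i])).and (ev_la (h.mono fun _ k => ⟨k.1, k.2.symm⟩))
  have jj : ∀ᶠ i in l, ∀ τ ∈ J i, τ + (δ i - δ'' i) ∈ J'' i :=
    (hr'.eventually_ge_atTop T₂).mono fun i hi τ hτ => by
      have a1 : ρ i < pm b * τ := hτ.1.2
      have a2 : pm b * τ < r i := hτ.2
      have a3 : pm b * (δ'' i - δ i) - r i < pm (!b) * (τ + (δ i - δ'' i)) := by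
        rw [pm_not]; linarith
      exact ⟨⟨b2 _ (by linarith), a3⟩, show pm (!b) * _ < _ by rw [pm_not]; linarith [e i]⟩
  have n1 := ((cg_nk hσ''.toOK hK'' c2 (J := J'') ((h.and s2).mono fun i k => ⟨k.1.2.2.2.1,
    o _ _ _ _, fun _ k => k.1.1, fun w hw => ⟨hw.2, k.2.2 w (k.2.1 w (le_of_lt hw.2))⟩⟩)).trans
    ((asy_site hσ'' hK'' h2 hr' z).sub (.of_forall fun i => ⟨isOpen_univ.prod (o _ _ _ _),
      prod_mono Subset.rfl inter_subset_left⟩))).shf (J := J) (jj.mono fun i k => ⟨o _ _ _ _, k⟩)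
  rw [← hβ] at n1
  have n2 := (n1.trans ((asy_site hσ' hK' h1 hρ x).sub (.of_forall fun i =>
    ⟨isOpen_univ.prod (o _ _ _ _), prod_mono Subset.rfl inter_subset_left⟩)).symm).left
    (c'' := fun i => K'.pb ((y i).1.2.pb (φ i))) ((h.and jj).mono fun i k w hw => by
      have := k.1.2.nk (τ := w.2 + δ i) (by simpa using hw.2.1.1)
        (by simpa only [add_sub_assoc] using (k.2 _ hw.2).1.1) w.1
      simp only [add_sub_cancel_right, add_sub_assoc] at this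
      exact ⟨fun a => congrArg _ this, congrArg _ this⟩)
  have up : ∀ i, ∀ w ∈ (univ : Set (d.e ε).Y.M) ×ˢ J i, pm b * K'.tm (K'.ψ w) ≤ r i := fun i w hw => by
    rw [K'.tm_ψ w (K'.mem_src.2 hw.2.1.1)]; exact le_of_lt hw.2.2
  have n3 := (NC.iso (F := (d.e ε).D.Z) (F' := s'.bg.F) (φ := fun _ => K'.ψ)
    (c := fun i => alC σ'.toFam (t' i) ((y i).1.2.pb (φ i))) (c' := fun _ => alC σ'.toFam x.1.1 x.1.2)
    ((h.and s1).mono fun i k => ⟨K'.iso, isOpen_univ.prod (o _ _ _ _), fun w hw =>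
      K'.mem_src.2 hw.2.1.1, fun w hw =>
      have a1 := sa_alC hσ'.toOK k.1.2.2.1 (k.2.2 _ (k.2.1 _ (up i w hw)))
      have a2 := sa_alC hσ'.toOK x.2.1 (LA.of_adm x.2.2.1 (K'.ψ w))
      ⟨fun a => (a1.1 a).sub (a2.1 a), a1.2.sub a2.2⟩⟩)).1 ((n2.left ((h.and s1).mono fun i k w hw =>
      alC_nk hσ'.toOK k.1.2.2.1 hK' (K'.mem_src.2 hw.2.1.1) (by
        simpa only [hσ'.B _ k.1.2.2.1] using (k.2.2 _ (k.2.1 _ (up i w hw))).pa))).right
      (.of_forall fun i w hw => (alC_nk hσ'.toOK x.2.1 hK' (K'.mem_src.2 hw.2.1.1) fun a => by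
        simpa only [hσ'.B _ x.2.1] using x.2.2.1.pa a (K'.ψ w)).symm))
  refine c1.cover n3 ((hρ.eventually_ge_atTop T₁).mono fun i hi => ⟨isOpen_Up _ _ _, fun w hw => ?_⟩)
  rcases lt_or_ge (pm b * K'.tm w) (ρ i + 1) with k | k
  · exact .inl k
  · exact .inr ((mem_img K' fun _ k => k.1.1).2 ⟨⟨b1 _ (by linarith), show ρ i < _ by linarith⟩, hw⟩)

end one

theorem act_at {g : Bg X.I X.M κ lam ν nc} {c c' : Cfg X.M κ ν} {x : X.M} (e : At c c' x)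
    (u : X.M → ℂ) : At (g.act u c) (g.act u c') x :=
  ⟨fun a => congrArg (· - _) (e.1 a), congrArg (cs g.m.J (u x)) e.2⟩

theorem mkP {XL XR : Mf 4} {ncL nrL ncR nrR : ℕ} {TL TR : Type}
    [NormedAddCommGroup TL] [NormedSpace ℝ TL] [FiniteDimensional ℝ TL]
    [NormedAddCommGroup TR] [NormedSpace ℝ TR] [FiniteDimensional ℝ TR] :
    MkP d Sl X XL XR nc nr ncL nrL ncR nrR T TL TR := by
  intro s sL sR σ σL σR p hp ι 𝒰 q y x z δ τ ρL ρR x₀ z₀ h0 pL pR h cL cR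
  have r1 : Tendsto (fun i => τ i - (δ i).1) 𝒰 atTop := tendsto_atTop.2 fun r =>
    (h.and (pL.far r)).mono fun i k => k.2 _ _ _ k.1.2.1
  have r2 : Tendsto (fun i => (δ i).2 - τ i) 𝒰 atTop := tendsto_atTop.2 fun r =>
    (h.and (pR.far r)).mono fun i k => k.2 _ _ _ k.1.2.2
  have h2 : Tendsto (fun i => (δ i).2 - (δ i).1) 𝒰 atTop :=
    (r1.atTop_add_atTop r2).congr fun i => by ring
  have h6 := ev_ct hp h2 (h.mono fun i k => ⟨k.1.1, (x i).2.1, (z i).2.1⟩)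
  obtain ⟨KL, KR, a, b, c, e, k⟩ := ev_tws hp h6
  have k1 := (h.mono fun _ k => k.1.2.1).and k
  obtain ⟨t1, v, v1, v2⟩ := cut_cvg hp.okL a c r1 cL fun w η hη =>
    (h.and (pL.tl 4 w η hη)).mono fun i k => k.2 _ _ KL a c _ k.1.2.1
  obtain ⟨t2, w, w1, w2⟩ := cut_cvg hp.okR b e r2 cR fun w η hη =>
    (h.and (pR.tl 4 w η hη)).mono fun i k => k.2 _ _ KR b e _ k.1.2.2
  obtain ⟨y', hy⟩ := glue_pt hp.ok hp.okL hp.okR k1 c e r1 r2 (fun i => by simp [pm]) v1 w1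
  have c1 := v2.congr (c' := fun i => (y' i).1.2.pb (p.φL (δ i))) ((h.and hy).mono fun i k u hu =>
    (k.2.2.1 u hu).trans (act_at (At.symm (c' := (y i).1.2.pb (p.φL (δ i)))
      (k.1.1.2.2.1 u ((mem_upto a).2 fun _ => le_of_lt hu))) _))
  have c2 := w2.congr (c' := fun i => (y' i).1.2.pb (p.φR (δ i))) ((h.and hy).mono fun i k u hu =>
    (k.2.2.2 u hu).trans (act_at (At.symm (c' := (y i).1.2.pb (p.φR (δ i)))
      (k.1.1.2.2.2 u ((mem_upto b).2 fun _ => le_of_lt hu))) _))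
  have k2 := (k1.and hy).mono fun _ k => And.intro (k.2.1.1.symm.trans k.1.1) k.1.2
  exact ⟨y', fun i => (x i).1.1, fun i => (z i).1.1, δ, ((h0.and h).and hy).mono fun _ k =>
      ⟨k.2.1, R_eqv hp.ok k.2.1 k.1.1, k.1.2.1.1, k.2.1.1.symm.trans k.1.2.1.2.1⟩, h2, t1, t2,
    fun w => ⟨dO_of_cg a c (half_top h2 1) (move hp.okL hp.okR a b c e hp.mid k2 r1 r2
      (fun i => by simp [pm]) (half_top h2 1) ((half_top h2 (-1)).congr fun i => by simp [pm]; ring)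
      c1 c2) w, dO_of_cg b e (half_top h2 1) (move hp.okR hp.okL b a e c hp.mid.symm
      (k2.mono fun _ k => ⟨k.1, k.2.symm⟩) r2 r1 (fun i => by simp [pm]) (half_top h2 1)
      ((half_top h2 (-1)).congr fun i => by simp [pm]; ring) c2 c1) w⟩⟩

/-- SW-DEG from the walls and uniqueness -/
theorem degStmt {XL XR : Mf 4} {ncL nrL ncR nrR : ℕ} {TL TR : Type}
    [NormedAddCommGroup TL] [NormedSpace ℝ TL] [FiniteDimensional ℝ TL]
    [NormedAddCommGroup TR] [NormedSpace ℝ TR] [FiniteDimensional ℝ TR]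
    (hw : WallP d Sl X XL XR nc nr ncL nrL ncR nrR T TL TR)
    (hu : UniqP d Sl X XL XR nc nr ncL nrL ncR nrR T TL TR) :
    DegStmt d Sl X XL XR nc nr ncL nrL ncR nrR T TL TR := degStmt_of dzP mkP hw eqP hu

end Crest.Agent.X212.Sm10.Dg
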