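import Crest.Agent.X212.Top0.Mk
import Crest.Agent.X212.Rob53.Pz

/-!
# Row 212, GEO engine (helper10): a model with two ends as a piece of `Rad94`
-/

set_option autoImplicit false
set_option linter.unusedSectionVars false
noncomputable section
open scoped Manifold ContDiff Topology InnerProductSpace
open MeasureTheory Set Function Filter

namespace Crest.Agent.X212.Sm10.Mh
open An Cyf70 Sw Sw.En3 Flo2 Geo28 Met55 Sw87.Mo Rob53.Pz
open Rad94 (Two Rd0 Dat Fo sft mas Ref HdgOK Mass Par Hi1 KerStmt HdgStmt Cc wd S1 d1)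
open Nd18 (Jv)
open Line51 (iL)
open Dr59 (Cs)
open Prm93 (JS)

/-! ### the cross-sections -/

section en
variable {κ lam ν : Type} [Fintype κ] [Fintype lam] [Fintype ν] [DecidableEq ν]

theorem rt_p {X : M.Mf 4} {nc : ℕ} {b : Bg X.I X.M κ lam ν nc} {ε ε' : Ty κ lam ν} (h : ε = ε')
    (K : Nk ε.en b) : (rt h K).p = K.p ∧ (rt h K).q = K.q ∧ (rt h K).tm = K.tm := by
  subst h; exact ⟨rfl, rfl, rfl⟩

theorem smp_of {e : En3 κ lam ν} (h : End23.Qhs e) (hr : ∀ x, e.cyl.eC ⟨0, 0⟩ x = 0) :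
    Rad94.Smp e := by
  obtain ⟨M, hM, -, hf, -⟩ := h
  have z : fz (⟨0, 0⟩ : (End23.lf e).YC) = ⟨0, 0⟩ := Cfg.ext (funext fun i => by cases i <;> rfl) rfl
  have hc : Crit (⟨0, 0⟩ : (End23.lf e).YC) := by
    refine ⟨z ▸ ⟨fun _ => contMDiff_const, contMDiff_const, fun _ _ => by simp,
      fun _ => map_zero _⟩, fun k y => ?_, fun y => ?_⟩
    · have := hr (y, 0)
      simp only [Bg.eC, Bg.qd] at this
      simp only [gr, z, hf, Bg.eC, Bg.qd]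
      simp only [Pi.zero_apply, inner_zero_right, map_zero, mul_zero] at this ⊢
      rw [show (WithLp.toLp 2 fun _ => 0 : F2 κ) = 0 from rfl, smul_zero] at this ⊢
      rw [show deriv (0 : ℝ → ℝ) = 0 from deriv_zero, Pi.zero_apply, zero_smul, add_zero]
      exact (congrArg (fun f : F2 κ => 2 * f (none, some k)) this).trans (by simp)
    · simp [gr, z, Bg.eD, Wz78.dir, Wz78.nab, Sob92.dv_zero]
  obtain ⟨o, ho⟩ := hM.all _ hc
  intro l hl φ φ' h1 h2 h0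
  rcases o with i | j
  · obtain ⟨y, hy⟩ := Top0.ne_of_eqv hM.ok ho (hM.irr i)
    exact (hy rfl).elim
  obtain ⟨z, hz⟩ := Cyc79.smp_eqv hM.ok ho (hM.smp j l hl) φ φ' h0
    ⟨⟨h1.1.1, h1.1.2, h1.1.3, h1.1.4⟩, congrFun h1.2⟩ ⟨⟨h2.1.1, h2.1.2, h2.1.3, h2.1.4⟩, congrFun h2.2⟩
  exact ⟨z, funext hz⟩

end en

variable {κ : Type} [Fintype κ] [DecidableEq κ] {μ : Type} [Fintype μ] [DecidableEq μ]
  {X : M4} {k : ℕ} {τ : MT κ X} {β : MB τ k} {ι : Bool → τ.N}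

/-! ### ports -/

variable (τ ι) in
/-- one incoming and one outgoing end -/
structure Po : Prop where
  pin : τ.pin = some (ι false)
  pout : τ.pout = some (ι true)
  p3 : τ.p3 = none

theorem Po.s (P : Po τ ι) : ∀ s, (τ.nb (ι s)).s = some s
  | false => (τ.inn _).2 P.pin
  | true => (τ.out _).2 (.inl P.pout)

theorem Po.eq (P : Po τ ι) {i : τ.N} : ∀ {s}, (τ.nb i).s = some s → i = ι s
  | false, h => Option.some.inj (((τ.inn _).1 h).symm.trans P.pin)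
  | true, h => Option.some.inj ((((τ.out _).1 h).resolve_right (by simp [P.p3])).symm.trans P.pout)

theorem Po.ne (P : Po τ ι) (s : Bool) : (τ.nb (ι s)).s ≠ none := by simp [P.s]

theorem Po.inj (P : Po τ ι) : Injective ι := fun s s' h =>
  Option.some.inj ((P.s s).symm.trans (h ▸ P.s s'))

theorem jm_pm {s : Bool} {d σ : ℝ} : σ ∈ Jm (some s) d ↔ 1 - d < M.pm s * σ := by
  cases s
  · rw [jm_in]; simp only [M.pm, Bool.false_eq_true, if_false]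
    exact ⟨fun h => by linarith, fun h => by linarith⟩
  · rw [jm_out]; simp [M.pm]

theorem Po.mem (P : Po τ ι) {s : Bool} {d : ℝ} {x : X.M} :
    x ∈ (τ.nb (ι s)).U d ↔ 1 - d < M.pm s * (τ.nb (ι s)).n.tm x :=
  (iff_of_eq (congrArg (fun o => (τ.nb (ι s)).n.tm x ∈ Jm o d) (P.s s))).trans jm_pm

theorem Po.tgt (P : Po τ ι) {s : Bool} {x : X.M} :
    x ∈ (τ.nb (ι s)).k.target ↔ 0 < M.pm s * (τ.nb (ι s)).n.tm x := by
  rw [NB.tgt, ← sub_self (1 : ℝ), ← P.mem, NB.U, jm_one]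

theorem po_of {mk : Mk κ0 L0 ν0} {τ : MT κ0 X} {M : MM μ0 τ} (h : Cb mk M) :
    ∃ ι, Po τ ι ∧ ∀ s, (M.ec (ι s)).kd = .qhs := by
  obtain ⟨i, h1, h2⟩ := h.pin
  obtain ⟨j, h3, h4⟩ := h.pout
  exact ⟨fun s => bif s then j else i, ⟨h1, h3, h.p3⟩, fun s => by cases s; exacts [h2, h4]⟩

theorem rd0_of {e₀} {τ : MT κ0 X} {M : MM μ0 τ} (h : Cb (Top0.mk0 e₀) M) {ι} (P : Po τ ι)
    (hk : ∀ s, (M.ec (ι s)).kd = .qhs) (s : Bool) :
    Rd0 (M.ty (ι s)).en ∧ Rad94.Smp (M.ty (ι s)).en :=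
  have q := (h.ok (ι s)).qhs (hk s)
  ⟨⟨(M.std _).ok, q.2.2.2.2 _, q.2.2.2.1, h.red _ (P.ne s)⟩, smp_of (q.1 _) (h.red _ (P.ne s))⟩

/-! ### the piece -/

variable (c : MC μ β) (P : Po τ ι) (t : Tk k) {ε : Bool → Ty κ L0 (μ ⊕ μ)}
  (h : ∀ s, c.ty (ι s) = ε s)

/-- the piece at `t` with its two ends -/
def Zc : Pz X.X τ.nc fun s => (ε s).en :=
  ⟨(c.P t).bg, fun s => some (rt (h s) (nk c (c.ct t) (v_end' (P.ne s))))⟩

/-- the two ends -/
def two : Two (Zc c P t h) where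
  K s := rt (h s) (nk c (c.ct t) (v_end' (P.ne s)))
  hK _ := rfl
  o := M.pm
  hp s := (rt_p _ _).1.trans (by
    show pa (τ.nb (ι s)).s = _
    rw [P.s]; cases s <;> rfl)
  hq s := (rt_p _ _).2.1.trans (by
    show qa _ (τ.nb (ι s)).s = _
    rw [P.s]; cases s <;> simp [qa, M.pm])

theorem two_tm (s : Bool) (x : X.M) : ((two c P t h).K s).tm x = (τ.nb (ι s)).n.tm x :=
  (congrFun (rt_p _ _).2.2 x).trans (st_two (v_end (P.ne s)).le _)

theorem ht_eq (s : Bool) (x : X.M) :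
    (two c P t h).gm.ht s x = M.pm s * (τ.nb (ι s)).n.tm x - 2 := by
  show M.pm s * (((two c P t h).K s).tm x - M.pm s) - 1 = _
  rw [two_tm]
  cases s <;> simp [M.pm] <;> ring

theorem ht_U {s : Bool} {x : X.M} : -1 < (two c P t h).gm.ht s x ↔ x ∈ (τ.nb (ι s)).U 0 := by
  rw [ht_eq, P.mem]
  exact ⟨fun h => by linarith, fun h => by linarith⟩

theorem Zc_ok : (Zc c P t h).OK where
  bg := bg_ok c (ct_ok c _ _)
  vol := rFr_vol _ _
  con := X.con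
  en s := h s ▸ (c.std (ι s)).ok
  dj s s' hs K hK K' hK' := by
    obtain rfl := Option.some.inj hK
    obtain rfl := Option.some.inj hK'
    obtain rfl : (fun s => c.ty (ι s)) = ε := funext h
    exact (τ.dj (P.inj.ne hs)).mono
      ((NB.ψ_tgt (b := τ.nb _) _).subset.trans ((τ.nb _).U_sub zero_le_one))
      ((NB.ψ_tgt (b := τ.nb _) _).subset.trans ((τ.nb _).U_sub zero_le_one))
  cpt T := by
    refine (τ.cpt (max T 1)).of_isClosed_subset ?_ fun x hx i => ?_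
    · simp only [Pz.core, ofPred_forall, img_far]
      exact isClosed_iInter fun i => isClosed_iInter fun s => isClosed_iInter fun K =>
        isClosed_iInter fun _ => isClosed_iInter fun _ => (((jv_open _ _).inter
          (isOpen_lt continuous_const (continuous_const.mul continuous_id))).preimage
            K.cont).isClosed_compl
    have key : ∀ s, (τ.nb i).s = some s → M.pm s * (τ.nb i).n.tm x ≤ max T 1 := fun s hs => by
      obtain rfl := P.eq hs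
      have h1 := (two c P t h).hp s
      have h2 := (two c P t h).hq s
      by_contra h4
      obtain ⟨h5, h6⟩ := max_lt_iff.1 (not_le.1 h4)
      refine hx s s ((two c P t h).K s) rfl (by cases s; exacts [h1, h2]) ?_
      rw [img_far, mem_preimage, two_tm]
      refine ⟨?_, h5⟩
      show _ ∈ Jv ((two c P t h).K s).p ((two c P t h).K s).q
      rw [h1, h2]
      cases s <;> simp [Jv, two, M.pm] at h6 ⊢ <;> linarith
    exact ⟨fun h => by simpa [M.pm] using key _ h, fun h => by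
      have := key _ h
      simp only [M.pm, Bool.false_eq_true, if_false] at this
      linarith⟩

theorem ht_off {s : Bool} {x : X.M} (hx : x ∉ (τ.nb (ι s)).k.target) :
    (two c P t h).gm.ht s x ≤ -2 := by
  rw [ht_eq]
  linarith [not_lt.1 (mt P.tgt.2 hx)]

theorem two_ok {n : ℕ} {ϖ : Fin n → X.M → F2 κ} (he : ∀ s, Rd0 (ε s).en)
    (hϖ : ∀ j, ϖ j ∈ Sec X.I (c.P t).bg.p2 ∧ ∀ s, ∀ x ∈ (τ.nb (ι s)).U 0, ϖ j x = 0) :
    (two c P t h).OK ϖ :=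
  ⟨Zc_ok c P t h, he, fun j y s => (ht_off c P t h (τ.off j y _)).trans_lt (by norm_num),
    fun j => ⟨(hϖ j).1, fun s x hx => (hϖ j).2 s x ((ht_U c P t h).1 hx)⟩⟩

/-- the complement of the closed cores of all bands -/
def Off (τ : MT κ X) : Set X.M := {x | ∀ i, x ∉ closure ((τ.nb i).U 0)}

theorem cl_U (i : τ.N) : closure ((τ.nb i).U 0) ⊆ (τ.nb i).U (1 / 4) := by
  refine ((τ.nb i).n.cont.closure_preimage_subset _).trans (preimage_mono ?_)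
  have e : ∀ (s : Option Bool) (D : Set ℝ), IsClosed D → Jm s 0 ⊆ D → D ⊆ Jm s (1 / 4) →
      closure (Jm s 0) ⊆ Jm s (1 / 4) := fun s D h1 h2 h3 => (closure_minimal h2 h1).trans h3
  rcases (τ.nb i).s with _ | _ | _
  · exact e _ (Icc 1 3) isClosed_Icc (fun x hx => by rw [jm_none] at hx; constructor <;> linarith [hx.1, hx.2])
      fun x hx => by rw [jm_none]; constructor <;> linarith [hx.1, hx.2]
  · exact e _ (Iic (-1)) isClosed_Iic (fun x hx => by rw [jm_in] at hx; simpa using hx.le)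
      fun x hx => by rw [jm_in]; linarith [mem_Iic.1 hx]
  · exact e _ (Ici 1) isClosed_Ici (fun x hx => by rw [jm_out] at hx; simpa using hx.le)
      fun x hx => by rw [jm_out]; linarith [mem_Ici.1 hx]

theorem off_U {x : X.M} (hx : x ∈ Off τ) (i : τ.N) : x ∉ (τ.nb i).U 0 :=
  fun h => hx i (subset_closure h)

theorem reg (hn : τ.nc ≤ 1) (hη : ∀ j, c.η t j ≠ 0) : (two c P t h).Reg (Off τ) where
  nc := hn
  ct j := ⟨hη j, by
    rintro _ ⟨y, -, rfl⟩ i hi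
    exact τ.off j y i ((τ.nb i).U_sub (by norm_num) (cl_U i hi))⟩
  op := by
    simp only [Off, ofPred_forall]
    exact isOpen_iInter_of_finite fun i => isClosed_closure.isOpen_compl
  ne := by
    obtain ⟨y⟩ : Nonempty (τ.nb (ι true)).e.A.Y.M := (c.ty (ι true)).en.con.toNonempty
    have h1 : ((y, 1 / 2) : _ × ℝ) ∈ (τ.nb (ι true)).k.source := by
      rw [NB.src, P.s]; exact ⟨trivial, by norm_num [Jk]⟩
    refine ⟨(τ.nb (ι true)).k (y, 1 / 2), fun i hi => ?_⟩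
    by_cases e : i = ι true
    · subst e
      have := P.mem.1 (cl_U _ hi)
      rw [NB.tm_k h1] at this
      norm_num [M.pm] at this
    · exact disjoint_left.1 (τ.dj e) ((τ.nb i).U_sub (by norm_num) (cl_U i hi))
        ((τ.nb _).k.map_source h1)
  ht x hx s := not_lt.1 fun h1 => off_U hx _ ((ht_U c P t h).1 h1)

/-! ### masses -/

omit h in
/-- masses off the bands -/
structure Ms (m : X.M → En (μ ⊕ μ)) : Prop where
  sm : Sm X.I m
  J : ∀ x, iL μ * m x = m x * iL μ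
  p : ∀ x, (β.bg0 c.m).pm x * m x * (β.bg0 c.m).pp x = m x
  z : ∀ i, ∀ x ∈ (τ.nb i).U 0, m x = 0

theorem ms_of {δ : ℝ} {m : X.M → En (μ ⊕ μ)} (hm : Mass (Zc c P t h).bg (Off τ) δ m) : Ms c m :=
  ⟨hm.sm, hm.J, hm.p, fun i _ hx => image_eq_zero_of_notMem_tsupport fun h => off_U (hm.sup h) i hx⟩

variable {c} in
/-- a further mass -/
abbrev am {m : X.M → En (μ ⊕ μ)} (hm : Ms c m) : MC μ β :=
  { c with
    mc := fun t x => c.mc t x + m x
    smc := fun t _ x => (c.smc t trivial x).add (Prm93.JAt.of_fixed (hm.sm x))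
    mJ := fun t x => by rw [mul_add, add_mul, c.mJ, hm.J]
    mp := fun t x => by rw [mul_add, add_mul, c.mp, hm.p]
    m0 := fun t i hi x hx => by rw [c.m0 t i hi x hx, hm.z i x hx, add_zero] }

variable {c} in
theorem am_bg {m : X.M → En (μ ⊕ μ)} (hm : Ms c m) : ((am hm).P t).bg = mas (c.P t).bg m := by
  show MC.bg _ _ _ _ = _
  simp only [MC.bg, MC.pz, mas, ← add_assoc]
  rfl

theorem am_ng {m : X.M → En (μ ⊕ μ)} (hm : Ms c m) (s : Bool) :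
    ((two (am hm) P t h).K s).ng = ((two c P t h).K s).ng := by
  obtain rfl : (fun s => c.ty (ι s)) = ε := funext h
  rfl

variable {c P t h} in
theorem am_base {m : X.M → En (μ ⊕ μ)} (hm : Ms c m) {n : ℕ} {ϖ : Fin n → X.M → F2 κ} {φ ψ r D Dm a₀}
    (H : (two c P t h).Base ϖ φ ψ r D Dm a₀) : (two (am hm) P t h).Base ϖ φ ψ r D Dm a₀ := by
  obtain rfl : (fun s => c.ty (ι s)) = ε := funext h
  obtain ⟨h1, ε₀, h2, G, S, h3⟩ := H.hdg
  exact ⟨⟨Zc_ok _ _ _ _, H.ok.en, H.ok.ct, H.ok.ϖ⟩, H.par, ⟨H.ref.a1, H.ref.eq, H.ref.dec⟩,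
    h1, ε₀, h2, G, S, fun e he => ⟨(h3 e he).a1, (h3 e he).eq, (h3 e he).sub, (h3 e he).wt, (h3 e he).ul⟩⟩

/-! ### the data of the marks -/

theorem par {N : Type} (wl : Fin k → Option N) {t₀ : Tk k} (h₀ : ∀ a, t₀ a ∈ Ioo (0 : ℝ) 1) :
    ∃ r, Par (· - t₀) (· + t₀) r {t | ∀ a, t a ∈ Ioo (0 : ℝ) 1} (dom wl) := by
  have ho : IsOpen {t : Tk k | ∀ a, t a ∈ Ioo (0 : ℝ) 1} := by
    simp only [ofPred_forall]
    exact isOpen_iInter_of_finite fun a => isOpen_Ioo.preimage (continuous_apply a)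
  obtain ⟨r, hr, hb⟩ := Metric.isOpen_iff.1 ho t₀ h₀
  exact ⟨r, hr, ⟨1, (isometry_add_right t₀).lipschitz.lipschitzOnWith⟩,
    fun s hs => ⟨hb (by simpa using hs), add_sub_cancel_right _ _⟩, fun t _ _ => sub_add_cancel _ _,
    fun t ht a => ⟨(ht a).1.le, fun _ => (ht a).2.le⟩⟩

omit h in
theorem rt_ng {Y : M.Mf 4} {n : ℕ} {b b' : Bg Y.I Y.M κ L0 (μ ⊕ μ) n} {g : EG κ L0}
    {a a' : EC (μ ⊕ μ) g} {l : a.L} {l' : a'.L} {ε : Ty κ L0 (μ ⊕ μ)} (h : ⟨⟨g, a⟩, l⟩ = ε)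
    (h' : ⟨⟨g, a'⟩, l'⟩ = ε) {K : Nk (Ty.en ⟨⟨g, a⟩, l⟩) b} {K' : Nk (Ty.en ⟨⟨g, a'⟩, l'⟩) b'}
    (e : K.ng = K'.ng) : (rt h K).ng = (rt h' K').ng := by
  subst h
  cases h'
  exact e

variable {t} in
/-- **the data**: `c` is a family over the piece `c₀` at `t` -/
def dat {c₀ : MC μ β} (h₀ : ∀ s, c₀.ty (ι s) = ε s) (hw : ∀ a, β.wl a = none)
    {ϖ : Fin k → X.M → F2 κ} {φ ψ : Tk k → Tk k} {r : ℝ} {a₀ : Fo X.X κ}
    (hb : ∀ t' ∈ dom β.wl, (c.P t').bg = sft (c₀.P t).bg (fun x => ∑ j, φ t' j • ϖ j x) 1)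
    (H : (two c₀ P t h₀).Base ϖ φ ψ r {t | ∀ a, t a ∈ Ioo (0 : ℝ) 1} (dom β.wl) a₀) (ens C) :
    Dat (c.gc ens C) ε where
  ι := ι
  h := h
  prt := ⟨P.pin, P.pout, P.p3, hw⟩
  Z := Zc c₀ P t h₀
  z := two c₀ P t h₀
  ϖ := ϖ
  φ := φ
  ψ := ψ
  r := r
  a₀ := a₀
  bg := hb
  ng t' _ s := by
    obtain ⟨K, h1, h2⟩ := nk_some c (c.ct t') (v_end' (t := t') (P.ne s))
    exact ⟨K, h1, rt_ng _ _ (h2.trans (congrArg (τ.nb (ι s)).ng
      ((v_end (P.ne s)).trans (v_end (P.ne s)).symm)))⟩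
  base := H

variable {c t} in
theorem am_sft {c₀ : MC μ β} {m : X.M → En (μ ⊕ μ)} (hm : Ms c m) (hm₀ : Ms c₀ m) {t' f}
    (hb : (c.P t').bg = sft (c₀.P t).bg f 1) : ((am hm).P t').bg = sft ((am hm₀).P t).bg f 1 := by
  rw [am_bg, am_bg, hb]

include h in
variable {t} in
/-- **a generic mass gives the mark `hi1`** -/
theorem hi1 (hK : KerStmt κ L0 (μ ⊕ μ)) {c₀ : MC μ β} (h₀ : ∀ s, c₀.ty (ι s) = ε s) (hm : c.m = c₀.m)
    (hw : ∀ a, β.wl a = none) (hn : τ.nc = 0) (hs : ∀ s, Rad94.Smp (ε s).en)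
    {ϖ : Fin k → X.M → F2 κ} {φ ψ : Tk k → Tk k} {r : ℝ} {a₀ : Fo X.X κ}
    (hb : ∀ t' ∈ dom β.wl, (c.P t').bg = sft (c₀.P t).bg (fun x => ∑ j, φ t' j • ϖ j x) 1)
    (H : (two c₀ P t h₀).Base ϖ φ ψ r {t | ∀ a, t a ∈ Ioo (0 : ℝ) 1} (dom β.wl) a₀) :
    ∃ m, ∃ hm : Ms c m, ∀ ens C, Hi1 ((am hm).gc ens C) := by
  obtain ⟨m, h1, h2⟩ := hK _ _ _ _ _ (two c₀ P t h₀) ϖ a₀ _ H.ok H.ref hs
    (reg c₀ P t h₀ (by omega) fun j => (j.cast hn).elim0) 1 one_pos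
  have m₀ := ms_of c₀ P t h₀ h1
  have m₁ : Ms c m := ⟨m₀.sm, m₀.J, hm ▸ m₀.p, m₀.z⟩
  exact ⟨m, m₁, fun ens C => ⟨ε, dat (am m₁) P h (c₀ := am m₀) h₀ hw
    (fun t' ht => am_sft m₁ m₀ (hb t' ht)) (am_base m₀ H) ens C,
    h2 _ (two (am m₀) P t h₀) (am_bg t m₀) (am_ng c₀ P t h₀ m₀)⟩⟩

omit h in
theorem sft_zero {Y : M.Mf 4} {n : ℕ} (b : Bg Y.I Y.M κ L0 (μ ⊕ μ) n) {f : Y.M → F2 κ}
    (hf : ∀ x, f x = 0) : sft b f b.w = b := by
  simp only [sft, hf, add_zero]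

/-- **the reducible solution on a negative definite piece** -/
theorem base0 (hH : HdgStmt κ L0 (μ ⊕ μ)) {β : MB τ 0} (c : MC μ β) (t : Tk 0)
    (h : ∀ s, c.ty (ι s) = ε s) (he : ∀ s, Rd0 (ε s).en)
    (h1 : ∀ γ, S1 (X := X.X) (c.P t).bg γ → d1 (X := X.X) (c.P t).bg γ = 0 →
      ∃ f, Sm X.I f ∧ ∀ i, γ i = (c.P t).bg.F.D i f)
    (hn : ∀ η, Cc (X := X.X) (c.P t).bg η → wd (X := X.X) (c.P t).bg η η ≤ 0) :
    ∃ r a₀, (two c P t h).Base (fun _ _ => 0) (· - t) (· + t) r {t | ∀ a, t a ∈ Ioo (0 : ℝ) 1}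
      (dom β.wl) a₀ ∧ ∀ t', (c.P t').bg = sft (c.P t).bg (fun _ => ∑ j, (t' - t) j • (0 : F2 κ)) 1 := by
  obtain ⟨r, hr⟩ := par β.wl (t₀ := t) fun a => a.elim0
  obtain ⟨h2, s, a₀, h3⟩ := hH _ _ 0 _ _ (two c P t h) Fin.elim0 (two_ok c P t h he fun j => j.elim0)
    (fun j => j.elim0) h1 (fun s hs => (hs (Subsingleton.elim _ _)).elim) fun η hη _ => hn η hη
  rw [sft_zero _ fun x => by simp] at h3
  exact ⟨r, a₀, ⟨two_ok c P t h he fun j => j.elim0, hr, h3, by convert h2 using 1⟩,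
    fun t' => Subsingleton.elim t t' ▸ (sft_zero (Y := X.X) (c.P t).bg fun x => by simp).symm⟩

end Crest.Agent.X212.Sm10.Mh
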