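import Crest.Agent.X212.Sm10.Cube

/-!
# X212 / Sm10 (helper10): PL interpolation on the cubical grid is Lipschitz close
-/

set_option autoImplicit false
set_option linter.unusedSectionVars false

open Set Filter Topology Function
open scoped NNReal

noncomputable section

namespace Crest.Agent.X212.Sm10

/-- a local Lipschitz bound holds on a convex set -/
theorem lip_of_loc {E F : Type*} [NormedAddCommGroup E] [NormedSpace ℝ E] [NormedAddCommGroup F]
    {S : Set E} (hS : Convex ℝ S) {g : E → F} {K : ℝ≥0}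
    (loc : ∀ p ∈ S, ∀ᶠ q in 𝓝 p, q ∈ S → dist (g p) (g q) ≤ K * dist p q) :
    LipschitzOnWith K g S := by
  refine LipschitzOnWith.of_dist_le_mul fun p hp q hq => ?_
  let γ : ℝ → E := AffineMap.lineMap p q
  have γc : Continuous γ := AffineMap.lineMap_continuous
  have γm : ∀ t ∈ Icc (0 : ℝ) 1, γ t ∈ S := fun t ht => hS.lineMap_mem hp hq ht
  have γd : ∀ t u, dist (γ t) (γ u) = dist t u * dist p q := dist_lineMap_lineMap p q
  have ct : ContinuousOn (fun t => g (γ t)) (Icc 0 1) := fun t ht => by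
    refine tendsto_iff_dist_tendsto_zero.2 (squeeze_zero' (g := fun u => K * dist (γ t) (γ u))
      (Eventually.of_forall fun _ => dist_nonneg) ?_ (tendsto_nhdsWithin_of_tendsto_nhds
        (Continuous.tendsto' (by fun_prop) _ _ (by simp))))
    filter_upwards [mem_nhdsWithin_of_mem_nhds ((γc.tendsto t).eventually (loc _ (γm t ht))),
      self_mem_nhdsWithin] with u h hu
    exact dist_comm (g (γ t)) _ ▸ h (γm u hu)
  have cl : IsClosed ({t | dist (g p) (g (γ t)) ≤ K * (t * dist p q)} ∩ Icc (0 : ℝ) 1) := by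
    rw [inter_comm]
    exact isClosed_Icc.isClosed_le (continuous_dist.comp_continuousOn (continuousOn_const.prodMk ct))
      (by fun_prop)
  suffices h : dist (g p) (g (γ 1)) ≤ K * (1 * dist p q) by simpa [γ] using h
  refine cl.Icc_subset_of_forall_mem_nhdsWithin (by simp [γ]) (fun t ⟨h1, h2⟩ => ?_)
    (right_mem_Icc.2 zero_le_one)
  filter_upwards [mem_nhdsWithin_of_mem_nhds ((γc.tendsto t).eventually
    (loc _ (γm t (Ico_subset_Icc_self h2)))), Ioo_mem_nhdsGT h2.2] with u h hu
  have := h (γm u ⟨h2.1.trans hu.1.le, hu.2.le⟩)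
  rw [γd, Real.dist_eq, abs_of_neg (sub_neg.2 hu.1)] at this
  refine (dist_triangle _ (g (γ t)) _).trans ((add_le_add h1 this).trans_eq (by ring))

/-- a Lipschitz bound on the members of a finite closed cover holds on a convex set -/
theorem lip_of_cover {E F ι : Type*} [NormedAddCommGroup E] [NormedSpace ℝ E] [NormedAddCommGroup F]
    [Finite ι] {S : Set E} (hS : Convex ℝ S) {C : ι → Set E} (hC : ∀ i, IsClosed (C i))
    (cov : ∀ p ∈ S, ∃ i, p ∈ C i) {g : E → F} {K : ℝ≥0}
    (hg : ∀ i, (C i ∩ S).Nonempty → LipschitzOnWith K g (C i)) : LipschitzOnWith K g S := by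
  refine lip_of_loc hS fun p hp => ?_
  focus
    have : ∀ᶠ q in 𝓝 p, ∀ i, p ∉ C i → q ∉ C i := eventually_all.2 fun i => by
      by_cases h : p ∈ C i
      · exact Eventually.of_forall fun _ k => (k h).elim
      · exact mem_of_superset ((hC i).isOpen_compl.mem_nhds h) fun _ k _ => k
    filter_upwards [this] with q h hq
    obtain ⟨i, hi⟩ := cov q hq
    have k : p ∈ C i := not_not.1 fun k => h i k hi
    exact (hg i ⟨p, k, hp⟩).dist_le_mul p k q hi

variable {P : Type*} [PartialOrder P] [Fintype P] {E : Type*} [NormedAddCommGroup E]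
  [NormedSpace ℝ E] {F : Type*} [NormedAddCommGroup F] [NormedSpace ℝ F]

theorem Real.lip_of_max (R : Real P E) {S : Set E} (hS : Convex ℝ S) (hB : S ⊆ R.B) {g : E → F}
    {K : ℝ≥0} (hg : ∀ c, IsMaxChain (· ≤ ·) c → (R.spx c ∩ S).Nonempty →
      LipschitzOnWith K g (R.spx c)) : LipschitzOnWith K g S :=
  lip_of_cover (C := fun c : {c : Set P // IsMaxChain (· ≤ ·) c} => R.spx c) hS
    (fun _ => (R.isCompact_spx _).isClosed)
    (fun _ hp => let ⟨c, h1, h2⟩ := (Real.wt_mem (hB hp)).chain.exists_maxChain;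
      ⟨⟨c, h1⟩, hB hp, h2⟩) fun c => hg c c.2

variable {ι : Type*} [Fintype ι] [DecidableEq ι] [Nonempty ι] {N : ℕ} {h : ℝ}

theorem cube_diam (hh : 0 < h) {c : Set (ι → Fe N)} (hc : IsChain (· ≤ ·) c) {p q : EuclideanSpace ℝ ι}
    (hp : p ∈ (cube ι N hh).spx c) (hq : q ∈ (cube ι N hh).spx c) : dist p q ≤ Fintype.card ι * h := by
  rw [← Real.cmb_wt hp.1]
  refine cmb_mem_convex (Real.wt_mem hp.1) (convex_closedBall _ _) fun s hs => ?_
  rw [Metric.mem_closedBall, dist_comm, ← Real.cmb_wt hq.1]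
  exact cmb_mem_convex (Real.wt_mem hq.1) (convex_closedBall _ _) fun t ht =>
    cube_dist hh (hc.total (hq.2 ht) (hp.2 hs))

theorem cube_lip (hh : 0 < h) (hN : 0 < N) {c : Set (ι → Fe N)} (hc : IsMaxChain (· ≤ ·) c)
    {f : EuclideanSpace ℝ ι → F} {D : EuclideanSpace ℝ ι → EuclideanSpace ℝ ι →L[ℝ] F}
    (hf : ∀ q ∈ (cube ι N hh).spx c, HasFDerivAt f (D q) q) {ε : ℝ≥0}
    (hD : ∀ q ∈ (cube ι N hh).spx c, ∀ q' ∈ (cube ι N hh).spx c, ‖D q - D q'‖ ≤ ε) :
    LipschitzOnWith (Fintype.card ι * ε)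
      (fun p => (cube ι N hh).pl (fun s => f ((cube ι N hh).x s)) p - f p) ((cube ι N hh).spx c) := by
  set R := cube ι N hh
  obtain ⟨L, b, L1, L2⟩ := Real.exists_aff (R := R) hc.1
  let T := (cmb fun s => f (R.x s)).toContinuousLinearMap
  have cv := Real.convex_spx (R := R) hc.1
  have key : ∀ q ∈ R.spx c, ‖T.comp L - D q‖ ≤ Fintype.card ι * ε := fun q hq => by
    have e : ∀ i, ‖(T.comp L - D q) (EuclideanSpace.single i 1)‖ ≤ ε := fun i => by
      obtain ⟨s, s1, r, r1, r2⟩ := cube_edge hN hc i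
      obtain ⟨a, a1, a2⟩ := cube_x_update hh s i r1
      have m := cv.norm_image_sub_le_of_norm_hasFDerivWithin_le'
        (fun y hy => (hf y hy).hasFDerivWithinAt) (fun y hy => hD y hy q hq)
        (R.x_mem_spx.2 s1) (R.x_mem_spx.2 r2)
      have l := L1 (Pi.single (update s i r) 1 - Pi.single s 1) ((support_sub _ _).trans (union_subset
        (Pi.support_single_subset.trans (by simpa using r2))
        (Pi.support_single_subset.trans (by simpa using s1)))) (by simp)
      have t := congrArg T l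
      simp only [map_sub, cmb_single, one_smul, T, LinearMap.coe_toContinuousLinearMap'] at t
      rw [← t, ← map_sub, ← map_sub, a2, add_sub_cancel_left] at m
      simp only [map_smul, ← smul_sub, norm_smul, Real.norm_eq_abs, a1, PiLp.norm_single,
        norm_one, mul_one] at m
      exact le_of_mul_le_mul_left (m.trans_eq (mul_comm _ _)) hh
    refine ContinuousLinearMap.opNorm_le_bound _ (by positivity) fun v => ?_
    conv_lhs => rw [← (EuclideanSpace.basisFun ι ℝ).sum_repr v, map_sum]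
    refine (norm_sum_le _ _).trans ((Finset.sum_le_sum (g := fun _ => ε * ‖v‖) fun i _ => ?_).trans
      (by simp [mul_assoc]))
    rw [map_smul, norm_smul, mul_comm, EuclideanSpace.basisFun_apply]
    exact mul_le_mul (e i) (PiLp.norm_apply_le v i) (norm_nonneg _) ε.2
  have e : ∀ p ∈ R.spx c, R.pl (fun s => f (R.x s)) p = T (L p) + T b := fun p hp => by
    simp only [Real.pl, L2 p hp, map_add]
    rfl
  intro p hp q hq
  simp only [e p hp, e q hq]
  exact cv.lipschitzOnWith_of_nnnorm_hasFDerivWithin_le (f := fun p => T (L p) + T b - f p)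
    (f' := fun q => T.comp L - D q) (fun q hq => (((T.comp L).hasFDerivAt.add_const _).sub
      (hf q hq)).hasFDerivWithinAt) (fun q hq => by exact_mod_cast key q hq) hp hq

end Crest.Agent.X212.Sm10
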