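import Crest.Agent.X212.Sm10.In
import Crest.Agent.X212.Sm10.Lip

/-!
# X212 / Sm10 (helper10): the tube read in the chart
-/

set_option autoImplicit false
set_option linter.unusedSectionVars false

open Set Filter Topology Function
open scoped ContDiff Manifold NNReal Real
open Crest.GeometryTopology.DehnSurgery Crest.Agent.X212.Glue52 Crest.Agent.X212.Ext52

noncomputable section

namespace Crest.Agent.X212.Sm10

variable (t : Tube)

theorem continuous_rhoS : Continuous (rhoS t) := continuous_iff_continuousAt.2 fun x => by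
  by_cases h : x ∈ range t.τ
  · obtain ⟨z, rfl⟩ := h
    rw [← t.isOpenEmbedding.continuousAt_iff, rhoS, extend_comp t.inj]
    fun_prop
  · refine (continuousAt_const (y := (4 : ℝ))).congr ?_
    filter_upwards [(t.isCompact_tube 4).isClosed.isOpen_compl.mem_nhds
      fun k => h (image_subset_range _ _ k)] with y hy
    by_cases k : y ∈ range t.τ
    · obtain ⟨z, rfl⟩ := k
      rw [rhoS_τ, min_eq_right]
      exact (not_le.1 fun hz => hy ⟨z, ⟨trivial, mem_closedBall_zero_iff.2 hz⟩, rfl⟩).le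
    · exact (rhoS_out t k).symm

theorem continuous_rho : Continuous (rho t) :=
  (continuous_rhoS t).comp (isOpenEmbedding_sg t).continuous

/-- the tube in the chart -/
def tb (z : Circle × ℂ) : E3 := chartAt E3 (-t.τ (1, 0)) (t.τ z)

variable {t}

theorem τ_mem_source {z : Circle × ℂ} (h : z.2 ≠ 0) : t.τ z ∈ (chartAt E3 (-t.τ (1, 0))).source := by
  rw [chart_source]
  exact fun e => h (congrArg Prod.snd (t.inj e))

theorem sg_tb {z : Circle × ℂ} (h : z.2 ≠ 0) : sg t (tb t z) = t.τ z :=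
  (chartAt E3 (-t.τ (1, 0))).left_inv (τ_mem_source h)

theorem rho_tb {z : Circle × ℂ} (h : z.2 ≠ 0) : rho t (tb t z) = min ‖z.2‖ 4 := by
  rw [rho, sg_tb h, rhoS_τ]

theorem tb_of_sg {p : E3} {z : Circle × ℂ} (h : sg t p = t.τ z) : tb t z = p := by
  rw [tb, ← h]
  exact (chartAt E3 (-t.τ (1, 0))).right_inv ((chart_target t).ge (mem_univ p))

theorem exists_τ {p : E3} (h : rho t p < 4) : ∃ z, sg t p = t.τ z ∧ rho t p = ‖z.2‖ := by
  by_cases k : sg t p ∈ range t.τ
  · obtain ⟨z, e⟩ := k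
    rw [rho, ← e, rhoS_τ] at h ⊢
    exact ⟨z, rfl, min_eq_left (not_lt.1 fun m => by rw [min_eq_right m.le] at h; exact h.false)⟩
  · rw [rho, rhoS_out t k] at h
    exact h.false.elim

theorem exists_polar {p : E3} (h : rho t p < 4) :
    ∃ y u : Circle, p = tb t (y, rho t p * u) := by
  obtain ⟨z, h1, h2⟩ := exists_τ h
  exact ⟨z.1, dir z.2, by rw [h2, norm_mul_dir, tb_of_sg h1]⟩

theorem contMDiffAt_tb {z : Circle × ℂ} (h : z.2 ≠ 0) : ContMDiffAt IT (𝓡 3) ∞ (tb t) z :=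
  ((contMDiffOn_chart (I := 𝓡 3) (n := ∞)).contMDiffAt
    ((chartAt E3 (-t.τ (1, 0))).open_source.mem_nhds (τ_mem_source h))).comp z (t.ld.contMDiff z)

theorem contDiffAt_rho {p : E3} (h0 : 0 < rho t p) (h : rho t p < 4) : ContDiffAt ℝ ∞ (rho t) p := by
  obtain ⟨z, h1, h2⟩ := exists_τ h
  have : ContMDiffAt (𝓡 3) 𝓘(ℝ, ℝ) ∞ (rhoS t) (sg t p) := by
    rw [h1]
    refine t.patch_in (((contMDiffAt_iff_contDiffAt.2 (contDiffAt_norm_c
      (norm_pos_iff.1 (h2 ▸ h0)))).comp z contMDiffAt_snd).congr_of_eventuallyEq ?_)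
    filter_upwards [(continuous_snd.norm.tendsto z).eventually (gt_mem_nhds (h2 ▸ h))] with w hw
    exact min_eq_left hw.le
  exact contMDiffAt_iff_contDiffAt.1 (this.comp p ((ld_sg t).contMDiff p))

theorem sg_mem_Ext {p : E3} (h : 0 < rho t p) : sg t p ∈ t.Ext := by
  rintro ⟨z, hz, e⟩
  rw [rho, ← e] at h
  have := rhoS_τ t z
  rw [show z.2 = 0 from hz.2] at this
  exact h.ne' (this.trans (by simp))

theorem th_eq (k : KD) {p : E3} (h : sg k.toTube p ∈ k.Ext) : th k p = k.θ ⟨_, h⟩ :=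
  Subtype.val_injective.extend_apply _ _ (⟨_, h⟩ : k.Ext)

theorem contMDiffAt_th (k : KD) {p : E3} (h : 0 < rho k.toTube p) :
    ContMDiffAt (𝓡 3) (𝓡 1) ∞ (th k) p :=
  (contMDiffAt_of_comp (ld_val k.Ext ⟨_, sg_mem_Ext h⟩) (g := extend Subtype.val k.θ 1) (by
    rw [extend_comp Subtype.val_injective]
    exact k.smθ _)).comp p ((ld_sg _).contMDiff p)

theorem contDiffAt_th (k : KD) {p : E3} (h : 0 < rho k.toTube p) :
    ContDiffAt ℝ ∞ (fun q => (th k q : ℂ)) p :=
  contMDiffAt_iff_contDiffAt.1 ((contMDiff_circle_coe _).comp p (contMDiffAt_th k h))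

theorem th_tb (k : KD) {z : Circle × ℂ} (h : z.2 ≠ 0) : th k (tb k.toTube z) = dir z.2 := by
  rw [th, sg_tb h, ← k.θτ ⟨z, h⟩]
  exact Subtype.val_injective.extend_apply _ _ (k.τE ⟨z, h⟩)

variable (t)

theorem isCompact_far {r : ℝ} (hr : 0 < r) : IsCompact (rho t ⁻¹' Ici r) := by
  refine (isOpenEmbedding_sg t).isInducing.isCompact_preimage_iff (K := rhoS t ⁻¹' Ici r) ?_ |>.2
    (isClosed_Ici.preimage (continuous_rhoS t)).isCompact
  rw [range_sg]
  rintro _ h rfl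
  rw [mem_preimage, rhoS_τ] at h
  simp at h
  linarith

/-- the radial lines have bounded speed -/
theorem exists_speed : ∃ C : ℝ≥0, ∀ y u : Circle,
    LipschitzOnWith C (fun s : ℝ => tb t (y, s * u)) (Icc (1 / 4) 3) := by
  let F : ℝ × ℂ → E3 := fun a => tb t (Circle.exp a.1, a.2)
  have hF : ∀ a : ℝ × ℂ, a.2 ≠ 0 → ContDiffAt ℝ ∞ F a := fun a h =>
    contMDiffAt_iff_contDiffAt.1 (ContMDiffAt.comp (g := tb t) (f := fun a : ℝ × ℂ =>
      (Circle.exp a.1, a.2)) a (contMDiffAt_tb (z := (Circle.exp a.1, a.2)) h)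
      (((ld_circleExp.contMDiff _).comp a contDiff_fst.contMDiff.contMDiffAt).prodMk
        contDiff_snd.contMDiff.contMDiffAt))
  have K : IsCompact (Icc (-π) π ×ˢ (Metric.closedBall (0 : ℂ) 3 \ Metric.ball 0 (1 / 4))) :=
    isCompact_Icc.prod ((isCompact_closedBall _ _).diff Metric.isOpen_ball)
  obtain ⟨C, hC⟩ := K.exists_bound_of_continuousOn (f := fderiv ℝ F) fun a h =>
    ((hF a fun e => h.2.2 (by simp [e])).continuousAt_fderiv (by simp)).continuousWithinAt
  refine ⟨C.toNNReal, fun y u => (convex_Icc _ _).lipschitzOnWith_of_nnnorm_hasDerivWithin_le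
    (f' := fun s : ℝ => fderiv ℝ F (Complex.arg y, s * u) (0, u)) (fun s hs => ?_) fun s hs => ?_⟩
  · have h1 : HasDerivAt (fun s : ℝ => ((Complex.arg y, s * u) : ℝ × ℂ)) (0, u) s :=
      (hasDerivAt_const _ _).prodMk (by simpa using (Complex.ofRealCLM.hasDerivAt (x := s)).mul_const (u : ℂ))
    have h2 := ((hF (Complex.arg y, s * u) (mul_ne_zero (by
      exact_mod_cast (by linarith [hs.1] : s ≠ 0)) u.coe_ne_zero)).differentiableAt
        (by simp)).hasFDerivAt.comp_hasDerivAt s h1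
    simpa [F, comp_def] using h2.hasDerivWithinAt
  · have n : ‖(s : ℂ) * u‖ = s := by simp [abs_of_nonneg (by linarith [hs.1] : 0 ≤ s)]
    have := hC (Complex.arg y, s * u) ⟨⟨(Complex.neg_pi_lt_arg _).le, Complex.arg_le_pi _⟩,
      mem_closedBall_zero_iff.2 (n.trans_le hs.2),
      fun k => (mem_ball_zero_iff.1 k).not_ge (hs.1.trans_eq n.symm)⟩
    rw [← NNReal.coe_le_coe, coe_nnnorm]
    refine (ContinuousLinearMap.le_opNorm _ _).trans ?_
    simpa using Or.inl this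

namespace Geo

open Crest.Agent.X212.Hp13

variable {k : KD} {η : ℝ≥0} {s : St} (g : Geo k η s)

theorem mem_B_of {p : E3} (h : 1 / 16 ≤ rho k.toTube p) : p ∈ g.R.B := interior_subset (g.far p h)

/-- weakening of the small constant -/
def weaken {η' : ℝ≥0} (h : η ≤ η') : Geo k η' s :=
  { g with
    mesh := fun c hc p hp q hq => (g.mesh c hc p hp q hq).imp (fun k => k.trans h) fun k => k.trans h
    ρ_near := fun p hp => (g.ρ_near p hp).trans h
    ρ_lip := fun U h1 h2 => (g.ρ_lip U h1 h2).weaken h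
    δ_near := fun p hp => (g.δ_near p hp).trans h
    δ_lip := fun U h1 h2 => (g.δ_lip U h1 h2).weaken h }

end Geo

/-- a function that is Lipschitz on the convex parts of the shell, read along a radial line -/
theorem lip_radial {C η : ℝ≥0} {y u : Circle}
    (hC : LipschitzOnWith C (fun s : ℝ => tb t (y, s * u)) (Icc (1 / 4) 3)) {f : E3 → ℝ}
    (hf : ∀ U, Convex ℝ U → U ⊆ rho t ⁻¹' Icc (1 / 4) 3 → LipschitzOnWith η f U) {a b : ℝ}
    (ha : 1 / 4 < a) (hb : b < 3) : LipschitzOnWith (η * C) (fun s : ℝ => f (tb t (y, s * u))) (Icc a b) := by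
  refine lip_of_loc (convex_Icc _ _) fun s hs => ?_
  have s0 : 0 < s := by linarith [hs.1]
  have e : rho t (tb t (y, s * u)) = s := by
    rw [rho_tb (mul_ne_zero (by exact_mod_cast s0.ne') u.coe_ne_zero)]
    simp [abs_of_pos s0]
    linarith [hs.2]
  obtain ⟨r, r0, hr⟩ := Metric.mem_nhds_iff.1 (((continuous_rho t).tendsto (tb t (y, s * u))).eventually
    (Icc_mem_nhds (a := 1 / 4) (b := 3) (by rw [e]; linarith [hs.1]) (by rw [e]; linarith [hs.2])))
  have m : Icc (1 / 4 : ℝ) 3 ∈ 𝓝 s := Icc_mem_nhds (by linarith [hs.1]) (by linarith [hs.2])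
  filter_upwards [((hC.continuousOn s (mem_of_mem_nhds m)).continuousAt m).eventually
    (Metric.ball_mem_nhds _ r0), m] with v h1 h2 _
  refine ((hf _ (convex_ball _ _) hr).dist_le_mul _ (Metric.mem_ball_self r0) _ h1).trans ?_
  rw [NNReal.coe_mul, mul_assoc]
  exact mul_le_mul_of_nonneg_left (hC.dist_le_mul s (mem_of_mem_nhds m) v h2) η.2

theorem rho_polar {s : ℝ} (h0 : 0 < s) (h4 : s ≤ 4) (y u : Circle) : rho t (tb t (y, s * u)) = s := by
  rw [rho_tb (mul_ne_zero (by exact_mod_cast h0.ne') u.coe_ne_zero)]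
  simpa [abs_of_pos h0]

/-- the part of the tube between the radius `1/2` and the PL level is connected -/
theorem preconnected_shell {C η : ℝ≥0}
    (hC : ∀ y u : Circle, LipschitzOnWith C (fun s : ℝ => tb t (y, s * u)) (Icc (1 / 4) 3))
    (h1 : η * C ≤ 1) (h2 : η ≤ 1 / 2) {ρ : E3 → ℝ}
    (hn : ∀ p, 1 / 2 ≤ rho t p → |ρ p - rho t p| ≤ η)
    (hl : ∀ U, Convex ℝ U → U ⊆ rho t ⁻¹' Icc (1 / 4) 3 → LipschitzOnWith η (ρ - rho t) U) {r : ℝ}
    (hr : r ∈ Ioo (1 : ℝ) 2) : IsPreconnected {p | 1 / 2 ≤ rho t p ∧ ρ p ≤ r} := by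
  have h2 : (η : ℝ) ≤ 1 / 2 := by exact_mod_cast h2
  let T : Set E3 := range fun a : Circle × Circle => tb t (a.1, (1 / 2 : ℝ) * a.2)
  have T1 : IsPreconnected T := isPreconnected_range <| continuous_iff_continuousAt.2 fun a =>
    ContinuousAt.comp (f := fun a : Circle × Circle => (a.1, (((1 / 2 : ℝ) : ℂ) * a.2 : ℂ)))
      (contMDiffAt_tb (by simp)).continuousAt (by fun_prop)
  have T2 : T ⊆ {p | 1 / 2 ≤ rho t p ∧ ρ p ≤ r} := by
    rintro _ ⟨a, rfl⟩
    have e := rho_polar t (s := 1 / 2) (by norm_num) (by norm_num) a.1 a.2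
    have := abs_le.1 (hn _ e.ge)
    exact ⟨e.ge, by linarith [hr.1]⟩
  refine isPreconnected_of_forall (tb t (1, (1 / 2 : ℝ) * (1 : Circle))) fun p hp => ?_
  have b3 : rho t p < 3 := by linarith [(abs_le.1 (hn p hp.1)).1, hp.2, hr.2]
  obtain ⟨y, u, e⟩ := exists_polar (b3.trans (by norm_num))
  refine ⟨T ∪ (fun s : ℝ => tb t (y, s * u)) '' Icc (1 / 2) (rho t p), union_subset T2 ?_,
    Or.inl ⟨(1, 1), rfl⟩, Or.inr ⟨_, right_mem_Icc.2 hp.1, e.symm⟩, T1.union _ ⟨(y, u), rfl⟩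
      ⟨_, left_mem_Icc.2 hp.1, rfl⟩ (isPreconnected_Icc.image _ ((hC y u).continuousOn.mono
        (Icc_subset_Icc (by norm_num) b3.le)))⟩
  rintro _ ⟨s, hs, rfl⟩
  have e1 := rho_polar t (s := s) (by linarith [hs.1]) (by linarith [hs.2]) y u
  have := (lip_radial t (hC y u) hl (a := 1 / 2) (by norm_num) b3).dist_le_mul s hs _
    (right_mem_Icc.2 hp.1)
  rw [← e, Pi.sub_apply, Pi.sub_apply, e1, Real.dist_eq, Real.dist_eq, abs_of_nonpos
    (sub_nonpos.2 hs.2)] at this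
  refine ⟨hs.1.trans_eq e1.symm, ?_⟩
  have h1 : ((η * C : ℝ≥0) : ℝ) ≤ 1 := by exact_mod_cast h1
  nlinarith [(abs_le.1 this).2, hp.2, hs.2]

end Crest.Agent.X212.Sm10
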