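import Crest.Agent.X212.Sm10.Up
import Crest.Agent.X212.Sm10.Rho

/-!
# X212 / Sm10 (helper10): PL interpolation of a circle map; the data on the cubical grid
-/

set_option autoImplicit false
set_option linter.unusedSectionVars false

open Set Filter Topology Function
open scoped ContDiff Manifold NNReal Real
open Crest.Agent.X212.Ext52 Crest.Agent.X212.Hp13

noncomputable section

namespace Crest.Agent.X212.Sm10

/-- the small angle from `u` to `v`, in turns -/
def om (u v : Circle) : ℝ := Complex.arg (v / u : Circle) / (2 * π)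

theorem exp_om (u v : Circle) : u * Circle.exp (2 * π * om u v) = v := by
  rw [om, mul_div_cancel₀ _ Real.two_pi_pos.ne', Circle.exp_arg, mul_div_cancel]

theorem dist_div (u v : Circle) : dist ((v / u : Circle) : ℂ) 1 = dist u v := by
  rw [dist_comm u, show dist v u = dist (v : ℂ) u from rfl, dist_eq_norm, dist_eq_norm, Circle.coe_div,
    div_sub_one u.coe_ne_zero, norm_div, Circle.norm_coe, div_one]

theorem re_pos {u v : Circle} (h : dist u v < 1) : 0 < ((v / u : Circle) : ℂ).re := by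
  rw [← dist_div, dist_eq_norm] at h
  have := (abs_le.1 (Complex.abs_re_le_norm (((v / u : Circle) : ℂ) - 1))).1
  simp only [Complex.sub_re, Complex.one_re] at this
  linarith

theorem om_add {u v w : Circle} (h : dist u v < 1) (k : dist v w < 1) : om u w = om u v + om v w := by
  have h1 := abs_lt.1 (Complex.abs_arg_lt_pi_div_two_iff.2 (Or.inl (re_pos h)))
  have h2 := abs_lt.1 (Complex.abs_arg_lt_pi_div_two_iff.2 (Or.inl (re_pos k)))
  rw [om, om, om, ← add_div, ← Complex.arg_mul (Circle.coe_ne_zero _) (Circle.coe_ne_zero _)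
    ⟨by linarith, by linarith⟩, ← Circle.coe_mul, div_mul_div_cancel']

theorem om_self (u : Circle) : om u u = 0 := by simp [om]

theorem om_int (u v : Circle) : ∃ n : ℤ, om 1 v - om 1 u - om u v = n := by
  obtain ⟨n, h⟩ := Circle.exp_eq_exp.1 (show Circle.exp (2 * π * om 1 v) =
    Circle.exp (2 * π * om 1 u + 2 * π * om u v) by
      rw [Circle.exp_add, ← one_mul (Circle.exp (2 * π * om 1 u)), exp_om, exp_om,
        ← one_mul (Circle.exp _), exp_om])
  exact ⟨n, mul_left_cancel₀ Real.two_pi_pos.ne' (by linarith)⟩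

theorem exists_om {ε : ℝ} (h : 0 < ε) : ∃ d > 0, ∀ u v : Circle, dist u v < d → |om u v| ≤ ε := by
  obtain ⟨d, d0, hd⟩ := Metric.continuousAt_iff.1 (Complex.continuousAt_arg Complex.one_mem_slitPlane) ε h
  refine ⟨d, d0, fun u v k => ?_⟩
  have := hd (dist_div u v ▸ k)
  rw [Complex.arg_one, Real.dist_eq, sub_zero] at this
  rw [om, abs_div, abs_of_pos Real.two_pi_pos]
  exact (div_le_self (abs_nonneg _) (by linarith [Real.pi_gt_three])).trans this.le

section

variable {E : Type*} [NormedAddCommGroup E] [NormedSpace ℝ E] {θ : E → Circle}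

theorem contDiffAt_om {p : E} (h : ContDiffAt ℝ ∞ (fun q => (θ q : ℂ)) p) {u : Circle}
    (k : dist u (θ p) < 1) : ContDiffAt ℝ ∞ (fun q => om u (θ q)) p := by
  have : ContDiffAt ℝ ∞ (fun q => Complex.imCLM (Complex.log ((θ q : ℂ) / u))) p :=
    Complex.imCLM.contDiff.contDiffAt.comp p (ContDiffAt.comp (g := Complex.log) p
      ((Complex.contDiffAt_log (Or.inl (re_pos k))).restrict_scalars ℝ) (h.div_const _))
  simpa [om, Complex.log_im] using this.div_const (2 * π)

theorem continuousAt_of_coe {p : E} (h : ContDiffAt ℝ ∞ (fun q => (θ q : ℂ)) p) : ContinuousAt θ p :=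
  IsInducing.subtypeVal.continuousAt_iff.2 h.continuousAt

/-- the derivative of the local angles -/
def dom (θ : E → Circle) (p : E) : E →L[ℝ] ℝ := fderiv ℝ (fun q => om (θ p) (θ q)) p

theorem hasFDerivAt_om {p : E} (h : ContDiffAt ℝ ∞ (fun q => (θ q : ℂ)) p) {u : Circle}
    (k : dist u (θ p) < 1) : HasFDerivAt (fun q => om u (θ q)) (dom θ p) p := by
  refine (((contDiffAt_om h (by simp)).differentiableAt (by simp)).hasFDerivAt.const_add
    (om u (θ p))).congr_of_eventuallyEq ?_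
  filter_upwards [(continuousAt_of_coe h).eventually (Metric.ball_mem_nhds _ one_pos)] with q hq
  exact om_add k (by rwa [dist_comm])

theorem continuousAt_dom {p : E} (h : ∀ᶠ q in 𝓝 p, ContDiffAt ℝ ∞ (fun q => (θ q : ℂ)) q) :
    ContinuousAt (dom θ) p := by
  refine ((contDiffAt_om h.self_of_nhds (u := θ p) (by simp)).continuousAt_fderiv (by simp)).congr ?_
  filter_upwards [h, (continuousAt_of_coe h.self_of_nhds).eventually (Metric.ball_mem_nhds _ one_pos)]
    with q h1 h2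
  exact (hasFDerivAt_om h1 (by rwa [dist_comm])).fderiv

variable {P : Type} [PartialOrder P] [Fintype P] (R : Real P E) (θ)

/-- the correction that makes the angle PL -/
def del (p : E) : ℝ := R.pl (fun s => om (θ p) (θ (R.x s))) p

/-- the winding cocycle -/
def wind (s t : P) : ℤ := (om_int (θ (R.x t)) (θ (R.x s))).choose

theorem wind_eq (s t : P) : (wind θ R s t : ℝ) =
    om 1 (θ (R.x s)) - om 1 (θ (R.x t)) - om (θ (R.x t)) (θ (R.x s)) :=
  (om_int (θ (R.x t)) (θ (R.x s))).choose_spec.symm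

variable {θ R} {W : Set P}
  (H : ∀ c ⊆ W, IsChain (· ≤ ·) c → ∀ p ∈ R.spx c, ∀ q ∈ R.spx c, dist (θ p) (θ q) < 1)
include H

theorem near_x {s t : P} (hs : s ∈ W) (ht : t ∈ W) (h : s ≤ t) : dist (θ (R.x t)) (θ (R.x s)) < 1 :=
  H {s, t} (pair_subset hs ht) (by rintro _ (rfl | rfl) _ (rfl | rfl) _ <;> simp [h]) _
    (R.x_mem_spx.2 (by simp)) _ (R.x_mem_spx.2 (by simp))

theorem coc_wind : CocOn W (wind θ R) := fun s hs t ht w hw e1 e2 => by
  have := om_add (near_x H ht hw e2) (near_x H hs ht e1)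
  have k : (wind θ R s w : ℝ) = wind θ R s t + wind θ R t w := by
    simp only [wind_eq]
    linarith
  exact_mod_cast k

theorem cir_wind : Cir R W (wind θ R) (fun s => om 1 (θ (R.x s)))
    fun p => θ p * Circle.exp (2 * π * del θ R p) := by
  intro p hp t ht hu
  have n : dist (θ p) (θ (R.x t)) < 1 := H (insert t (support (R.wt p))) (insert_subset ht hp.2)
    ((Real.wt_mem hp.1).chain.insert fun s hs _ => Or.inr (hu s hs)) _ ⟨hp.1, subset_insert _ _⟩ _
    (R.x_mem_spx.2 (mem_insert _ _))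
  have : del θ R p = R.pl (fun s => om 1 (θ (R.x s)) - wind θ R s t) p +
      (om (θ p) (θ (R.x t)) - om 1 (θ (R.x t))) := by
    rw [← Real.pl_add_const _ _ hp.1]
    refine Real.pl_congr fun s hs => ?_
    rw [wind_eq, om_add n (near_x H (hp.2 hs) ht (hu s hs))]
    ring
  simp only [this, mul_add, mul_sub, Circle.exp_add, Circle.exp_sub]
  rw [mul_left_comm, ← mul_div_assoc, exp_om, ← one_mul (Circle.exp (2 * π * om 1 _)), exp_om,
    div_self', mul_one]

theorem del_eq {c : Set P} (hW : c ⊆ W) (hc : IsChain (· ≤ ·) c) {b p : E} (hb : b ∈ R.spx c)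
    (hp : p ∈ R.spx c) :
    del θ R p = R.pl (fun s => om (θ b) (θ (R.x s))) p - om (θ b) (θ p) := by
  rw [sub_eq_add_neg, ← Real.pl_add_const _ _ hp.1]
  refine Real.pl_congr fun s hs => ?_
  rw [om_add (H c hW hc b hb p hp) (H c hW hc p hp _ (R.x_mem_spx.2 (hp.2 hs)))]
  ring

end

/-- the data that do not depend on the colouring -/
structure G0 (k : KD) (η : ℝ≥0) (P : Type) [PartialOrder P] [Fintype P] where
  R : Real P E3
  L : ℝ
  mem_B : ∀ p, p ∈ R.B ↔ ∀ i, |p i| ≤ L
  far : ∀ p, 1 / 16 ≤ rho k.toTube p → p ∈ interior R.B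
  mesh : ∀ c, IsChain (· ≤ ·) c → ∀ p ∈ R.spx c, ∀ q ∈ R.spx c, dist p q ≤ η ∧
    |rho k.toTube p - rho k.toTube q| ≤ η
  ρ : E3 → ℝ
  ρ_pl : ∀ p ∈ R.B, ρ p = R.pl (fun x => ρ (R.x x)) p
  ρ_near : ∀ p ∈ R.B, |ρ p - rho k.toTube p| ≤ η
  ρ_lip : ∀ U, Convex ℝ U → U ⊆ rho k.toTube ⁻¹' Icc (1 / 4) 3 →
    LipschitzOnWith η (ρ - rho k.toTube) U
  W : Set P
  low : IsLowerSet W
  mem_W : ∀ p, 1 / 4 ≤ rho k.toTube p → p ∈ R.spx W
  W_far : ∀ p ∈ R.spx W, 1 / 16 < rho k.toTube p
  z : P → P → ℤ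
  coc : CocOn W z
  δ : E3 → ℝ
  a : P → ℝ
  cir : Cir R W z a fun p => th k p * Circle.exp (2 * π * δ p)
  δ_near : ∀ p ∈ R.spx W, |δ p| ≤ η
  δ_lip : ∀ U, Convex ℝ U → U ⊆ rho k.toTube ⁻¹' Ici (1 / 4) → LipschitzOnWith η δ U

namespace G0

variable {k : KD} {η : ℝ≥0} {P Q : Type} [PartialOrder P] [Fintype P] [PartialOrder Q] [Fintype Q]
  (g : G0 k η P)

/-- higher in the tower -/
def tw {R' : Real Q E3} {f : Q → P} (h : Tw g.R R' f) : G0 k η Q where
  R := R'
  L := g.L
  mem_B := h.B_eq ▸ g.mem_B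
  far := h.B_eq ▸ g.far
  mesh d hd p hp q hq := let ⟨c, c1, c2⟩ := h.spx_chain hd; g.mesh c c1 p (c2 hp) q (c2 hq)
  ρ := g.ρ
  ρ_pl p hp := by
    rw [h.B_eq] at hp
    rw [g.ρ_pl p hp, h.pl_eq _ hp]
    exact Real.pl_congr fun c _ => (g.ρ_pl _ (h.x_mem c)).symm
  ρ_near := h.B_eq ▸ g.ρ_near
  ρ_lip := g.ρ_lip
  W := f ⁻¹' g.W
  low := g.low.preimage h.mono
  mem_W := h.spx_low g.low ▸ g.mem_W
  W_far := h.spx_low g.low ▸ g.W_far
  z := pb f g.z
  coc _ hx _ hy _ hw e1 e2 := g.coc _ hx _ hy _ hw (h.mono e1) (h.mono e2)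
  δ := g.δ
  a c := g.R.pl (fun s => g.a s - g.z s (f c)) (R'.x c)
  cir := g.cir.tw h g.low g.coc
  δ_near := h.spx_low g.low ▸ g.δ_near
  δ_lip := g.δ_lip

/-- change of the cocycle by a coboundary -/
def shift (u : P → ℤ) : G0 k η P :=
  { g with
    z := fun s t => g.z s t + (u t - u s)
    coc := fun x hx y hy w hw e1 e2 => by simp only [g.coc x hx y hy w hw e1 e2]; ring
    a := fun s => g.a s - u s
    cir := g.cir.shift u }

end G0

end Crest.Agent.X212.Sm10
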