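import Crest.Agent.X212.Sm10.Mv
import Crest.Agent.X212.Srf12.Rec
import Crest.Agent.X212.St29.Cel
import Crest.Agent.X212.Tw9.H1
import Crest.Agent.X212.Alg36.Hp1

/-!
# X212 / Sm10 (helper10): the level surface `Dc ty c` is a surface complex
-/

set_option autoImplicit false
set_option linter.unusedSectionVars false

open Set Filter Topology Function
open Module (finrank)
open Crest.Agent.X212.Hp13 Crest.Agent.X212.Srf12 Crest.Agent.R096.Ce_537

noncomputable section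

namespace Crest.Agent.X212.Sm10

theorem finrank_inf_ker {E : Type*} [AddCommGroup E] [Module ℝ E] [FiniteDimensional ℝ E]
    (V : Submodule ℝ E) (f : E →ₗ[ℝ] ℝ) {v : E} (hv : v ∈ V) (h : f v ≠ 0) :
    finrank ℝ (V ⊓ LinearMap.ker f : Submodule ℝ E) + 1 = finrank ℝ V := by
  have h0 : f.domRestrict V ≠ 0 := fun e => h (LinearMap.congr_fun e ⟨v, hv⟩)
  rw [← Module.Dual.finrank_ker_add_one_of_ne_zero h0, LinearMap.ker_domRestrict,
    ← Submodule.map_comap_subtype, Submodule.finrank_map_subtype_eq]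

variable {P : Type} [PartialOrder P] [Fintype P] [Nonempty P]

open Classical in
/-- the support of a weight -/
def sup (x : P → ℝ) : Ch P :=
  if h : IsWt x then ⟨Finset.univ.filter fun s => x s ≠ 0, by
      obtain ⟨s, hs⟩ := support_nonempty_iff.2 h.ne_zero
      exact ⟨s, Finset.mem_filter.2 ⟨Finset.mem_univ _, hs⟩⟩,
    h.chain.mono fun _ hs => (Finset.mem_filter.1 hs).2⟩
  else Ch.pt (Classical.arbitrary P)

theorem mem_sup {x : P → ℝ} (h : IsWt x) {s : P} : s ∈ (sup x).1 ↔ x s ≠ 0 := by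
  classical
  have : (sup x).1 = Finset.univ.filter fun s => x s ≠ 0 := by
    rw [sup, dif_pos h]
  rw [this]
  exact Finset.mem_filter.trans (and_iff_right (Finset.mem_univ _))

theorem sup_le {x y : P → ℝ} (hx : IsWt x) (hy : IsWt y) :
    sup y ≤ sup x ↔ ∀ s, x s = 0 → y s = 0 :=
  ⟨fun h s e => by_contra fun n => (mem_sup hx).1 (h ((mem_sup hy).2 n)) e,
    fun h _ hs => (mem_sup hx).2 fun e => (mem_sup hy).1 hs (h _ e)⟩

variable (ty : P → Fin 4) (c : ℝ)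

/-- the points of type `i` -/
def Ty (i : Fin 4) : Set P := {s | ty s = i}

/-- the forms of the arrangement -/
def frm : P ⊕ Fin 3 → Ineq (P → ℝ) :=
  Sum.elim (fun s => (ContinuousLinearMap.proj s, 0))
    ![(twL (fun _ => ()) (), 1), (twL ty 1, c), (twL ty 2, c)]

open Classical in
/-- the arrangement -/
def arr : Finset (Ineq (P → ℝ)) :=
  Finset.univ.image (frm ty c) ∪ Finset.univ.image fun j => (-(frm ty c j).1, -(frm ty c j).2)

variable {ty c}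

theorem forall_arr {p : Ineq (P → ℝ) → Prop} :
    (∀ h ∈ arr ty c, p h) ↔ ∀ j, p (frm ty c j) ∧ p (-(frm ty c j).1, -(frm ty c j).2) := by
  simp only [arr, Finset.mem_union, Finset.mem_image, Finset.mem_univ, true_and]
  refine ⟨fun h j => ⟨h _ (Or.inl ⟨j, rfl⟩), h _ (Or.inr ⟨j, rfl⟩)⟩, ?_⟩
  rintro h _ (⟨j, rfl⟩ | ⟨j, rfl⟩)
  exacts [(h j).1, (h j).2]

theorem sym_arr : Arr.Sym (arr ty c) := by
  have := (forall_arr (ty := ty) (c := c) (p := fun h => h ∈ arr ty c)).1 fun _ h => h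
  exact forall_arr.2 fun j => ⟨(this j).2, by simpa using (this j).1⟩

theorem tw_unit (x : P → ℝ) : tw (fun _ => ()) () x = ∑ s, x s := by simp [tw]

theorem forall_frm {p : Ineq (P → ℝ) → Prop} : (∀ j, p (frm ty c j)) ↔
    (∀ s, p (ContinuousLinearMap.proj s, 0)) ∧ p (twL (fun _ => ()) (), 1) ∧ p (twL ty 1, c) ∧
      p (twL ty 2, c) := by
  rw [Sum.forall, Fin.forall_fin_succ, Fin.forall_fin_two]
  rfl

theorem tw_zero_iff {i : Fin 4} {x : P → ℝ} (h : IsWt x) : tw ty i x ≠ 0 ↔ Mt (Ty ty i) (sup x) := by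
  refine ⟨fun k => ?_, fun ⟨s, h1, h2⟩ => ?_⟩
  · obtain ⟨s, h1, h2⟩ := exists_of_tw_ne ty k
    exact ⟨s, (mem_sup h).2 h2, h1⟩
  · have := le_tw ty h.nonneg s
    rw [show ty s = i from h2] at this
    exact (((h.nonneg s).lt_of_ne' ((mem_sup h).1 h1)).trans_le this).ne'

theorem mem_cc {x y : P → ℝ} (hx : x ∈ Dc ty c) : y ∈ Arr.cc (arr ty c) x ↔
    y ∈ Dc ty c ∧ sup y ≤ sup x ∧ (tw ty 2 x = c → tw ty 2 y = c) := by
  obtain ⟨h0, h3, h1, h2⟩ := hx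
  refine (forall_arr.trans (forall_frm (p := fun h => (h.1 x ≤ h.2 → h.1 y ≤ h.2) ∧
    ((-h.1) x ≤ -h.2 → (-h.1) y ≤ -h.2)))).trans ?_
  simp only [neg_apply, neg_le_neg_iff, ContinuousLinearMap.proj_apply,
    twL_apply, tw_unit, h0.sum, h1, le_refl, true_imp_iff]
  constructor
  · rintro ⟨a, b, d, e⟩
    have z : ∀ s, x s = 0 → y s = 0 := fun s k => le_antisymm ((a s).1 k.le) ((a s).2 k.ge)
    have hy : IsWt y := IsWt.mk' h0.chain (fun s => (a s).2 (h0.nonneg s)) (le_antisymm b.1 b.2)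
      fun s hs k => hs (z s k)
    have l := (sup_le h0 hy).2 z
    exact ⟨⟨hy, by_contra fun n => (tw_zero_iff h0).2 (((tw_zero_iff hy).1 n).mono l) h3,
      le_antisymm d.1 d.2, e.1 h2⟩, l, fun k => le_antisymm (e.1 h2) (e.2 k.ge)⟩
  · rintro ⟨⟨hy, -, k1, k2⟩, l, e⟩
    exact ⟨fun s => ⟨fun k => ((sup_le h0 hy).1 l s (le_antisymm k (h0.nonneg s))).le,
      fun _ => hy.nonneg s⟩, ⟨hy.sum.le, hy.sum.ge⟩, ⟨k1.le, k1.ge⟩, fun _ => k2,
      fun k => (e (le_antisymm h2 k)).ge⟩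

theorem mem_dir {x v : P → ℝ} (hx : x ∈ Dc ty c) : v ∈ Arr.dir (arr ty c) x ↔
    (∀ s, x s = 0 → v s = 0) ∧ ∑ s, v s = 0 ∧ tw ty 1 v = 0 ∧ (tw ty 2 x = c → tw ty 2 v = 0) := by
  refine (forall_arr.trans (forall_frm (p := fun h => (h.1 x = h.2 → h.1 v = 0) ∧
    ((-h.1) x = -h.2 → (-h.1) v = 0)))).trans ?_
  simp only [neg_apply, neg_inj, neg_eq_zero, ContinuousLinearMap.proj_apply,
    twL_apply, tw_unit, hx.1.sum, hx.2.2.1, and_self, true_imp_iff]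

theorem det_arr : Arr.Det (arr ty c) (Dc ty c) := fun _ hx _ hy => ((mem_cc hx).1 hy).1

theorem isCompact_Dc : IsCompact (Dc ty c) :=
  isCompact_Wt.inter_right ((isClosed_eq (continuous_tw ty 3) continuous_const).inter
    ((isClosed_eq (continuous_tw ty 1) continuous_const).inter
      (isClosed_le (continuous_tw ty 2) continuous_const)))

theorem tw_single [DecidableEq P] {ι : Type} [DecidableEq ι] (ty : P → ι) (i : ι) (s : P) :
    tw ty i (Pi.single s 1) = if ty s = i then 1 else 0 := by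
  rw [tw, Finset.sum_eq_single s (fun t _ h => by simp [h]) (by simp)]
  simp

theorem Dc.mt0 (hc : c < 1 / 2) {x : P → ℝ} (hx : x ∈ Dc ty c) : Mt (Ty ty 0) (sup x) :=
  (tw_zero_iff hx.1).1 (ne_of_gt (by rw [tw_zero hx.1]; linarith [hx.2.1, hx.2.2.1, hx.2.2.2]))

theorem Dc.mt1 (h0 : 0 < c) {x : P → ℝ} (hx : x ∈ Dc ty c) : Mt (Ty ty 1) (sup x) :=
  (tw_zero_iff hx.1).1 (hx.2.2.1 ▸ h0.ne')

theorem finrank_dir (h0 : 0 < c) (hc : c < 1 / 2) {x : P → ℝ} (hx : x ∈ Dc ty c) :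
    finrank ℝ (Arr.dir (arr ty c) x) + 2 + (if tw ty 2 x = c then 1 else 0) = (sup x).1.card := by
  classical
  obtain ⟨a, ha, ta⟩ := Dc.mt0 hc hx
  obtain ⟨u, hu, tu⟩ := Dc.mt1 h0 hx
  have ta : ty a = 0 := ta
  have tu : ty u = 1 := tu
  let V := Pi.spanSubset ℝ ((sup x).1 : Set P)
  have hV : ∀ v, v ∈ V ↔ ∀ s, x s = 0 → v s = 0 := fun v => Pi.mem_spanSubset_iff.trans
    (forall_congr' fun s => by rw [Finset.mem_coe, mem_sup hx.1, not_not])
  have e0 : finrank ℝ V = (sup x).1.card := by rw [Pi.dim_spanSubset, Set.ncard_coe_finset]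
  have sg : ∀ s ∈ (sup x).1, (Pi.single s 1 : P → ℝ) ∈ V := fun s hs => (hV _).2 fun t ht =>
    Pi.single_eq_of_ne (fun e : t = s => (mem_sup hx.1).1 hs (e ▸ ht)) _
  let f0 := (twL (fun _ : P => ()) ()).toLinearMap
  have df : ∀ s ∈ (sup x).1, (Pi.single s 1 - Pi.single a 1 : P → ℝ) ∈ V ⊓ LinearMap.ker f0 :=
    fun s hs => ⟨V.sub_mem (sg s hs) (sg a ha), by simp [f0, tw_sub, tw_single]⟩
  have e1 := finrank_inf_ker V f0 (sg a ha) (by simp [f0, tw_single])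
  have e2 := finrank_inf_ker _ (twL ty 1).toLinearMap (df u hu) (by simp [tw_sub, tw_single, ta, tu])
  split_ifs with h
  · obtain ⟨l, hl, tl⟩ := (tw_zero_iff hx.1).1 (h ▸ h0.ne' : tw ty 2 x ≠ 0)
    have tl : ty l = 2 := tl
    have e3 := finrank_inf_ker ((V ⊓ LinearMap.ker f0) ⊓ LinearMap.ker (twL ty 1).toLinearMap)
      (twL ty 2).toLinearMap (v := Pi.single l 1 - Pi.single a 1)
      ⟨df l hl, by simp [tw_sub, tw_single, ta, tl]⟩ (by simp [tw_sub, tw_single, ta, tl])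
    have : Arr.dir (arr ty c) x = ((V ⊓ LinearMap.ker f0) ⊓ LinearMap.ker (twL ty 1).toLinearMap) ⊓
        LinearMap.ker (twL ty 2).toLinearMap := by
      ext v
      simp [mem_dir hx, hV, f0, tw_unit, h, and_assoc]
    rw [this]
    omega
  · have : Arr.dir (arr ty c) x = (V ⊓ LinearMap.ker f0) ⊓ LinearMap.ker (twL ty 1).toLinearMap := by
      ext v
      simp [mem_dir hx, hV, f0, tw_unit, h, and_assoc]
    rw [this]
    omega

theorem exists_pt (e : Ch P) {α : Fin 4 → ℝ} (h1 : ∀ i, Mt (Ty ty i) e → 0 < α i)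
    (h0 : ∀ i, ¬ Mt (Ty ty i) e → α i = 0) (hs : ∑ i, α i = 1) :
    ∃ x, IsWt x ∧ sup x = e ∧ ∀ i, tw ty i x = α i := by
  classical
  let u : P → ℝ := fun s => if s ∈ e.1 then 1 else 0
  have u0 : ∀ s, 0 ≤ u s := fun s => by simp only [u]; split_ifs <;> norm_num
  have np : ∀ s ∈ e.1, 0 < tw ty (ty s) u := fun s hs =>
    lt_of_lt_of_le (by simp [u, hs]) (le_tw ty u0 s)
  let x : P → ℝ := fun s => α (ty s) / tw ty (ty s) u * u s
  have xp : ∀ s ∈ e.1, 0 < x s := fun s hs =>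
    mul_pos (div_pos (h1 _ ⟨s, hs, rfl⟩) (np s hs)) (by simp [u, hs])
  have xz : ∀ s ∉ e.1, x s = 0 := fun s hs => by simp [x, u, hs]
  have t : ∀ i, tw ty i x = α i := fun i => by
    rw [tw_congr ty (μ := (α i / tw ty i u) • u) fun s hs => by simp [x, hs], tw_smul]
    by_cases h : Mt (Ty ty i) e
    · obtain ⟨s, hs, rfl⟩ := h
      exact div_mul_cancel₀ _ (np s hs).ne'
    · simp [h0 i h]
  have hx : IsWt x := IsWt.mk' e.2.2
    (fun s => (em (s ∈ e.1)).elim (fun h => (xp s h).le) fun h => (xz s h).ge)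
    (by rw [← sum_tw ty]; simp only [t, hs]) fun s hs => by_contra fun n => hs (xz s n)
  refine ⟨x, hx, Ch.ext (Finset.ext fun s => (mem_sup hx).trans ?_), t⟩
  exact ⟨fun h => by_contra fun n => h (xz s n), fun h => (xp s h).ne'⟩

/-- the standing hypotheses -/
structure Hyp (ty : P → Fin 4) (c : ℝ) : Prop where
  pos : 0 < c
  lt : c < 1 / 2
  mf : Mf 3 (Ty ty 0)
  junk : ∀ a s, ty a = 0 → Cm a s → ty s ≠ 3

theorem Hyp.exists_mem (H : Hyp ty c) {e : Ch P} (m0 : Mt (Ty ty 0) e) (m1 : Mt (Ty ty 1) e)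
    {t : ℝ} (ht : t ≤ c) (t1 : Mt (Ty ty 2) e → 0 < t) (t0 : ¬ Mt (Ty ty 2) e → t = 0) :
    ∃ x ∈ Dc ty c, sup x = e ∧ tw ty 2 x = t := by
  obtain ⟨x, h1, h2, h3⟩ := exists_pt (ty := ty) e (α := ![1 - c - t, c, t, 0]) (fun i hi => by
    fin_cases i
    · show 0 < 1 - c - t
      linarith [H.lt]
    · exact H.pos
    · exact t1 hi
    · obtain ⟨a, ha, ta⟩ := m0
      obtain ⟨s, hs, ts⟩ := hi
      exact absurd ts (H.junk a s ta (e.cm ha hs))) (fun i hi => by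
    fin_cases i
    exacts [absurd m0 hi, absurd m1 hi, t0 hi, rfl]) (by simp [Fin.sum_univ_four]; ring)
  exact ⟨x, ⟨h1, h3 3, h3 1, (h3 2).le.trans ht⟩, h2, h3 2⟩

theorem Hyp.exists_lt (H : Hyp ty c) {e : Ch P} (m0 : Mt (Ty ty 0) e) (m1 : Mt (Ty ty 1) e) :
    ∃ x ∈ Dc ty c, sup x = e ∧ tw ty 2 x ≠ c := by
  have := H.pos
  by_cases h : Mt (Ty ty 2) e
  · obtain ⟨x, h1, h2, h3⟩ := H.exists_mem m0 m1 (t := c / 2) (by linarith) (fun _ => by linarith)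
      fun n => absurd h n
    exact ⟨x, h1, h2, by rw [h3]; linarith⟩
  · obtain ⟨x, h1, h2, h3⟩ := H.exists_mem m0 m1 this.le (fun n => absurd n h) fun _ => rfl
    exact ⟨x, h1, h2, by rw [h3]; exact this.ne⟩

/-- the cells -/
abbrev Cl (ty : P → Fin 4) (c : ℝ) : Type := Arr.Cell (arr ty c) (Dc ty c)

namespace Cl

/-- the chain of a cell -/
def ch (q : Cl ty c) : Ch P := sup (Arr.pt q)

/-- the cell is in the boundary -/
def tt (q : Cl ty c) : Prop := tw ty 2 (Arr.pt q) = c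

theorem mem {q : Cl ty c} {y : P → ℝ} :
    y ∈ q.1 ↔ y ∈ Dc ty c ∧ sup y ≤ q.ch ∧ (q.tt → tw ty 2 y = c) := by
  rw [Arr.val_eq]; exact mem_cc (Arr.pt_mem q)

theorem le_iff {q r : Cl ty c} : q ≤ r ↔ q.ch ≤ r.ch ∧ (r.tt → q.tt) := by
  refine ⟨fun h => (mem.1 (h (Arr.val_eq q ▸ Arr.self_cc _))).2, fun h y hy => ?_⟩
  obtain ⟨h1, h2, h3⟩ := mem.1 hy
  exact mem.2 ⟨h1, h2.trans h.1, fun k => h3 (h.2 k)⟩

theorem ext {q r : Cl ty c} (h : q.ch = r.ch) (k : q.tt ↔ r.tt) : q = r :=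
  le_antisymm (le_iff.2 ⟨h.le, k.2⟩) (le_iff.2 ⟨h.ge, k.1⟩)

theorem of_pt {x : P → ℝ} (hx : x ∈ Dc ty c) :
    ∃ q : Cl ty c, q.ch = sup x ∧ (q.tt ↔ tw ty 2 x = c) := by
  have h := Arr.pt_mk (A := arr ty c) hx
  have h1 := (mem_cc hx).1 (Arr.oc_sub _ h)
  have h2 := (mem_cc h1.1).1 (Arr.oc_sub _ (Arr.oc_symm h))
  exact ⟨Arr.mk _ hx, le_antisymm h1.2.1 h2.2.1, h2.2.2, h1.2.2⟩

end Cl

namespace Hyp

variable (H : Hyp ty c)
include H

theorem mt0 (q : Cl ty c) : Mt (Ty ty 0) q.ch := Dc.mt0 H.lt (Arr.pt_mem q)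

theorem mt1 (q : Cl ty c) : Mt (Ty ty 1) q.ch := Dc.mt1 H.pos (Arr.pt_mem q)

theorem mt2 {q : Cl ty c} (h : q.tt) : Mt (Ty ty 2) q.ch :=
  (tw_zero_iff (Arr.pt_mem q).1).1 (by rw [h]; exact H.pos.ne')

theorem dmF {q : Cl ty c} (h : ¬ q.tt) : Arr.dm q + 2 = q.ch.1.card := by
  have := finrank_dir H.pos H.lt (Arr.pt_mem q)
  rwa [if_neg (show ¬ tw ty 2 (Arr.pt q) = c from h)] at this

theorem dmT {q : Cl ty c} (h : q.tt) : Arr.dm q + 3 = q.ch.1.card := by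
  have := finrank_dir H.pos H.lt (Arr.pt_mem q)
  rwa [if_pos (show tw ty 2 (Arr.pt q) = c from h)] at this

theorem le4 (q : Cl ty c) : q.ch.1.card ≤ 4 := H.mf.card_le _ (H.mt0 q)

theorem exF {q : Cl ty c} {e : Ch P} (h : q.ch ≤ e) : ∃ r : Cl ty c, r.ch = e ∧ ¬ r.tt := by
  obtain ⟨x, h1, h2, h3⟩ := H.exists_lt ((H.mt0 q).mono h) ((H.mt1 q).mono h)
  obtain ⟨r, k1, k2⟩ := Cl.of_pt h1
  exact ⟨r, k1.trans h2, fun k => h3 (k2.1 k)⟩

theorem exT {q : Cl ty c} (t : q.tt) {e : Ch P} (h : q.ch ≤ e) : ∃ r : Cl ty c, r.ch = e ∧ r.tt := by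
  have m := (H.mt2 t).mono h
  obtain ⟨x, h1, h2, h3⟩ := H.exists_mem ((H.mt0 q).mono h) ((H.mt1 q).mono h) le_rfl
    (fun _ => H.pos) fun n => absurd m n
  obtain ⟨r, k1, k2⟩ := Cl.of_pt h1
  exact ⟨r, k1.trans h2, k2.2 h3⟩

theorem face {f : Cl ty c} : Arr.dm f = 2 ↔ ¬ f.tt ∧ f.ch.1.card = 4 := by
  have := H.le4 f
  by_cases t : f.tt
  · have := H.dmT t
    exact iff_of_false (by omega) fun h => h.1 t
  · have := H.dmF t
    exact ⟨fun h => ⟨t, by omega⟩, fun h => by omega⟩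

theorem cx : Cplx (Dc ty c) (Cl ty c) Arr.dm fun q => q.1 :=
  Arr.cplx sym_arr det_arr isCompact_Dc.isBounded

theorem le2 (q : Cl ty c) : Arr.dm q ≤ 2 := by
  have := H.le4 q
  by_cases t : q.tt
  · have := H.dmT t
    omega
  · have := H.dmF t
    omega

theorem coface {e f : Cl ty c} (he : Arr.dm e = 1) (h : e < f) : ¬ f.tt ∧ f.ch.1.card = 4 := by
  have := H.cx.mono _ _ h
  have := H.le2 f
  exact H.face.1 (by omega)

theorem uniq {e f f' : Cl ty c} (he : Arr.dm e = 1) (t : e.tt) (h : e < f) (h' : e < f') :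
    f' = f := by
  have k := H.dmT t
  have : ∀ g, e < g → e.ch = g.ch := fun g hg => Ch.ext (Finset.eq_of_subset_of_card_le
    (Cl.le_iff.1 hg.le).1 (by rw [(H.coface he hg).2]; omega))
  exact Cl.ext ((this _ h').symm.trans (this _ h))
    (iff_of_false (H.coface he h').1 (H.coface he h).1)

theorem ch_lt {e f : Cl ty c} (t : ¬ e.tt) (h : e < f) : e.ch < f.ch :=
  (Cl.le_iff.1 h.le).1.lt_of_ne fun k =>
    h.ne (Cl.ext k (iff_of_false t fun n => t ((Cl.le_iff.1 h.le).2 n)))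

theorem lt_of {e f : Cl ty c} (t : ¬ f.tt) (h : e.ch < f.ch) : e < f :=
  (Cl.le_iff.2 ⟨h.le, fun n => absurd n t⟩).lt_of_ne fun k => h.ne (k ▸ rfl)

/-- **the level surface is a surface complex** -/
theorem sc : SC (Dc ty c) (dDc ty c) (Cl ty c) Arr.dm fun q => q.1 where
  cx := H.cx
  le2 := H.le2
  pure q := by
    obtain ⟨e, h1, h2⟩ := H.mf.pure _ (H.mt0 q)
    obtain ⟨r, rfl, k⟩ := H.exF h1
    exact ⟨r, H.face.2 ⟨k, h2⟩, Cl.le_iff.2 ⟨h1, fun n => absurd n k⟩⟩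
  two e f₁ f₂ f₃ he h₁ h₂ h₃ := by
    by_cases t : e.tt
    · exact Or.inl (H.uniq he t h₂ h₁)
    have k := H.dmF t
    have a₁ := (H.coface he h₁).1
    have a₂ := (H.coface he h₂).1
    have a₃ := (H.coface he h₃).1
    exact (Alg36.Mf.two H.mf (H.mt0 e) (by omega) (H.ch_lt t h₁) (H.ch_lt t h₂) (H.ch_lt t h₃)).imp
      (fun k => Cl.ext k (iff_of_false a₁ a₂)) (Or.imp (fun k => Cl.ext k (iff_of_false a₁ a₃))
        fun k => Cl.ext k (iff_of_false a₂ a₃))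
  bd x := by
    constructor
    · rintro ⟨hx, h⟩
      obtain ⟨q, q1, q2⟩ := Cl.of_pt hx
      obtain ⟨d, h1, h2⟩ := H.mf.pure _ (H.mt0 q)
      obtain ⟨e, rfl, t⟩ := H.exT (q2.2 h) h1
      obtain ⟨f, f1, f2⟩ := H.exF (q := e) le_rfl
      have k := H.dmT t
      have l : e < f := (Cl.le_iff.2 ⟨f1.ge, fun n => absurd n f2⟩).lt_of_ne fun n => f2 (n ▸ t)
      exact ⟨e, f, by omega, Cl.mem.2 ⟨hx, q1 ▸ h1, fun _ => h⟩, l,
        fun f' l' => H.uniq (by omega) t l l'⟩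
    · rintro ⟨e, f, he, hx, -, hu⟩
      refine ⟨(Cl.mem.1 hx).1, (Cl.mem.1 hx).2.2 (by_contra fun t => ?_)⟩
      have k := H.dmF t
      obtain ⟨a, ha, b, hb, hab⟩ := Finset.one_lt_card.1
        (lt_of_lt_of_eq one_lt_two (Alg36.Mf.card_two H.mf (H.mt0 e) (by omega)).symm)
      simp only [Finset.mem_filter, Finset.mem_univ, true_and] at ha hb
      obtain ⟨a, rfl, a2⟩ := H.exF ha.le
      obtain ⟨b, rfl, b2⟩ := H.exF hb.le
      exact hab (by rw [hu a (H.lt_of a2 ha), hu b (H.lt_of b2 hb)])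
  link v col hv hc f f' hf hf' h h' := by
    obtain ⟨t1, c1⟩ := H.face.1 hf
    obtain ⟨t2, c2⟩ := H.face.1 hf'
    have up : ∀ {e g : Cl ty c}, ¬ g.tt → g.ch.1.card = 4 → e.ch.1.card = 3 → e.ch ≤ g.ch → e < g :=
      fun a b d l => H.lt_of a (l.lt_of_ne fun n => by rw [n] at d; omega)
    by_cases t : v.tt
    · have k := H.dmT t
      obtain ⟨e, e1, e2⟩ := H.exF (q := v) le_rfl
      exact hc e f f' ((Cl.le_iff.2 ⟨e1.ge, fun n => absurd n e2⟩).lt_of_ne fun n => e2 (n ▸ t))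
        (up t1 c1 (by rw [e1]; omega) (e1 ▸ (Cl.le_iff.1 h.le).1))
        (up t2 c2 (by rw [e1]; omega) (e1 ▸ (Cl.le_iff.1 h'.le).1))
    have k := H.dmF t
    refine (H.mf.conn _ (H.mt0 v) (by omega) _ (H.ch_lt t h) _ (H.ch_lt t h')).ind
      (p := fun d => ∀ g : Cl ty c, ¬ g.tt → g.ch.1.card = 4 → d ≤ g.ch → (col f ↔ col g))
      (fun g a b l => ?_) (fun d hd d' hd' l => ⟨fun p g a b m => p g a b (l.trans m), ?_⟩)
      f' t2 c2 le_rfl
    · rw [Cl.ext (Ch.ext (Finset.eq_of_subset_of_card_le l (by omega))) (iff_of_false t1 a)]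
    · intro p g a b m
      rcases l.eq_or_lt with rfl | l
      · exact p g a b m
      obtain ⟨e, rfl, e2⟩ := H.exF (le_of_lt hd)
      obtain ⟨g', rfl, g2⟩ := H.exF (le_of_lt hd')
      have n1 := Ch.card_lt hd
      have n2 := Ch.card_lt l
      have n3 := H.le4 g'
      exact (p g' g2 (by omega) le_rfl).trans
        (hc e g' g (H.lt_of e2 hd) (H.lt_of g2 l) (up a b (by omega) m))

/-- the decomposition by supports -/
theorem cel : Nonempty (St29.Cel (Dc ty c) {e | Mt (Ty ty 0) e ∧ Mt (Ty ty 1) e}) := by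
  have : ∀ e : Ch P, ∃ x, Mt (Ty ty 0) e ∧ Mt (Ty ty 1) e → x ∈ Dc ty c ∧ sup x = e := fun e => by
    by_cases h : Mt (Ty ty 0) e ∧ Mt (Ty ty 1) e
    · exact (H.exists_lt h.1 h.2).imp fun _ k _ => ⟨k.1, k.2.1⟩
    · exact ⟨0, fun k => absurd k h⟩
  choose x hx using this
  refine ⟨⟨sup, x, fun p hp => ⟨Dc.mt0 H.lt hp, Dc.mt1 H.pos hp⟩, fun p hp => ?_,
    fun e he => (hx e he).1, fun e he => (hx e he).2, fun e he p hp a b ha hb hab => ?_⟩⟩
  · have : ∀ᶠ q in 𝓝 p, ∀ s ∈ (sup p).1, q s ≠ 0 := (Finset.eventually_all _).2 fun s hs =>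
      (continuous_apply s).continuousAt.eventually_ne ((mem_sup hp.1).1 hs)
    filter_upwards [mem_nhdsWithin_of_mem_nhds this, self_mem_nhdsWithin] with q h1 h2 s hs
      using (mem_sup h2.1).2 (h1 s hs)
  · obtain ⟨h1, h2⟩ := hx e he
    obtain ⟨q, hq, q1, q2⟩ := H.exists_lt (Dc.mt0 H.lt hp.1) (Dc.mt1 H.pos hp.1)
    have m := ((mem_cc hq).1 (Arr.convex_cc q
      ((mem_cc hq).2 ⟨h1, by rw [h2, q1]; exact hp.2, fun k => absurd k q2⟩)
      ((mem_cc hq).2 ⟨hp.1, q1.ge, fun k => absurd k q2⟩) ha hb hab)).1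
    refine ⟨m, fun s hs => (mem_sup m.1).2 (ne_of_gt ?_)⟩
    have k1 := (h1.1.nonneg s).lt_of_ne' ((mem_sup h1.1).1 (h2.symm ▸ hs))
    have k2 := (hp.1.1.nonneg s).lt_of_ne' ((mem_sup hp.1.1).1 (hp.2 hs))
    show 0 < a * x e s + b * p s
    rcases ha.eq_or_lt with rfl | ha
    · rw [show b = 1 by linarith]; linarith
    · have := mul_pos ha k1
      have := mul_nonneg hb k2.le
      linarith

theorem h1 (h : ∀ w : Ch P → Ch P → ZMod 2, CocOn {e | Mt (Ty ty 0) e ∧ Mt (Ty ty 1) e} w →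
    ExOn {e | Mt (Ty ty 0) e ∧ Mt (Ty ty 1) e} w) : H1 (Dc ty c) :=
  H.cel.elim fun K => Tw9.h1_of_h1c (K.h1 h)

theorem pre (h : Conn {e | Mt (Ty ty 0) e ∧ Mt (Ty ty 1) e}) : IsPreconnected (Dc ty c) :=
  H.cel.elim fun K => K.pre h

theorem bd_ne {e : Ch P} (m0 : Mt (Ty ty 0) e) (m1 : Mt (Ty ty 1) e) (m2 : Mt (Ty ty 2) e) :
    (dDc ty c).Nonempty :=
  let ⟨x, h1, _, h3⟩ := H.exists_mem m0 m1 le_rfl (fun _ => H.pos) fun n => absurd m2 n
  ⟨x, h1, h3⟩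

end Hyp

end Crest.Agent.X212.Sm10
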