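import Crest.Agent.X212.Kh11.Beat

/-!
# X212 / Sm10 (helper10): the combinatorial conditions at the start of the hierarchy
-/

set_option autoImplicit false
set_option linter.unusedSectionVars false

open Crest.Agent.X212.Hp13 Crest.Agent.X212.Kh11 Classical

noncomputable section

namespace Crest.Agent.X212.Sm10

variable {P : Type} [PartialOrder P] [Fintype P]

variable (P) in
/-- every cocycle is exact -/
def H1 : Prop :=
  ∀ (G : Type) [AddCommGroup G] (z : P → P → G), CocOn Set.univ z → ExOn Set.univ z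

theorem H1.ce {Q : Type} [PartialOrder Q] [Fintype Q] {f : Q → P} (hf : CE f) (h : H1 P) : H1 Q := by
  intro G _ z hz
  obtain ⟨w, h1, g, hg⟩ := (hf.ws_pre Set.univ).onto hz
  obtain ⟨g', hg'⟩ := (hf.ws_pre Set.univ).ex_pb (h G w h1)
  refine ⟨g + g', fun x hx y hy e => ?_⟩
  have := hg x hx y hy e
  rw [Pi.sub_apply, Pi.sub_apply, hg' x hx y hy e] at this
  rw [eq_add_of_sub_eq this, Pi.add_apply, Pi.add_apply]
  abel

theorem H1.ch (h : H1 P) : H1 (Ch P) := h.ce ce_top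

theorem H1.desc {s t : St} {f : t.P → s.P} (hf : Desc s t f) (h : H1 s.P) : H1 t.P := h.ce hf.ce

/-- closed surfaces bound when the complement is connected along the region -/
theorem bnd_upper (h : H1 P) {A : Set P} (hA : IsUpperSet A)
    (hc : ∀ x ∉ A, ∀ y ∉ A, (∃ a ∈ A, x ≤ a) → (∃ a ∈ A, y ≤ a) → Hp13.Rch Aᶜ x y) (G : Type)
    [AddCommGroup G] : Bnd G A := by
  intro z hz h0
  obtain ⟨g, hg⟩ := h G (fun x y => if y ∈ A then z x y else 0) fun x _ y _ w _ e1 e2 => by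
    by_cases k : w ∈ A
    · have := hz w k x y w e1 e2 (Or.inr (e1.trans e2)) (Or.inr e2) (Or.inl le_rfl)
      by_cases k' : y ∈ A
      · simpa [k, k'] using this
      · rw [h0 x y ⟨e1, w, k, Or.inr (e1.trans e2), Or.inr e2⟩ (fun m => k' (hA e1 m)) k'] at this
        simpa [k, k'] using this
    · simp [k, show y ∉ A from fun m => k (hA e2 m)]
  obtain ⟨v, hv⟩ : ∃ v, ∀ x ∉ A, (∃ a ∈ A, x ≤ a) → g x = v := by
    by_cases e : ∃ y ∉ A, ∃ a ∈ A, y ≤ a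
    · obtain ⟨y, y1, y2⟩ := e
      refine ⟨g y, fun x x1 x2 => (hc x x1 y y1 x2 y2).eq fun a _ b hb e => ?_⟩
      have := hg a trivial b trivial e
      simp only [if_neg hb] at this
      exact (sub_eq_zero.1 this.symm).symm
    · exact ⟨0, fun x x1 x2 => (e ⟨x, x1, x2⟩).elim⟩
  refine ⟨fun x => if x ∈ A then g x - v else 0, fun x hx => if_neg hx, fun x y hd => ?_⟩
  have e : ∀ x, (∃ a ∈ A, Cm a x) → (if x ∈ A then g x - v else 0) = g x - v := fun x ⟨a, a1, a2⟩ => by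
    split_ifs with k
    · rfl
    · rw [hv x k ⟨a, a1, a2.resolve_left fun m => k (hA m a1)⟩, sub_self]
  obtain ⟨e1, a, a1, a2, a3⟩ := id hd
  have := hg x trivial y trivial e1
  simp only [Pi.add_apply, Pi.zero_apply, zero_add, cb, e x ⟨a, a1, a2⟩, e y ⟨a, a1, a3⟩,
    sub_sub_sub_cancel_right, ← this]
  split_ifs with k
  · rfl
  · exact h0 x y hd (fun m => k (hA e1 m)) k

theorem upper_mt (A : Set P) : IsUpperSet {c : Ch P | Mt A c} := fun _ _ e h => Mt.mono h e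

theorem sctr_ins {D : Set (Ch P)} {m : P} (h1 : ∀ a ∈ D, ∀ y ∈ a.1, Cm m y)
    (h2 : ∀ a ∈ D, ∀ k, a.ins m k ∈ D) {b : Ch P} (hb : b ∈ D) (hm : m ∈ b.1)
    (h3 : ∀ a ∈ D, m ∈ a.1 → b ≤ a) : Hp13.Ctr D := by
  have w : WS {a | a ∈ D ∧ m ∈ a.1} D id := by
    refine WS.of_clo (r := fun a => if h : a ∈ D then a.ins m (h1 a h) else a) (fun _ h => h.1)
      (fun a h => ?_) fun a h b hb e => ?_
    · rw [dif_pos h]
      exact ⟨⟨h2 a h _, Finset.mem_insert_self _ _⟩, Finset.subset_insert _ _⟩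
    · rw [dif_pos h]
      exact Finset.insert_subset hb.2 e
  exact w.ctr_iff.1 (sctr_min (m := b) ⟨hb, hm⟩ fun a h => h3 a h.1 h.2)

/-- the chains meeting a full lower set form a nice region -/
theorem nice_mt {A : Set P} (hA : IsLowerSet A)
    (hm : ∀ s ∉ A, (∃ a ∈ A, a ≤ s) → ∃ m ∈ A, m ≤ s ∧ ∀ a ∈ A, a ≤ s → a ≤ m) :
    Nice {c : Ch P | Mt A c} := by
  rintro c ⟨a0, a1, a2⟩ hn
  have nc : ∀ x ∈ c.1, ¬ Mt A x := fun x hx k => hn ⟨x, hx, k⟩
  have e : {a | a ∈ {c : Ch P | Mt A c} ∧ ∀ x ∈ c.1, Cm a x} = {a | Mt A a ∧ c.top ≤ a} :=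
    Set.ext fun a => and_congr_right fun h => ⟨fun k => (k _ c.top_mem).resolve_left
      fun m => nc _ c.top_mem (Mt.mono h m), fun k x hx => Or.inr ((Ch.le_top hx).trans k)⟩
  have h0 : a0 ∈ {a | Mt A a ∧ c.top ≤ a} := e ▸ ⟨a1, a2⟩
  rw [e]
  have nT : ∀ x ∈ c.top.1, x ∉ A := fun x hx k => nc _ c.top_mem ⟨x, hx, k⟩
  generalize c.top = T at h0 nT
  have lo : ∀ a : Ch P, T ≤ a → ∀ y ∈ a.1, y ∈ A → y ≤ T.bot := fun a h y hy k =>
    (a.total hy (h T.bot_mem)).resolve_right fun m => nT _ T.bot_mem (hA m k)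
  obtain ⟨m, m1, m2, m3⟩ := hm _ (nT _ T.bot_mem)
    (let ⟨y, y1, y2⟩ := h0.1; ⟨y, y2, lo _ h0.2 y y1 y2⟩)
  have w1 : WS {a | (Mt A a ∧ T ≤ a) ∧ ∀ y ∈ a.1, y ∈ T.1 ∨ y ∈ A} {a | Mt A a ∧ T ≤ a} id := by
    refine WS.of_int (r := fun a => if h : T ≤ a then a.sub (a.1.filter fun y => y ∈ T.1 ∨ y ∈ A)
      ⟨_, Finset.mem_filter.2 ⟨h T.bot_mem, Or.inl T.bot_mem⟩⟩ (Finset.filter_subset _ _) else a)
      (fun _ h => h.1) (fun a ⟨⟨y, y1, y2⟩, h⟩ => ?_) fun a h b hb e => ?_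
    · rw [dif_pos h]
      exact ⟨⟨⟨⟨y, Finset.mem_filter.2 ⟨y1, Or.inr y2⟩, y2⟩, fun t ht =>
        Finset.mem_filter.2 ⟨h ht, Or.inl ht⟩⟩, fun t ht => (Finset.mem_filter.1 ht).2⟩,
        Finset.filter_subset _ _⟩
    · rw [dif_pos h.2]
      exact fun t ht => Finset.mem_filter.2 ⟨e ht, hb.2 t ht⟩
  refine w1.ctr_iff.1 (sctr_ins (m := m) (fun a h y hy => Or.symm ?_) (fun a h k => ?_)
    (b := T.ins m fun y hy => Or.inl (m2.trans (Ch.bot_le hy))) ?_ (Finset.mem_insert_self _ _)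
    fun a h k => Finset.insert_subset k h.1.2)
  · exact (h.2 y hy).elim (fun k => Or.inr (m2.trans (Ch.bot_le k)))
      fun k => Or.inl (m3 y k (lo a h.1.2 y hy k))
  · refine ⟨⟨⟨m, Finset.mem_insert_self _ _, m1⟩, h.1.2.trans (Finset.subset_insert _ _)⟩,
      fun y hy => ?_⟩
    rcases Finset.mem_insert.1 hy with rfl | hy
    exacts [Or.inr m1, h.2 y hy]
  · refine ⟨⟨⟨m, Finset.mem_insert_self _ _, m1⟩, Finset.subset_insert _ _⟩, fun y hy => ?_⟩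
    rcases Finset.mem_insert.1 hy with rfl | hy
    exacts [Or.inr m1, Or.inl hy]

/-- the chains inside `W` form a full lower set -/
theorem nice_slice (W : Set P) : Nice {C : Ch (Ch P) | Mt {c : Ch P | ↑c.1 ⊆ W} C} := by
  refine nice_mt (fun _ _ e h => (Finset.coe_subset.2 e).trans h) fun s _ ⟨a, a1, a2⟩ =>
    ⟨s.sub (s.1.filter (· ∈ W)) ⟨_, Finset.mem_filter.2 ⟨a2 a.top_mem, a1 a.top_mem⟩⟩
      (Finset.filter_subset _ _), fun x hx => (Finset.mem_filter.1 hx).2, Finset.filter_subset _ _,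
      fun b b1 b2 x hx => Finset.mem_filter.2 ⟨b2 hx, b1 hx⟩⟩

end Crest.Agent.X212.Sm10
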