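import Crest.Agent.X212.Sm10.Der

/-!
# X212 / Sm10 (helper10): the cubical grid

`Fe N` = cells of the subdivided interval (even = vertex, odd = edge), `ι → Fe N` = cells of the
cubical grid, `cube N h` its realisation with mesh `h` on the cube `|p i| ≤ N h`.
-/

set_option autoImplicit false
set_option linter.unusedSectionVars false

open Set Filter Topology Function

noncomputable section

namespace Crest.Agent.X212.Sm10

section pi

variable {ι Q : Type*} [Fintype ι] [DecidableEq ι] [Nonempty ι] [PartialOrder Q] [Fintype Q]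
  [DecidableEq Q]

/-- the marginals -/
def mrg (s : ι → Q) : ι → Q → ℝ := fun i => Pi.single (s i) 1

theorem cmb_mrg (m : (ι → Q) → ℝ) (i : ι) : cmb mrg m i = cmb (fun s => mrg s i) m :=
  map_cmb (LinearMap.proj (R := ℝ) (φ := fun _ : ι => Q → ℝ) i) mrg m

theorem mrg_nonneg (i : ι) (s : ι → Q) (q : Q) : 0 ≤ mrg s i q := (single_mem (s i)).nonneg q

theorem mrg_ne {m : (ι → Q) → ℝ} (hm : IsW0 m) {i : ι} {q : Q} :
    cmb mrg m i q ≠ 0 ↔ ∃ s, m s ≠ 0 ∧ s i = q := by
  rw [cmb_mrg, mem_support_cmb (mrg_nonneg i) hm]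
  refine exists_congr fun s => and_congr_right fun _ => ?_
  by_cases h : q = s i
  · simp [mrg, h]
  · simp [mrg, h, Ne.symm h]

theorem sum_mrg (m : (ι → Q) → ℝ) (i : ι) : ∑ q, cmb mrg m i q = ∑ s, m s := by
  rw [cmb_mrg]
  exact sum_cmb (fun s : ι → Q => single_mem (s i)) m

theorem bij_pi : BijOn (cmb mrg) (Wt (ι → Q)) {l : ι → Q → ℝ | ∀ i, l i ∈ Wt Q} := by
  classical
  refine ⟨fun m hm i => ⟨⟨fun q => ?_, fun q hq r hr _ => ?_⟩, (sum_mrg m i).trans hm.sum⟩,
    fun m hm n hn h => ?_, fun l hl => ?_⟩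
  · rw [cmb_mrg, cmb_pi]
    exact Finset.sum_nonneg fun d _ => mul_nonneg (hm.nonneg d) (mrg_nonneg i d q)
  · obtain ⟨s, s1, rfl⟩ := (mrg_ne hm.toIsW0).1 hq
    obtain ⟨t, t1, rfl⟩ := (mrg_ne hm.toIsW0).1 hr
    exact (hm.chain.total (show s ∈ support m from s1) (show t ∈ support m from t1)).imp
      (fun h => h i) fun h => h i
  · refine peel_inj mrg (fun m hm h => ?_) (fun m n c d hm hn h c1 c2 d1 d2 => ?_) m n hm.toIsW0
      hn.toIsW0 h
    · funext s
      by_contra z
      obtain ⟨i⟩ := ‹Nonempty ι›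
      exact (mrg_ne hm (i := i)).2 ⟨s, z, rfl⟩ (by rw [h]; rfl)
    · obtain rfl : c = d := funext fun i => by
        obtain ⟨s, s1, s2⟩ := (mrg_ne hn).1 (h ▸ (mrg_ne hm (i := i)).2 ⟨c, c1, rfl⟩)
        obtain ⟨t, t1, t2⟩ := (mrg_ne hm).1 (h ▸ (mrg_ne hn (i := i)).2 ⟨d, d1, rfl⟩)
        exact le_antisymm (s2 ▸ d2 s s1 i) (t2 ▸ c2 t t1 i)
      refine ⟨rfl, ?_⟩
      obtain ⟨i, hi⟩ : ∃ i, cmb mrg (update n c 0) i (c i) = 0 := by
        by_cases z : update n c 0 = 0
        · obtain ⟨i⟩ := ‹Nonempty ι›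
          exact ⟨i, by simp [z]⟩
        obtain ⟨d, k1, k2⟩ := (hn.update c).top z
        have dc : d ≠ c := fun e => by simp [e] at k1
        obtain ⟨i, hi⟩ := ne_iff.1 dc
        refine ⟨i, not_not.1 fun k => ?_⟩
        obtain ⟨s, s1, s2⟩ := (mrg_ne (hn.update c)).1 k
        exact hi (le_antisymm (d2 d (by simpa [dc] using k1) i) (s2 ▸ k2 s s1 i))
      have := le_cmb (mrg_nonneg i) hm c (c i)
      rw [← cmb_mrg, h, eq_update_add n c, map_add, cmb_single, Pi.add_apply, Pi.add_apply, hi] at this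
      simpa [mrg] using this
  · suffices h : ∃ m, IsW0 m ∧ cmb mrg m = l by
      obtain ⟨m, m1, m2⟩ := h
      obtain ⟨i⟩ := ‹Nonempty ι›
      exact ⟨m, ⟨m1, by rw [← sum_mrg m i, m2, (hl i).sum]⟩, m2⟩
    refine peel_surj mrg {l | (∀ i, IsW0 (l i)) ∧ ∀ i j, ∑ q, l i q = ∑ q, l j q}
      (fun l => ∑ i, (support (l i)).ncard) (fun l hl z => ?_) l
      ⟨fun i => (hl i).toIsW0, fun i j => (hl i).sum.trans (hl j).sum.symm⟩
    have nz : ∀ i, l i ≠ 0 := fun i e => z (funext fun j => funext fun q =>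
      (Finset.sum_eq_zero_iff_of_nonneg fun q _ => (hl.1 j).nonneg q).1
        ((hl.2 j i).trans (by simp [e])) q (Finset.mem_univ q))
    choose c c1 c2 using fun i => (hl.1 i).top (nz i)
    obtain ⟨j, hj⟩ := Finite.exists_min fun i => l i (c i)
    have sub : ∀ i, support ((l - l j (c j) • mrg c) i) ⊆ support (l i) := fun i q hq => by
      by_cases e : q = c i
      · exact e ▸ c1 i
      · simpa [mrg, e] using hq
    refine ⟨c, l j (c j), (hl.1 j).nonneg _, ⟨fun i => ⟨fun q => ?_, (hl.1 i).chain.mono (sub i)⟩,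
      fun i k => ?_⟩, Finset.sum_lt_sum (fun i _ => ncard_le_ncard (sub i)) ⟨j, Finset.mem_univ _,
        ncard_lt_ncard ⟨sub j, fun k => k (c1 j) (by simp [mrg])⟩⟩,
      fun m m1 m2 d hd i => c2 i _ (sub i ?_)⟩
    · by_cases e : q = c i
      · simpa [mrg, e] using hj i
      · simpa [mrg, e] using (hl.1 i).nonneg q
    · simp [mrg, ← Finset.mul_sum, hl.2 i k]
    · rw [← m2]
      exact (mrg_ne m1).2 ⟨d, hd, rfl⟩

/-- the product of realisations on the line -/
def Real.pi (ι : Type*) [Fintype ι] [DecidableEq ι] [Nonempty ι] (R : Real Q ℝ) :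
    Real (ι → Q) (EuclideanSpace ℝ ι) where
  x s := WithLp.toLp 2 fun i => R.x (s i)
  B := {p | ∀ i, p i ∈ R.B}
  bij := by
    have : BijOn (fun l : ι → Q → ℝ => (WithLp.toLp 2 fun i => cmb R.x (l i) : EuclideanSpace ℝ ι))
        {l | ∀ i, l i ∈ Wt Q} {p | ∀ i, p i ∈ R.B} :=
      ⟨fun l hl i => Real.cmb_mem (hl i), fun l hl m hm h => funext fun i =>
        R.bij.injOn (hl i) (hm i) (congrArg (fun p : EuclideanSpace ℝ ι => p i) h),
        fun p hp => ⟨fun i => R.wt (p i), fun i => Real.wt_mem (hp i), by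
          ext i
          exact Real.cmb_wt (hp i)⟩⟩
    refine (this.comp bij_pi).congr fun m _ => ?_
    ext i
    show cmb R.x (cmb mrg m i) = _
    rw [cmb_mrg, cmb_cmb]
    simp [cmb_apply, mrg, Pi.single_apply]

end pi

/-- the cells of the interval `[0, 2N]` subdivided at the even integers -/
def Fe (N : ℕ) : Type := Fin (2 * N + 1)

namespace Fe

variable {N : ℕ}

instance : Fintype (Fe N) := inferInstanceAs (Fintype (Fin _))
instance : DecidableEq (Fe N) := inferInstanceAs (DecidableEq (Fin _))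

/-- the position of the centre -/
def v (i : Fe N) : ℕ := Fin.val i

theorem v_le (i : Fe N) : i.v ≤ 2 * N := Nat.lt_succ_iff.1 (Fin.isLt i)

theorem ext {i j : Fe N} (h : i.v = j.v) : i = j := Fin.ext h

/-- the cell with a given centre -/
def mk (k : ℕ) (h : k ≤ 2 * N) : Fe N := Fin.mk k (Nat.lt_succ_iff.2 h)

@[simp] theorem v_mk (k : ℕ) (h : k ≤ 2 * N) : (mk k h).v = k := rfl

instance : PartialOrder (Fe N) where
  le i j := i.v = j.v ∨ (j.v % 2 = 1 ∧ (i.v + 1 = j.v ∨ j.v + 1 = i.v))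
  le_refl _ := Or.inl rfl
  le_trans _ _ _ _ _ := by omega
  le_antisymm _ _ _ _ := ext (by omega)

theorem le_iff {i j : Fe N} :
    i ≤ j ↔ i.v = j.v ∨ (j.v % 2 = 1 ∧ (i.v + 1 = j.v ∨ j.v + 1 = i.v)) := Iff.rfl

theorem hat {l : Fe N → ℝ} (hl : IsWt l) (i : Fe N) :
    l i = max 0 (1 - |cmb (fun j : Fe N => (j.v : ℝ)) l - i.v|) := by
  obtain ⟨a, a1, a2⟩ := exists_min_image (support l) v (toFinite _) (support_nonempty_iff.2 hl.ne_zero)
  have h : ∀ j, l j ≠ 0 → j.v = a.v ∨ j.v = a.v + 1 := fun j hj => by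
    have := a2 j hj
    have := hl.chain.total a1 (show j ∈ support l from hj)
    simp only [le_iff] at this
    omega
  have e : cmb (fun j : Fe N => (j.v : ℝ)) l = a.v + (1 - l a) := by
    rw [cmb_congr (y := (fun _ => (a.v : ℝ) + 1) - Pi.single a 1), cmb_sub, cmb_const, hl.sum]
    · simp [cmb_real, Pi.single_apply, add_sub_assoc]
    · intro j hj
      rcases h j hj with k | k
      · simp [ext k]
      · have : j ≠ a := fun e => by simp [e] at k
        simp [this, k]
  have l0 := hl.nonneg a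
  have l1 := hl.le_one a
  rw [e]
  by_cases k : i.v = a.v
  · rw [ext k, add_sub_cancel_left, abs_of_nonneg (by linarith), sub_sub_cancel, max_eq_right l0]
  by_cases k' : i.v = a.v + 1
  · have : l i = 1 - l a := by
      rw [← hl.sum, Fintype.sum_eq_add a i (fun e => k (e ▸ rfl)) fun j hj => not_not.1 fun n =>
        (h j n).elim (fun e => hj.1 (ext e)) fun e => hj.2 (ext (e.trans k'.symm))]
      ring
    rw [k', abs_of_nonpos (by push_cast; linarith), max_eq_right (by push_cast; linarith), this]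
    push_cast
    ring
  rw [not_not.1 fun n => (h i n).elim k k', max_eq_left]
  rcases lt_or_gt_of_ne k with c | c
  · have : (i.v : ℝ) + 1 ≤ a.v := by exact_mod_cast c
    linarith [le_abs_self ((a.v : ℝ) + (1 - l a) - i.v)]
  · have : (a.v : ℝ) + 2 ≤ i.v := by exact_mod_cast (by omega : a.v + 2 ≤ i.v)
    linarith [neg_abs_le ((a.v : ℝ) + (1 - l a) - i.v)]

theorem bij (N : ℕ) : BijOn (cmb fun j : Fe N => (j.v : ℝ)) (Wt (Fe N)) (Icc 0 (2 * N)) := by
  refine ⟨fun l hl => cmb_mem_Icc hl fun s _ => ⟨Nat.cast_nonneg _, by exact_mod_cast s.v_le⟩,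
    fun l hl m hm h => funext fun i => by rw [hat hl, hat hm, h], fun p hp => ?_⟩
  have k1 := Nat.floor_le hp.1
  have k2 := Nat.lt_floor_add_one p
  have k3 : ⌊p⌋₊ ≤ 2 * N := by exact_mod_cast k1.trans hp.2
  by_cases e : ⌊p⌋₊ = 2 * N
  · refine ⟨_, single_mem (mk _ k3), ?_⟩
    rw [cmb_single, one_smul, v_mk]
    refine le_antisymm k1 (hp.2.trans_eq ?_)
    rw [e]
    push_cast
    rfl
  have k4 : ⌊p⌋₊ + 1 ≤ 2 * N := by omega
  have c : IsChain (· ≤ ·) ({mk _ k3, mk _ k4} : Set (Fe N)) := by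
    rintro _ (rfl | rfl) _ (rfl | rfl) _ <;>
      simp only [le_iff, v_mk, true_or, or_true, and_true] <;> omega
  refine ⟨_, (Real.convex_wts c ⟨single_mem (mk _ k3), ?_⟩ ⟨single_mem (mk _ k4), ?_⟩
    (a := 1 - (p - ⌊p⌋₊)) (b := p - ⌊p⌋₊) (by linarith) (by linarith) (by ring)).1, ?_⟩
  · exact Pi.support_single_subset.trans (by simp)
  · exact Pi.support_single_subset.trans (by simp)
  · simp only [map_add, map_smul, cmb_single, v_mk, smul_eq_mul]
    push_cast
    ring

/-- the subdivided interval `[-N h, N h]` -/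
def real (N : ℕ) {h : ℝ} (hh : 0 < h) : Real (Fe N) ℝ where
  x j := h * (j.v - N)
  B := Icc (-(N * h)) (N * h)
  bij := by
    have : BijOn (fun t : ℝ => h * (t - N)) (Icc 0 (2 * N)) (Icc (-(N * h)) (N * h)) :=
      ⟨fun t ht => ⟨by nlinarith [ht.1], by nlinarith [ht.2]⟩,
        fun t _ u _ e => sub_left_injective (mul_left_cancel₀ hh.ne' e),
        fun t ht => ⟨t / h + N, ⟨by linarith [(le_div_iff₀ hh).2 (show -N * h ≤ t by linarith [ht.1])],
          by linarith [(div_le_iff₀ hh).2 ht.2]⟩, by field_simp; ring⟩⟩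
    refine (this.comp (bij N)).congr fun l hl => ?_
    simp only [comp_apply, cmb_real, mul_sub, Finset.sum_sub_distrib, Finset.mul_sum,
      ← Finset.sum_mul, hl.sum]
    congr 1
    · exact Finset.sum_congr rfl fun _ _ => by ring
    · ring

end Fe

section cube

variable {ι : Type*} [Fintype ι] [DecidableEq ι] [Nonempty ι] {N : ℕ} {h : ℝ}

/-- the cubical grid -/
def cube (ι : Type*) [Fintype ι] [DecidableEq ι] [Nonempty ι] (N : ℕ) {h : ℝ} (hh : 0 < h) :
    Real (ι → Fe N) (EuclideanSpace ℝ ι) := (Fe.real N hh).pi ι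

theorem cube_x (hh : 0 < h) (s : ι → Fe N) (i : ι) : (cube ι N hh).x s i = h * ((s i).v - N) := rfl

theorem mem_cube (hh : 0 < h) {p : EuclideanSpace ℝ ι} :
    p ∈ (cube ι N hh).B ↔ ∀ i, |p i| ≤ N * h := forall_congr' fun _ => abs_le.symm

theorem convex_cube (hh : 0 < h) : Convex ℝ (cube ι N hh).B := fun _ hp _ hq _ _ ha hb hab i =>
  convex_Icc _ _ (hp i) (hq i) ha hb hab

theorem cube_coord (hh : 0 < h) {s t : ι → Fe N} (e : s ≤ t) (i : ι) :
    |(cube ι N hh).x s i - (cube ι N hh).x t i| ≤ h := by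
  rw [cube_x, cube_x, ← mul_sub, abs_mul, abs_of_pos hh]
  refine mul_le_of_le_one_right hh.le (abs_le.2 ?_)
  rcases Fe.le_iff.1 (e i) with k | ⟨-, k | k⟩ <;> rw [← k] <;> push_cast <;> constructor <;> linarith

theorem cube_dist (hh : 0 < h) {s t : ι → Fe N} (e : s ≤ t ∨ t ≤ s) :
    dist ((cube ι N hh).x s) ((cube ι N hh).x t) ≤ Fintype.card ι * h := by
  wlog k : s ≤ t generalizing s t
  · rw [dist_comm]
    exact this e.symm (e.resolve_left k)
  rw [dist_eq_norm, ← (EuclideanSpace.basisFun ι ℝ).sum_repr (_ - _)]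
  refine (norm_sum_le _ _).trans ((Finset.sum_le_sum (g := fun _ => h) fun i _ => ?_).trans (by simp))
  simpa [norm_smul] using cube_coord hh k i

/-- a point is close to the vertices of its carrier -/
theorem cube_dist_x (hh : 0 < h) {p : EuclideanSpace ℝ ι} (hp : p ∈ (cube ι N hh).B) {s : ι → Fe N}
    (hs : (cube ι N hh).lam s p ≠ 0) : dist p ((cube ι N hh).x s) ≤ Fintype.card ι * h := by
  rw [← Real.cmb_wt hp]
  exact cmb_mem_convex (Real.wt_mem hp) (convex_closedBall _ _) fun t ht =>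
    cube_dist hh ((Real.wt_mem hp).chain.total (show t ∈ support _ from ht) (show s ∈ support _ from hs))

/-- every cocycle on the cubical grid is exact -/
theorem cube_exact {G : Type*} [AddCommGroup G] (z : (ι → Fe N) → (ι → Fe N) → G)
    (hz : ∀ x y w, x ≤ y → y ≤ w → z x w = z x y + z y w) :
    ∃ g : (ι → Fe N) → G, ∀ x y, x ≤ y → z x y = g y - g x := by
  have : ∀ k ≤ 2 * N, ∃ g : (ι → Fe N) → G, ∀ x y, (∀ i, (x i).v ≤ k) → (∀ i, (y i).v ≤ k) →
      x ≤ y → z x y = g y - g x := by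
    intro k
    induction' k with k ih <;> intro hk
    · refine ⟨0, fun x y hx hy e => ?_⟩
      obtain rfl : x = y := funext fun i => Fe.ext (by have := hx i; have := hy i; omega)
      simpa using hz x x x e e
    obtain ⟨g, hg⟩ := ih (by omega)
    let φ : (ι → Fe N) → ι → Fe N := fun s i => if (s i).v = k + 1 then Fe.mk k (by omega) else s i
    have φv : ∀ s i, (φ s i).v = if (s i).v = k + 1 then k else (s i).v := fun s i => by
      simp only [φ]
      split_ifs <;> rfl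
    have b : ∀ s : ι → Fe N, (∀ i, (s i).v ≤ k + 1) → ∀ i, (φ s i).v ≤ k := fun s hs i => by
      have := hs i
      rw [φv]
      split_ifs <;> omega
    have m : ∀ s t : ι → Fe N, (∀ i, (s i).v ≤ k + 1) → (∀ i, (t i).v ≤ k + 1) → s ≤ t → φ s ≤ φ t :=
      fun s t hs ht e i => by
        have := hs i
        have := ht i
        have := Fe.le_iff.1 (e i)
        rw [Fe.le_iff, φv, φv]
        split_ifs <;> omega
    by_cases p : k % 2 = 1
    · have u : ∀ s, s ≤ φ s := fun s i => by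
        rw [Fe.le_iff, φv]
        split_ifs <;> omega
      refine ⟨fun s => g (φ s) - z s (φ s), fun x y hx hy e => ?_⟩
      have := (hz x y _ e (u y)).symm.trans (hz x _ _ (u x) (m x y hx hy e))
      rw [hg _ _ (b x hx) (b y hy) (m x y hx hy e)] at this
      rw [eq_sub_of_add_eq this]
      beta_reduce
      abel
    · have u : ∀ s, φ s ≤ s := fun s i => by
        rw [Fe.le_iff, φv]
        split_ifs <;> omega
      refine ⟨fun s => g (φ s) + z (φ s) s, fun x y hx hy e => ?_⟩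
      have := (hz _ x y (u x) e).symm.trans (hz _ _ y (m x y hx hy e) (u y))
      rw [hg _ _ (b x hx) (b y hy) (m x y hx hy e)] at this
      rw [eq_sub_of_add_eq' this]
      beta_reduce
      abel
  obtain ⟨g, hg⟩ := this _ le_rfl
  exact ⟨g, fun x y => hg x y (fun i => (x i).v_le) fun i => (y i).v_le⟩

/-- a maximal simplex has an edge in every coordinate direction -/
theorem cube_edge (hN : 0 < N) {c : Set (ι → Fe N)} (hc : IsMaxChain (· ≤ ·) c) (i : ι) :
    ∃ s ∈ c, ∃ q : Fe N, s i < q ∧ update s i q ∈ c := by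
  have add : ∀ u, (∀ s ∈ c, s ≤ u ∨ u ≤ s) → u ∈ c := fun u hu => by
    rw [hc.2 (hc.1.insert fun s hs _ => (hu s hs).symm) (subset_insert _ _)]
    exact mem_insert _ _
  have top : ∀ d ⊆ c, d.Nonempty → ∃ t ∈ d, ∀ s ∈ d, s ≤ t := fun d hd ne => by
    obtain ⟨t, t1, t2⟩ := (toFinite d).exists_maximal ne
    exact ⟨t, t1, fun s hs => (hc.1.total (hd hs) (hd t1)).elim id (t2 hs)⟩
  have bot : ∀ d ⊆ c, d.Nonempty → ∃ t ∈ d, ∀ s ∈ d, t ≤ s := fun d hd ne => by
    obtain ⟨t, t1, t2⟩ := (toFinite d).exists_minimal ne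
    exact ⟨t, t1, fun s hs => (hc.1.total (hd t1) (hd hs)).elim id (t2 hs)⟩
  have ne : c.Nonempty := nonempty_iff_ne_empty.2 fun e => by
    have := add (fun _ => Fe.mk 0 (by omega)) (by simp [e])
    simp [e] at this
  have n1 : {s | s ∈ c ∧ (s i).v % 2 = 0}.Nonempty := by
    obtain ⟨b, b1, b2⟩ := bot c subset_rfl ne
    by_cases p : (b i).v % 2 = 0
    · exact ⟨b, b1, p⟩
    have := (b i).v_le
    refine ⟨update b i (Fe.mk ((b i).v - 1) (by omega)), add _ fun s hs => Or.inr (le_trans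
      (update_le_self_iff.2 ?_) (b2 s hs)), by simp; omega⟩
    simp only [Fe.le_iff, Fe.v_mk]
    omega
  have n2 : {s | s ∈ c ∧ (s i).v % 2 = 1}.Nonempty := by
    obtain ⟨b, b1, b2⟩ := top c subset_rfl ne
    by_cases p : (b i).v % 2 = 1
    · exact ⟨b, b1, p⟩
    have := (b i).v_le
    obtain ⟨q, q1, q2⟩ : ∃ q : Fe N, q.v % 2 = 1 ∧ b i ≤ q := by
      by_cases e : (b i).v = 0
      · exact ⟨Fe.mk 1 (by omega), rfl, by simp [Fe.le_iff, e]⟩
      · exact ⟨Fe.mk ((b i).v - 1) (by omega), by simp; omega,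
          by simp only [Fe.le_iff, Fe.v_mk]; omega⟩
    exact ⟨update b i q, add _ fun s hs => Or.inl ((b2 s hs).trans (le_update_self_iff.2 q2)),
      by simpa using q1⟩
  obtain ⟨s, ⟨s1, s2⟩, s3⟩ := top _ (fun _ h => h.1) n1
  obtain ⟨t, ⟨t1, t2⟩, t3⟩ := bot _ (fun _ h => h.1) n2
  have st : s ≤ t := (hc.1.total s1 t1).resolve_right fun e => by
    have := Fe.le_iff.1 (e i)
    omega
  refine ⟨s, s1, t i, lt_of_le_of_ne (st i) fun e => by rw [e] at s2; omega, add _ fun u hu => ?_⟩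
  by_cases p : (u i).v % 2 = 0
  · exact Or.inl ((s3 u ⟨hu, p⟩).trans (le_update_self_iff.2 (st i)))
  · exact Or.inr (le_trans (update_le_iff.2 ⟨le_rfl, fun j _ => st j⟩) (t3 u ⟨hu, by omega⟩))

theorem cube_x_update (hh : 0 < h) (s : ι → Fe N) (i : ι) {q : Fe N} (e : s i < q) :
    ∃ a : ℝ, |a| = h ∧
      (cube ι N hh).x (update s i q) = (cube ι N hh).x s + a • EuclideanSpace.single i 1 := by
  refine ⟨h * (q.v - (s i).v), ?_, ?_⟩
  · have := Fe.le_iff.1 e.le
    have n : (s i).v ≠ q.v := fun k => e.ne (Fe.ext k)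
    rw [abs_mul, abs_of_pos hh]
    rcases this with k | ⟨-, k | k⟩
    · exact (n k).elim
    · rw [← k]; simp
    · rw [← k]; simp
  · ext j
    by_cases k : j = i
    · simp [cube_x, k]; ring
    · simp [cube_x, k]

end cube

end Crest.Agent.X212.Sm10
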