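import Crest.Agent.X212.Sm10.Defs

/-!
# X212 / Sm10 (helper10): derived subdivisions with arbitrary interior points

`Sd e` says that `e : Q → Set P` identifies `Q` with the poset of non-empty chains of `P`.
`Real.der`, `Real.ref_der`, `Real.exists_near`.
-/

set_option autoImplicit false
set_option linter.unusedSectionVars false

open Set Filter Topology Function

noncomputable section

namespace Crest.Agent.X212.Sm10

variable {P Q : Type*} [PartialOrder P] [Fintype P] [PartialOrder Q] [Fintype Q]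

section peel

variable {V : Type*} [AddCommGroup V] [Module ℝ V]

theorem IsW0.zero : IsW0 (0 : P → ℝ) := ⟨fun _ => le_rfl, by simp [IsChain]⟩

theorem IsW0.update [DecidableEq Q] {m : Q → ℝ} (h : IsW0 m) (c : Q) : IsW0 (update m c 0) := by
  refine ⟨fun d => ?_, h.chain.mono fun d hd => ?_⟩
  · by_cases e : d = c
    · simp [e]
    · simpa [e] using h.nonneg d
  · by_cases e : d = c
    · simp [e] at hd
    · simpa [e] using hd

theorem eq_update_add [DecidableEq Q] (m : Q → ℝ) (c : Q) :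
    m = update m c 0 + Pi.single c (m c) := funext fun d => by
  by_cases e : d = c
  · simp [e]
  · simp [e]

theorem IsW0.add_top [DecidableEq Q] {m : Q → ℝ} (h : IsW0 m) {c : Q} (hc : ∀ d, m d ≠ 0 → d ≤ c)
    {a : ℝ} (ha : 0 ≤ a) : IsW0 (m + Pi.single c a) := by
  refine ⟨fun d => add_nonneg (h.nonneg d) ?_, (h.chain.insert (a := c) fun d hd _ =>
    Or.inr (hc d hd)).mono fun d hd => ?_⟩
  · by_cases e : d = c
    · simpa [e] using ha
    · simp [e]
  · by_cases e : d = c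
    · exact Or.inl e
    · exact Or.inr (by simpa [e] using hd)

/-- uniqueness by peeling off the top weight -/
theorem peel_inj (β : Q → V) (h0 : ∀ m, IsW0 m → cmb β m = 0 → m = 0)
    (ht : ∀ m n c d, IsW0 m → IsW0 n → cmb β m = cmb β n → m c ≠ 0 → (∀ s, m s ≠ 0 → s ≤ c) →
      n d ≠ 0 → (∀ s, n s ≠ 0 → s ≤ d) → c = d ∧ m c ≤ n d) :
    ∀ m n, IsW0 m → IsW0 n → cmb β m = cmb β n → m = n := by
  classical
  intro m
  induction' hk : (support m).ncard using Nat.strong_induction_on with k ih generalizing m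
  intro n hm hn e
  by_cases z : m = 0
  · rw [z, h0 n hn (by rw [← e, z, map_zero])]
  have z' : n ≠ 0 := fun k => z (h0 m hm (by rw [e, k, map_zero]))
  obtain ⟨c, c1, c2⟩ := hm.top z
  obtain ⟨d, d1, d2⟩ := hn.top z'
  obtain ⟨rfl, l1⟩ := ht m n c d hm hn e c1 c2 d1 d2
  have l2 := le_antisymm l1 (ht n m c c hn hm e.symm d1 d2 c1 c2).2
  have lt : (support (update m c 0)).ncard < (support m).ncard := by
    refine ncard_lt_ncard ⟨fun s hs => ?_, fun k => by simpa using k c1⟩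
    by_cases e : s = c
    · simp [e] at hs
    · simpa [e] using hs
  have := ih _ (hk ▸ lt) (update m c 0) rfl (update n c 0) (hm.update c) (hn.update c) (by
    rw [eq_update_add m c, eq_update_add n c, map_add, map_add, l2] at e
    exact add_right_cancel e)
  rw [eq_update_add m c, this, l2, ← eq_update_add]

/-- existence by peeling -/
theorem peel_surj (β : Q → V) (S : Set V) (N : V → ℕ)
    (h : ∀ l ∈ S, l ≠ 0 → ∃ c, ∃ a : ℝ, 0 ≤ a ∧ l - a • β c ∈ S ∧ N (l - a • β c) < N l ∧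
      ∀ m, IsW0 m → cmb β m = l - a • β c → ∀ d, m d ≠ 0 → d ≤ c) :
    ∀ l ∈ S, ∃ m, IsW0 m ∧ cmb β m = l := by
  classical
  intro l
  induction' hk : N l using Nat.strong_induction_on with k ih generalizing l
  intro hl
  by_cases z : l = 0
  · exact ⟨0, IsW0.zero, by rw [z, map_zero]⟩
  obtain ⟨c, a, ha, h1, h2, h3⟩ := h l hl z
  obtain ⟨m, m1, m2⟩ := ih _ (hk ▸ h2) _ rfl h1
  exact ⟨_, m1.add_top (h3 m m1 m2) ha, by rw [map_add, m2, cmb_single, sub_add_cancel]⟩

end peel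

/-- `e` identifies `Q` with the poset of non-empty chains of `P` -/
structure Sd (e : Q → Set P) : Prop where
  le : ∀ c d, e c ⊆ e d ↔ c ≤ d
  chain : ∀ c, IsChain (· ≤ ·) (e c)
  ne : ∀ c, (e c).Nonempty
  surj : ∀ s : Set P, IsChain (· ≤ ·) s → s.Nonempty → ∃ c, e c = s

theorem Sd.inj {e : Q → Set P} (he : Sd e) : Injective e := fun c d h =>
  le_antisymm ((he.le c d).1 h.le) ((he.le d c).1 h.ge)

section der

variable {e : Q → Set P} {β : Q → P → ℝ}

theorem le_cmb (hβ : ∀ c s, 0 ≤ β c s) {m : Q → ℝ} (hm : IsW0 m) (c : Q) (s : P) :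
    m c * β c s ≤ cmb β m s := by
  rw [cmb_pi]
  exact Finset.single_le_sum (f := fun c => m c * β c s)
    (fun d _ => mul_nonneg (hm.nonneg d) (hβ d s)) (Finset.mem_univ c)

theorem mem_support_cmb (hβ : ∀ c s, 0 ≤ β c s) {m : Q → ℝ} (hm : IsW0 m) {s : P} :
    cmb β m s ≠ 0 ↔ ∃ c, m c ≠ 0 ∧ β c s ≠ 0 := by
  refine ⟨fun h => ?_, fun ⟨c, h1, h2⟩ => ((mul_pos (hm.pos h1) ((hβ c s).lt_of_ne' h2)).trans_le
    (le_cmb hβ hm c s)).ne'⟩
  rw [cmb_pi] at h
  obtain ⟨c, -, hc⟩ := Finset.exists_ne_zero_of_sum_ne_zero h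
  exact ⟨c, left_ne_zero_of_mul hc, right_ne_zero_of_mul hc⟩

theorem support_cmb (he : Sd e) (hβ : ∀ c, IsWt (β c)) (hs : ∀ c, support (β c) = e c) {m : Q → ℝ}
    (hm : IsW0 m) {c : Q} (c1 : m c ≠ 0) (c2 : ∀ d, m d ≠ 0 → d ≤ c) : support (cmb β m) = e c := by
  ext s
  rw [mem_support, mem_support_cmb (fun c => (hβ c).nonneg) hm]
  exact ⟨fun ⟨d, d1, d2⟩ => (he.le d c).2 (c2 d d1) (hs d ▸ d2), fun h => ⟨c, c1, by rwa [← hs] at h⟩⟩

theorem sum_cmb (hβ : ∀ c, IsWt (β c)) (m : Q → ℝ) : ∑ s, cmb β m s = ∑ c, m c := by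
  simp only [cmb_pi]
  rw [Finset.sum_comm]
  simp only [← Finset.mul_sum, (hβ _).sum, mul_one]

/-- the derived subdivision of the abstract realisation -/
theorem bij_der (he : Sd e) (hβ : ∀ c, IsWt (β c)) (hs : ∀ c, support (β c) = e c) :
    BijOn (cmb β) (Wt Q) (Wt P) := by
  classical
  have b0 : ∀ c s, 0 ≤ β c s := fun c => (hβ c).nonneg
  refine ⟨fun m hm => ?_, fun m hm n hn h => ?_, fun l hl => ?_⟩
  · obtain ⟨c, c1, c2⟩ := hm.top hm.ne_zero
    refine IsWt.mk' (he.chain c) (fun s => ?_) ((sum_cmb hβ m).trans hm.sum)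
      (support_cmb he hβ hs hm.toIsW0 c1 c2).le
    rw [cmb_pi]
    exact Finset.sum_nonneg fun d _ => mul_nonneg (hm.nonneg d) (b0 d s)
  · refine peel_inj β (fun m hm h => ?_) (fun m n c d hm hn h c1 c2 d1 d2 => ?_) m n hm.toIsW0
      hn.toIsW0 h
    · by_contra z
      obtain ⟨c, c1, c2⟩ := hm.top z
      have := support_cmb he hβ hs hm c1 c2
      rw [h] at this
      exact (he.ne c).ne_empty (by simpa using this.symm)
    · obtain rfl : c = d := he.inj <| by
        rw [← support_cmb he hβ hs hm c1 c2, h, support_cmb he hβ hs hn d1 d2]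
      refine ⟨rfl, ?_⟩
      obtain ⟨s, s1, s2⟩ : ∃ s ∈ e c, cmb β (update n c 0) s = 0 := by
        by_cases z : update n c 0 = 0
        · obtain ⟨s, hs⟩ := he.ne c
          exact ⟨s, hs, by simp [z]⟩
        obtain ⟨d, k1, k2⟩ := (hn.update c).top z
        have dc : d ≠ c := fun e => by simp [e] at k1
        obtain ⟨s, s1, s2⟩ := not_subset.1 fun k => dc
          (le_antisymm (d2 d (by simpa [dc] using k1)) ((he.le c d).1 k))
        rw [← support_cmb he hβ hs (hn.update c) k1 k2] at s2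
        exact ⟨s, s1, not_not.1 s2⟩
      have := le_cmb b0 hm c s
      rw [h, eq_update_add n c, map_add, cmb_single, Pi.add_apply, s2, zero_add] at this
      exact le_of_mul_le_mul_right this ((hβ c).pos (by rwa [← hs] at s1))
  · suffices h : ∃ m, IsW0 m ∧ cmb β m = l by
      obtain ⟨m, m1, m2⟩ := h
      exact ⟨m, ⟨m1, by rw [← sum_cmb hβ, m2, hl.sum]⟩, m2⟩
    refine peel_surj β {l | IsW0 l} (fun l => (support l).ncard) (fun l hl z => ?_) l hl.toIsW0
    obtain ⟨c, hc⟩ := he.surj _ hl.chain (support_nonempty_iff.2 z)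
    obtain ⟨t, t1, t2⟩ := exists_min_image (e c) (fun s => l s / β c s) (toFinite _) (he.ne c)
    have bp : ∀ s ∈ e c, 0 < β c s := fun s k => (hβ c).pos (by rwa [← hs] at k)
    have sub : support (l - (l t / β c t) • β c) ⊆ e c := support_subset_iff'.2 fun s k => by
      have k1 : l s = 0 := not_not.1 (by rwa [hc] at k)
      have k2 : β c s = 0 := not_not.1 (by rwa [← hs] at k)
      simp [k1, k2]
    refine ⟨c, l t / β c t, div_nonneg (hl.nonneg t) (b0 c t), ⟨fun s => ?_, (he.chain c).mono sub⟩,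
      ncard_lt_ncard ⟨hc ▸ sub, fun k => k (hc ▸ t1) ?_⟩, fun m m1 m2 d hd => (he.le d c).1
        fun s k => sub ?_⟩
    · by_cases k : s ∈ e c
      · simpa using (le_div_iff₀ (bp s k)).1 (t2 s k)
      · have k2 : β c s = 0 := not_not.1 (by rwa [← hs] at k)
        simpa [k2] using hl.nonneg s
    · simp [(bp t t1).ne']
    · rw [← m2, mem_support, mem_support_cmb b0 m1]
      exact ⟨d, hd, by rwa [← hs] at k⟩

end der

/-- `R'` is a derived subdivision of `R` -/
structure Der {E : Type*} [NormedAddCommGroup E] [NormedSpace ℝ E] (e : Q → Set P) (R : Real P E)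
    (R' : Real Q E) : Prop extends Ref R R' where
  supp : ∀ c, support (R.wt (R'.x c)) = e c

namespace Real

variable {E : Type*} [NormedAddCommGroup E] [NormedSpace ℝ E] (R : Real P E) {e : Q → Set P}

/-- the derived subdivision with interior points `y c` -/
def der (he : Sd e) (y : Q → E) (hy : ∀ c, y c ∈ R.B) (hs : ∀ c, support (R.wt (y c)) = e c) :
    Real Q E where
  x := y
  B := R.B
  bij := (R.bij.comp (bij_der he (fun c => wt_mem (hy c)) hs)).congr fun m _ => by
    rw [comp_apply, cmb_cmb]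
    exact cmb_congr fun c _ => cmb_wt (hy c)

theorem der_der (he : Sd e) (y : Q → E) (hy : ∀ c, y c ∈ R.B)
    (hs : ∀ c, support (R.wt (y c)) = e c) : Der e R (R.der he y hy hs) := by
  refine ⟨⟨rfl, fun p hp => ?_⟩, hs⟩
  have w := wt_mem (R := R.der he y hy hs) hp
  show _ = cmb (fun c => R.wt (y c)) _
  rw [← wt_cmb (R := R) ((bij_der he (fun c => wt_mem (hy c)) hs).mapsTo w), cmb_cmb]
  congr 1
  exact (cmb_wt (R := R.der he y hy hs) hp).symm.trans (cmb_congr fun c _ => (cmb_wt (hy c)).symm)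

/-- interior points of a simplex close to a vertex -/
theorem exists_interior {c : Set P} (hc : IsChain (· ≤ ·) c) {s : P} (hs : s ∈ c) {V : Set E}
    (hV : V ∈ 𝓝[R.spx c] R.x s) : ∃ y ∈ V, y ∈ R.B ∧ support (R.wt y) = c := by
  classical
  have n0 : (0 : ℝ) < c.toFinset.card := Nat.cast_pos.2 (Finset.card_pos.2 ⟨s, mem_toFinset.2 hs⟩)
  let b : P → ℝ := fun t => if t ∈ c then (c.toFinset.card : ℝ)⁻¹ else 0
  have bs : support b = c := by
    ext t
    by_cases h : t ∈ c
    · simpa [b, h] using ⟨s, hs⟩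
    · simp [b, h]
  have bw : b ∈ Wt P := IsWt.mk' hc (fun t => by by_cases h : t ∈ c <;> simp [b, h]) (by
    rw [Finset.sum_ite, Finset.sum_const_zero, add_zero, Finset.sum_const, nsmul_eq_mul,
      show Finset.univ.filter (· ∈ c) = c.toFinset by ext; simp, mul_inv_cancel₀ n0.ne']) bs.le
  have h1 : R.x s ∈ R.spx c := R.x_mem_spx.2 hs
  have h2 : cmb R.x b ∈ R.spx c := ⟨cmb_mem bw, by rw [wt_cmb bw, bs]⟩
  have t : Tendsto (fun η : ℝ => (1 - η) • R.x s + η • cmb R.x b) (𝓝[Ioo 0 1] 0) (𝓝[R.spx c] R.x s) := by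
    refine tendsto_nhdsWithin_iff.2 ⟨tendsto_nhdsWithin_of_tendsto_nhds ?_,
      eventually_nhdsWithin_of_forall fun η h => convex_spx hc h1 h2 (by linarith [h.2]) h.1.le
        (by ring)⟩
    exact Continuous.tendsto' (by fun_prop) _ _ (by simp)
  have := left_nhdsWithin_Ioo_neBot (zero_lt_one' ℝ)
  obtain ⟨η, k1, k2⟩ := ((t.eventually hV).and self_mem_nhdsWithin).exists
  have k3 := convex_spx hc h1 h2 (a := 1 - η) (by linarith [k2.2]) k2.1.le (by ring)
  refine ⟨_, k1, k3.1, k3.2.antisymm fun u hu => ?_⟩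
  rw [mem_support, wt_seg hc h1 h2 (by linarith [k2.2]) k2.1.le (by ring), wt_cmb bw]
  exact (add_pos_of_nonneg_of_pos (mul_nonneg (by linarith [k2.2]) ((wt_mem h1.1).nonneg u))
    (mul_pos k2.1 (bw.pos (by rwa [← bs] at hu)))).ne'

/-- NEAR: a derived subdivision whose vertices are close to prescribed vertices `π c ∈ e c` -/
theorem exists_near (he : Sd e) (π : Q → P) (hπ : ∀ c, π c ∈ e c) (V : Q → Set E)
    (hV : ∀ c, V c ∈ 𝓝[R.spx (e c)] R.x (π c)) :
    ∃ R' : Real Q E, Der e R R' ∧ ∀ c, R'.x c ∈ V c := by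
  choose y h1 h2 h3 using fun c => R.exists_interior (he.chain c) (hπ c) (hV c)
  exact ⟨R.der he y h2 h3, R.der_der he y h2 h3, h1⟩

/-- NEAR for a family of relatively open sets: membership of vertices is pulled back by `π` -/
theorem exists_near_open (he : Sd e) (π : Q → P) (hπ : ∀ c, π c ∈ e c) {ι : Type*} [Finite ι]
    (U : ι → Set E) (hU : ∀ i, ∀ p ∈ U i, p ∈ R.B → U i ∈ 𝓝[R.B] p) :
    ∃ R' : Real Q E, Der e R R' ∧ ∀ i c, R.x (π c) ∈ U i → R'.x c ∈ U i := by
  obtain ⟨R', h1, h2⟩ := R.exists_near he π hπ (fun c => {p | ∀ i, R.x (π c) ∈ U i → p ∈ U i})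
    fun c => nhdsWithin_mono _ (fun _ h => h.1) <| eventually_all.2 fun i => by
      by_cases h : R.x (π c) ∈ U i
      · exact mem_of_superset (hU i _ h (R.x_mem _)) fun _ k _ => k
      · exact Eventually.of_forall fun _ k => (h k).elim
  exact ⟨R', h1, fun i c => h2 c i⟩

end Real

namespace Der

variable {E : Type*} [NormedAddCommGroup E] [NormedSpace ℝ E] {R : Real P E} {R' : Real Q E}
  {e : Q → Set P}

theorem x_mem (h : Der e R R') (c : Q) : R'.x c ∈ R.spx (e c) :=
  ⟨h.B_eq ▸ R'.x_mem c, (h.supp c).le⟩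

/-- the coarse carrier of a point is the union of the chains of its fine carrier -/
theorem lam_ne (h : Der e R R') {p : E} (hp : p ∈ R.B) {s : P} :
    R.lam s p ≠ 0 ↔ ∃ c, R'.lam c p ≠ 0 ∧ s ∈ e c :=
  ⟨fun k => let ⟨c, c1, c2⟩ := h.exists_support hp k; ⟨c, c1, h.supp c ▸ c2⟩,
    fun ⟨c, c1, c2⟩ => h.support_subset hp c1 (by rwa [h.supp])⟩

/-- a full subcomplex is the subcomplex of the chains inside it -/
theorem spx_eq (h : Der e R R') (A : Set P) : R'.spx {c | e c ⊆ A} = R.spx A := by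
  ext p
  refine ⟨fun k => ⟨h.B_eq ▸ k.1, fun s hs => ?_⟩, fun k => ⟨h.B_eq ▸ k.1, fun c hc s hs => ?_⟩⟩
  · obtain ⟨c, c1, c2⟩ := (h.lam_ne (h.B_eq ▸ k.1)).1 hs
    exact k.2 c1 c2
  · exact k.2 ((h.lam_ne k.1).2 ⟨c, hc, hs⟩)

end Der

end Crest.Agent.X212.Sm10
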