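import Crest.Agent.X212.Pb50.Main
import Crest.Agent.X212.Sep15.Hh
import Crest.Agent.X212.Pj41.Cm

/-!
# Row 212, SW-DEG (helper10), part 0: families of functions that tend to zero

`Nl` : all derivatives tend to `0` in `L²` over the open sets `S i`; `Cn` : uniformly;
`Bb` : uniformly bounded.
-/

set_option autoImplicit false
set_option linter.unusedSectionVars false
noncomputable section
open scoped Manifold ContDiff Topology InnerProductSpace ENNReal
open MeasureTheory Set Function Filter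

namespace Crest.Agent.X212.Sm10.Dg
open An Sw Sob92
open Wz78 (SA)
open Neck67 (Lb)
open Sep15.S (sa_clm aesm)
open Pb50 (Dw_congr sa_D)

variable {E : Type} [NormedAddCommGroup E] [NormedSpace ℝ E] [FiniteDimensional ℝ E]
  [MeasurableSpace E] [BorelSpace E]
  {HM : Type} [TopologicalSpace HM] {I : ModelWithCorners ℝ E HM}
  {M : Type} [TopologicalSpace M] [ChartedSpace HM M] [IsManifold I ∞ M]
  [MeasurableSpace M] [T2Space M] [BorelSpace M] [SecondCountableTopology M] {ι : Type} [Fintype ι]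
  {N N' N'' : Type} [NormedAddCommGroup N] [NormedSpace ℝ N] [NormedAddCommGroup N']
  [NormedSpace ℝ N'] [NormedAddCommGroup N''] [NormedSpace ℝ N'']
  {F : Pre I M ι} {α : Type} {l : Filter α} {S S' S'' : α → Set M} {f f' : α → M → N}
  {g : α → M → N'}

theorem sa_Dw {u : M → N} {x : M} (w : List ι) : ∀ {u : M → N}, SA I u x → SA I (F.Dw w u) x := by
  have _ := u
  induction w with
  | nil => exact id
  | cons a w ih => exact fun h => ih (sa_D F h a)

theorem Dw_add_on {O : Set M} (hO : IsOpen O) (w : List ι) : ∀ {u v : M → N},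
    (∀ x ∈ O, SA I u x) → (∀ x ∈ O, SA I v x) → ∀ x ∈ O,
    F.Dw w (fun y => u y + v y) x = F.Dw w u x + F.Dw w v x := by
  induction w with
  | nil => exact fun _ _ _ _ => rfl
  | cons a w ih =>
    intro u v hu hv x hx
    refine .trans (Dw_congr (F := F) w (g := fun y => F.D a u y + F.D a v y) ?_).self_of_nhds
      (ih (fun y hy => sa_D F (hu y hy) a) (fun y hy => sa_D F (hv y hy) a) x hx)
    exact Eventually.mono (hO.mem_nhds hx) fun y hy => dv_add (hu y hy).md (hv y hy).md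

theorem Dw_on {O : Set M} (hO : IsOpen O) (w : List ι) {u v : M → N} (e : ∀ x ∈ O, u x = v x)
    {x : M} (hx : x ∈ O) : F.Dw w u x = F.Dw w v x :=
  (Dw_congr (F := F) w (Eventually.mono (hO.mem_nhds hx) e)).self_of_nhds

theorem Dw_append (w w' : List ι) (u : M → N) : F.Dw (w ++ w') u = F.Dw w' (F.Dw w u) := by
  induction w generalizing u with
  | nil => rfl
  | cons a w ih => exact ih _

variable (F) in
/-- the square of the `L²` norm over `O` -/
def I2 (O : Set M) (u : M → N) : ℝ≥0∞ := ∫⁻ x in O, ‖u x‖ₑ ^ 2 ∂F.μ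

theorem aem2 {O : Set M} (hO : IsOpen O) {u : M → N} (hu : ∀ x ∈ O, SA I u x) :
    AEMeasurable (fun x => ‖u x‖ₑ ^ 2) (F.μ.restrict O) := (aesm hO hu).enorm.pow_const 2

theorem I2_le {O : Set M} (hO : IsOpen O) {u : M → N} {v : M → N'} {c : ℝ}
    (e : ∀ x ∈ O, ‖u x‖ ≤ c * ‖v x‖) : I2 F O u ≤ ENNReal.ofReal (c ^ 2) * I2 F O v := by
  rw [I2, I2, ← lintegral_const_mul' _ _ ENNReal.ofReal_ne_top]
  refine setLIntegral_mono' hO.measurableSet fun x hx => ?_
  rw [← ofReal_norm, ← ofReal_norm, ← ENNReal.ofReal_pow (norm_nonneg _),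
    ← ENNReal.ofReal_pow (norm_nonneg _), ← ENNReal.ofReal_mul (sq_nonneg _), ← mul_pow]
  exact ENNReal.ofReal_le_ofReal (pow_le_pow_left₀ (norm_nonneg _) (e x hx) 2)

theorem I2_add {O : Set M} (hO : IsOpen O) {u v : M → N} (hu : ∀ x ∈ O, SA I u x) :
    I2 F O (fun x => u x + v x) ≤ 2 * (I2 F O u + I2 F O v) := by
  rw [I2, I2, I2, ← lintegral_add_left' (aem2 hO hu), ← lintegral_const_mul' _ _ (by simp)]
  refine lintegral_mono fun x => ?_
  refine (pow_le_pow_left' (enorm_add_le _ _) 2).trans ?_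
  simpa using ENNReal.rpow_add_le_mul_rpow_add_rpow ‖u x‖ₑ ‖v x‖ₑ (p := 2) one_le_two |>.trans_eq
    (by norm_num)

variable (F l) in
/-- convergence to zero in `L²` -/
structure N0 (S : α → Set M) (f : α → M → N) : Prop where
  sm : ∀ᶠ i in l, IsOpen (S i) ∧ ∀ x ∈ S i, SA I (f i) x
  z : Tendsto (fun i => I2 F (S i) (f i)) l (𝓝 0)

variable (F l) in
/-- convergence to zero in `L²` with all derivatives -/
def Nl (S : α → Set M) (f : α → M → N) : Prop := ∀ w, N0 F l S fun i => F.Dw w (f i)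

variable (F l) in
/-- uniform bounds -/
def Bb (S : α → Set M) (f : α → M → N) : Prop := ∀ k, ∃ C, ∀ᶠ i in l, Lb F (S i) k (f i) C

variable (F l) in
/-- uniform convergence to zero with all derivatives -/
def Cn (S : α → Set M) (f : α → M → N) : Prop := ∀ k, ∀ η > 0, ∀ᶠ i in l, Lb F (S i) k (f i) η

theorem tendsto_le {a b : α → ℝ≥0∞} (hb : Tendsto b l (𝓝 0)) (h : ∀ᶠ i in l, a i ≤ b i) :
    Tendsto a l (𝓝 0) :=
  tendsto_of_tendsto_of_tendsto_of_le_of_le' tendsto_const_nhds hb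
    (.of_forall fun _ => zero_le) h

namespace N0

theorem le (h : N0 F l S g) (hf : ∀ᶠ i in l, ∀ x ∈ S i, SA I (f i) x) {c : ℝ}
    (e : ∀ᶠ i in l, ∀ x ∈ S i, ‖f i x‖ ≤ c * ‖g i x‖) : N0 F l S f :=
  ⟨(h.sm.and hf).mono fun _ hi => ⟨hi.1.1, hi.2⟩,
    tendsto_le (by simpa using ENNReal.Tendsto.const_mul h.z (.inr ENNReal.ofReal_ne_top))
      ((h.sm.and e).mono fun _ hi => I2_le hi.1.1 hi.2)⟩

theorem congr (h : N0 F l S f) (e : ∀ᶠ i in l, ∀ x ∈ S i, f' i x = f i x) : N0 F l S f' :=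
  h.le (c := 1) ((h.sm.and e).mono fun _ hi x hx => (hi.1.2 x hx).congr_of_eventuallyEq
    (Eventually.mono (hi.1.1.mem_nhds hx) hi.2)) (e.mono fun _ hi x hx => by rw [hi x hx, one_mul])

theorem add (h : N0 F l S f) (h' : N0 F l S f') : N0 F l S fun i x => f i x + f' i x :=
  ⟨(h.sm.and h'.sm).mono fun _ hi => ⟨hi.1.1, fun x hx => (hi.1.2 x hx).add (hi.2.2 x hx)⟩,
    tendsto_le (by simpa using ENNReal.Tendsto.const_mul (a := 2) (h.z.add h'.z) (.inr (by simp)))
      (h.sm.mono fun _ hi => I2_add hi.1 hi.2)⟩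

theorem sub (h : N0 F l S f) (e : ∀ᶠ i in l, IsOpen (S' i) ∧ S' i ⊆ S i) : N0 F l S' f :=
  ⟨(h.sm.and e).mono fun _ hi => ⟨hi.2.1, fun x hx => hi.1.2 x (hi.2.2 hx)⟩,
    tendsto_le h.z (e.mono fun _ hi => lintegral_mono_set hi.2)⟩

theorem union (h : N0 F l S f) (h' : N0 F l S' f) : N0 F l (fun i => S i ∪ S' i) f :=
  ⟨(h.sm.and h'.sm).mono fun _ hi => ⟨hi.1.1.union hi.2.1, fun x hx =>
      hx.elim (hi.1.2 x) (hi.2.2 x)⟩,
    tendsto_le (b := fun i => I2 F (S i) (f i) + I2 F (S' i) (f i)) (by simpa using h.z.add h'.z)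
      (.of_forall fun _ => lintegral_union_le _ _ _)⟩

end N0

namespace Bb

theorem D (h : Bb F l S f) (a : ι) : Bb F l S fun i => F.D a (f i) := fun k =>
  (h (k + 1)).imp fun _ h => h.mono fun _ hi => hi.D a

theorem of_cb {u : M → N} (h : F.Cb u) : Bb F l S fun _ => u := fun k =>
  let ⟨C, hC⟩ := h; ⟨C k, .of_forall fun _ => Lb.of_CB hC.1 (hC.2 k)⟩

theorem of_cbs {C : ℕ → ℝ} (h : ∀ i, F.CBs (f i) C) : Bb F l S f := fun k =>
  ⟨C k, .of_forall fun i => Lb.of_CB (h i).1 ((h i).2 k)⟩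

theorem sm (h : Bb F l S f) : ∀ᶠ i in l, ∀ x ∈ S i, SA I (f i) x :=
  let ⟨_, h⟩ := h 0; h.mono fun _ hi _ hx => hi.sm hx

theorem sub (h : Bb F l S f) (e : ∀ᶠ i in l, S' i ⊆ S i) : Bb F l S' f := fun k =>
  (h k).imp fun _ h => (h.and e).mono fun _ hi => hi.1.sub hi.2

theorem congr (h : Bb F l S f) (o : ∀ᶠ i in l, IsOpen (S i))
    (e : ∀ᶠ i in l, ∀ x ∈ S i, f' i x = f i x) : Bb F l S f' := fun k =>
  (h k).imp fun _ h => ((h.and o).and e).mono fun _ hi => hi.1.1.congr hi.1.2 hi.2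

theorem add (h : Bb F l S f) (h' : Bb F l S f') (o : ∀ᶠ i in l, IsOpen (S i)) :
    Bb F l S fun i x => f i x + f' i x := fun k =>
  let ⟨_, a⟩ := h k; let ⟨_, b⟩ := h' k
  ⟨_, ((a.and b).and o).mono fun _ hi => hi.1.1.add hi.2 hi.1.2⟩

theorem bil (B : N →L[ℝ] N' →L[ℝ] N'') (h : Bb F l S f) (h' : Bb F l S g)
    (o : ∀ᶠ i in l, IsOpen (S i)) : Bb F l S fun i x => B (f i x) (g i x) := fun k =>
  let ⟨_, a⟩ := h k; let ⟨_, b⟩ := h' k
  ⟨_, ((a.and b).and o).mono fun _ hi =>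
    Lb.bil hi.2 B (abs_nonneg _) (abs_nonneg _) hi.1.1.abs hi.1.2.abs⟩

theorem clm (L : N →L[ℝ] N') (h : Bb F l S f) (o : ∀ᶠ i in l, IsOpen (S i)) :
    Bb F l S fun i x => L (f i x) := fun k =>
  let ⟨_, a⟩ := h k; ⟨_, (a.and o).mono fun _ hi => hi.1.clm hi.2 L⟩

end Bb

namespace Cn

theorem bb (h : Cn F l S f) : Bb F l S f := fun k => ⟨1, h k 1 one_pos⟩

theorem D (h : Cn F l S f) (a : ι) : Cn F l S fun i => F.D a (f i) := fun k η hη =>
  (h (k + 1) η hη).mono fun _ hi => hi.D a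

theorem sub (h : Cn F l S f) (e : ∀ᶠ i in l, S' i ⊆ S i) : Cn F l S' f := fun k η hη =>
  ((h k η hη).and e).mono fun _ hi => hi.1.sub hi.2

theorem congr (h : Cn F l S f) (o : ∀ᶠ i in l, IsOpen (S i))
    (e : ∀ᶠ i in l, ∀ x ∈ S i, f' i x = f i x) : Cn F l S f' := fun k η hη =>
  (((h k η hη).and o).and e).mono fun _ hi => hi.1.1.congr hi.1.2 hi.2

theorem of_mul (h : ∀ k, ∃ C : ℝ, ∀ η > 0, ∀ᶠ i in l, Lb F (S i) k (f i) (C * η)) : Cn F l S f :=
  fun k η hη => by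
    obtain ⟨C, h⟩ := h k
    refine (h (η / (|C| + 1)) (by positivity)).mono fun _ hi => hi.mono ?_
    rw [mul_div_assoc', div_le_iff₀ (by positivity)]
    nlinarith [le_abs_self C]

theorem add (h : Cn F l S f) (h' : Cn F l S f') (o : ∀ᶠ i in l, IsOpen (S i)) :
    Cn F l S fun i x => f i x + f' i x := of_mul fun k => ⟨2, fun η hη =>
  (((h k η hη).and (h' k η hη)).and o).mono fun _ hi => (hi.1.1.add hi.2 hi.1.2).mono (by linarith)⟩

theorem bil (B : N →L[ℝ] N' →L[ℝ] N'') (h : Bb F l S f) (h' : Cn F l S g)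
    (o : ∀ᶠ i in l, IsOpen (S i)) : Cn F l S fun i x => B (f i x) (g i x) := of_mul fun k =>
  let ⟨_, a⟩ := h k
  ⟨_, fun η hη => ((a.and (h' k η hη)).and o).mono fun _ hi =>
    Lb.bil hi.2 B (abs_nonneg _) hη.le hi.1.1.abs hi.1.2⟩

theorem clm (L : N →L[ℝ] N') (h : Cn F l S f) (o : ∀ᶠ i in l, IsOpen (S i)) :
    Cn F l S fun i x => L (f i x) := of_mul fun k =>
  ⟨_, fun η hη => ((h k η hη).and o).mono fun _ hi => hi.1.clm hi.2 L⟩

end Cn

namespace Nl

theorem sm (h : Nl F l S f) : ∀ᶠ i in l, IsOpen (S i) ∧ ∀ x ∈ S i, SA I (f i) x := (h []).sm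

theorem op (h : Nl F l S f) : ∀ᶠ i in l, IsOpen (S i) := h.sm.mono fun _ hi => hi.1

theorem mk' (h : ∀ᶠ i in l, IsOpen (S i) ∧ ∀ x ∈ S i, SA I (f i) x)
    (z : ∀ w, Tendsto (fun i => I2 F (S i) (F.Dw w (f i))) l (𝓝 0)) : Nl F l S f := fun w =>
  ⟨h.mono fun i hi => ⟨hi.1, fun x hx => sa_Dw (u := f i) w (hi.2 x hx)⟩, z w⟩

theorem D (h : Nl F l S f) (a : ι) : Nl F l S fun i => F.D a (f i) := fun w => h (a :: w)

theorem Dw (h : Nl F l S f) (w : List ι) : Nl F l S fun i => F.Dw w (f i) := fun w' => by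
  simpa only [Dw_append] using h (w ++ w')

theorem of_D (h : N0 F l S f) (h' : ∀ a, Nl F l S fun i => F.D a (f i)) : Nl F l S f
  | [] => h
  | a :: w => h' a w

theorem congr (h : Nl F l S f) (e : ∀ᶠ i in l, ∀ x ∈ S i, f' i x = f i x) : Nl F l S f' := fun w =>
  (h w).congr ((h.op.and e).mono fun _ hi _ hx => Dw_on hi.1 w hi.2 hx)

theorem add (h : Nl F l S f) (h' : Nl F l S f') : Nl F l S fun i x => f i x + f' i x := fun w =>
  ((h w).add (h' w)).congr ((h.sm.and h'.sm).mono fun _ hi => Dw_add_on hi.1.1 w hi.1.2 hi.2.2)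

theorem sub (h : Nl F l S f) (e : ∀ᶠ i in l, IsOpen (S' i) ∧ S' i ⊆ S i) : Nl F l S' f := fun w =>
  (h w).sub e

theorem union (h : Nl F l S f) (h' : Nl F l S' f) : Nl F l (fun i => S i ∪ S' i) f := fun w =>
  (h w).union (h' w)

theorem cover (h : Nl F l S f) (h' : Nl F l S' f) (e : ∀ᶠ i in l, IsOpen (S'' i) ∧
    S'' i ⊆ S i ∪ S' i) : Nl F l S'' f := (h.union h').sub e

theorem bil (B : N →L[ℝ] N' →L[ℝ] N'') (h : Bb F l S f) (h' : Nl F l S g) :
    Nl F l S fun i x => B (f i x) (g i x) := fun w => by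
  induction w generalizing f g with
  | nil =>
    obtain ⟨C, hC⟩ := h 0
    exact (h' []).le (c := ‖B‖ * C) ((hC.and h'.sm).mono fun _ hi x hx =>
      SA.app (sa_clm B (hi.1.sm hx)) (hi.2.2 x hx)) (hC.mono fun i hi x hx =>
        (B.le_opNorm₂ _ _).trans (mul_le_mul_of_nonneg_right
          (mul_le_mul_of_nonneg_left (hi.le hx) B.opNorm_nonneg) (norm_nonneg (g i x))))
  | cons a w ih =>
    refine ((ih (h.D a) h').add (ih h (h'.D a))).congr ((h.sm.and h'.sm).mono fun i hi x hx => ?_)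
    refine .trans (Dw_on hi.2.1 w (v := fun y => B (F.D a (f i) y) (g i y) +
      B (f i y) (F.D a (g i) y)) (fun y hy => dv_bil B (hi.1 y hy).md (hi.2.2 y hy).md) hx) ?_
    exact Dw_add_on hi.2.1 w (fun y hy => SA.app (sa_clm B (sa_D F (hi.1 y hy) a)) (hi.2.2 y hy))
      (fun y hy => SA.app (sa_clm B (hi.1 y hy)) (sa_D F (hi.2.2 y hy) a)) x hx

theorem clm (L : N →L[ℝ] N') (h : Nl F l S f) : Nl F l S fun i x => L (f i x) :=
  bil (ContinuousLinearMap.id ℝ (N →L[ℝ] N')) (.of_cb (Cb_const L)) h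

theorem neg (h : Nl F l S f) : Nl F l S fun i x => -f i x := h.clm (-ContinuousLinearMap.id ℝ N)

theorem sub' (h : Nl F l S f) (h' : Nl F l S f') : Nl F l S fun i x => f i x - f' i x := by
  simpa only [sub_eq_add_neg] using h.add h'.neg

theorem zero (o : ∀ᶠ i in l, IsOpen (S i)) : Nl F l S fun _ _ => (0 : N) := by
  have : ∀ w : List ι, F.Dw w (fun _ : M => (0 : N)) = fun _ => 0 := fun w => by
    induction w with
    | nil => rfl
    | cons a w ih => rw [Pre.Dw, Pre.D_def, dv_const]; exact ih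
  exact mk' (o.mono fun _ hi => ⟨hi, fun _ _ => contMDiffAt_const⟩) fun w => by
    simpa [this, I2] using tendsto_const_nhds

theorem of_zero (o : ∀ᶠ i in l, IsOpen (S i)) (e : ∀ᶠ i in l, ∀ x ∈ S i, f i x = 0) : Nl F l S f :=
  (zero o).congr e

theorem sum {β : Type} (s : Finset β) {u : β → α → M → N} (o : ∀ᶠ i in l, IsOpen (S i))
    (h : ∀ b ∈ s, Nl F l S (u b)) : Nl F l S fun i x => ∑ b ∈ s, u b i x := by
  classical
  induction s using Finset.induction_on with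
  | empty => simpa using zero o
  | insert a s ha ih =>
    simp only [Finset.sum_insert ha]
    exact (h a (by simp)).add (ih fun i hi => h i (by simp [hi]))

/-- windows of bounded volume -/
theorem of_cn (h : Cn F l S f) {V : ℝ≥0∞} (hV : V ≠ ⊤)
    (o : ∀ᶠ i in l, IsOpen (S i) ∧ F.μ (S i) ≤ V) : Nl F l S f := by
  refine mk' ((o.and h.bb.sm).mono fun _ hi => ⟨hi.1.1, hi.2⟩) fun w => ?_
  have h1 : Tendsto (fun η : ℝ => ENNReal.ofReal (η ^ 2) * V) (𝓝[>] 0) (𝓝 0) := by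
    have : Tendsto (fun η : ℝ => ENNReal.ofReal (η ^ 2)) (𝓝 0) (𝓝 (ENNReal.ofReal (0 ^ 2))) :=
      (ENNReal.continuous_ofReal.comp (continuous_pow 2)).tendsto 0
    simpa using (ENNReal.Tendsto.mul_const this (.inr hV)).mono_left nhdsWithin_le_nhds
  refine ENNReal.tendsto_nhds_zero.2 fun ε hε => ?_
  obtain ⟨η, h2, h3⟩ := ((ENNReal.tendsto_nhds_zero.1 h1 ε hε).and self_mem_nhdsWithin).exists
  filter_upwards [o, h w.length η h3] with i h4 h5
  refine (I2_le h4.1 (v := fun _ => (1 : ℝ)) (c := η) fun x hx => ?_).trans (.trans ?_ h2)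
  · simpa using h5.Dw w le_rfl x hx
  · simpa [I2] using mul_le_mul_right h4.2 _

/-- tails -/
theorem of_hh {O : Set M} {u : M → N} (hu : ∀ x ∈ O, SA I u x) (h : Hh F O u)
    {τ : M → ℝ} (hτ : Continuous τ) {r : α → ℝ} (hr : Tendsto r l atTop)
    (o : ∀ᶠ i in l, IsOpen (S i) ∧ S i ⊆ O ∩ {x | r i < τ x}) : Nl F l S fun _ => u := by
  refine mk' (o.mono fun _ hi => ⟨hi.1, fun x hx => hu x (hi.2 hx).1⟩) fun w => ?_
  let μ := (F.μ.restrict O).withDensity fun x => ‖F.Dw w u x‖ₑ ^ 2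
  have m : ∀ r : ℝ, MeasurableSet {x | r < τ x} := fun r =>
    (isOpen_lt continuous_const hτ).measurableSet
  have h1 : μ univ ≠ ⊤ := by
    rw [withDensity_apply _ MeasurableSet.univ, Measure.restrict_univ]
    have := (h w).2
    rw [hasFiniteIntegral_iff_enorm] at this
    simpa [enorm_pow] using this.ne
  have h2 := tendsto_measure_iInter_atTop (μ := μ) (s := fun r : ℝ => {x | r < τ x})
    (fun r => (m r).nullMeasurableSet) (fun a b hab x hx => hab.trans_lt hx)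
    ⟨0, ne_top_of_le_ne_top h1 (measure_mono (subset_univ _))⟩
  rw [show ⋂ r : ℝ, {x | r < τ x} = ∅ from eq_empty_of_forall_notMem fun x hx =>
    lt_irrefl (τ x) (mem_iInter.1 hx (τ x)), measure_empty] at h2
  refine tendsto_le (h2.comp hr) (o.mono fun i hi => ?_)
  show _ ≤ μ _
  rw [withDensity_apply _ (m _), Measure.restrict_restrict (m _), inter_comm]
  exact lintegral_mono_set hi.2

theorem n2 (k : ℕ) : ∀ {f : α → M → N}, Nl F l (fun _ => univ) f →
    (∀ᶠ i in l, FL F k (f i)) ∧ Tendsto (fun i => N2 F k (f i)) l (𝓝 0) := by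
  have h0 : ∀ {f : α → M → N}, Nl F l (fun _ => univ) f →
      (∀ᶠ i in l, FL F 0 (f i)) ∧ Tendsto (fun i => N2 F 0 (f i)) l (𝓝 0) := fun {f} h => by
    have e : ∀ᶠ i in l, Integrable (fun x => ‖f i x‖ ^ 2) F.μ ∧ Sm I (f i) := by
      filter_upwards [h.sm, (h []).z.eventually_lt_const ENNReal.zero_lt_top] with i h1 h2
      have h3 : Sm I (f i) := fun x => h1.2 x trivial
      refine ⟨⟨(h3.continuous.norm.pow 2).aestronglyMeasurable, ?_⟩, h3⟩
      rw [hasFiniteIntegral_iff_enorm]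
      simpa [enorm_pow, I2, Pre.Dw] using h2
    refine ⟨e.mono fun i hi => (memLp_two_iff_integrable_sq_norm
      hi.2.continuous.aestronglyMeasurable).2 hi.1, ?_⟩
    refine (((ENNReal.tendsto_toReal ENNReal.zero_ne_top).comp (h []).z).congr' (e.mono fun i hi => ?_))
    show (I2 F univ (f i)).toReal = ∫ x, ‖f i x‖ ^ 2 ∂F.μ
    rw [integral_eq_lintegral_of_nonneg_ae (.of_forall fun _ => sq_nonneg _) hi.1.1, I2,
      Measure.restrict_univ]
    simp [ENNReal.ofReal_pow]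
  induction k with
  | zero => exact h0
  | succ k ih =>
    intro f h
    refine ⟨((h0 h).1.and (eventually_all.2 fun a => (ih (h.D a)).1)).mono fun _ hi => hi, ?_⟩
    have := (h0 h).2.add (tendsto_finsetSum Finset.univ fun a _ => (ih (h.D a)).2)
    rw [Finset.sum_const_zero, add_zero] at this
    exact this

end Nl

theorem I2_of_n2 (w : List ι) : ∀ {k : ℕ} {u : M → N}, w.length ≤ k → FL F k u →
    I2 F univ (F.Dw w u) ≤ ENNReal.ofReal (N2 F k u) := by
  induction w with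
  | nil =>
    intro k u _ h
    have h1 := (memLp_two_iff_integrable_sq_norm h.memLp.1).1 h.memLp
    refine .trans (le_of_eq ?_) (ENNReal.ofReal_le_ofReal (n2_mono (Nat.zero_le k) u))
    show _ = ENNReal.ofReal (∫ x, ‖u x‖ ^ 2 ∂F.μ)
    rw [ofReal_integral_eq_lintegral_ofReal h1 (.of_forall fun _ => sq_nonneg _), I2,
      Measure.restrict_univ]
    simp [ENNReal.ofReal_pow, Pre.Dw]
  | cons a w ih =>
    intro k u hk h
    obtain _ | k := k
    · simp at hk
    refine (ih (by simpa using hk) (h.2 a)).trans (ENNReal.ofReal_le_ofReal ?_)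
    exact (Finset.single_le_sum (f := fun a => N2 F k (F.D a u)) (fun a _ => n2_nonneg _ _)
      (Finset.mem_univ a)).trans (le_add_of_nonneg_left
        (integral_nonneg fun _ => sq_nonneg _))

/-- Sobolev -/
theorem Nl.cn {F : Fr I M ι} {C : ℕ → ℝ} (hT : F.Tame C) (h : Nl F.toPre l S f) {β : α → M → ℝ}
    (hβ : Bb F.toPre l (fun _ => univ) β)
    (e : ∀ᶠ i in l, tsupport (β i) ⊆ S i ∧ IsOpen (S' i) ∧ ∀ x ∈ S' i, β i x = 1) :
    Cn F.toPre l S' f := by
  have h1 : Nl F.toPre l (fun _ => univ) fun i x => β i x • f i x := by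
    refine (Nl.bil (ContinuousLinearMap.lsmul ℝ ℝ) (hβ.sub (.of_forall fun _ => subset_univ _))
      h).cover (Nl.of_zero (S := fun i => (tsupport (β i))ᶜ) (.of_forall fun i =>
        (isClosed_tsupport _).isOpen_compl) (.of_forall fun i x hx => ?_))
        (e.mono fun i hi => ⟨isOpen_univ, fun x _ => ?_⟩)
    · simp [image_eq_zero_of_notMem_tsupport hx]
    · exact (em _).imp (@hi.1 x) id
  have h2 : ∀ w, ∀ η > 0, ∀ᶠ i in l, ∀ x, ‖F.Dw w (fun x => β i x • f i x) x‖ ≤ η := by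
    intro w η hη
    have h3 := h1.Dw w
    have h4 := (((Nl.n2 4 h3).2.const_mul ((cK ι 4 * ‖ContinuousLinearMap.lsmul ℝ ℝ (E := N)‖ *
      C 4) ^ 2)).const_mul |C 0|).eventually_lt_const (u := η ^ 2) (by simpa using pow_pos hη 2)
    filter_upwards [h4, h3.sm, (Nl.n2 4 h3).1] with i h4 h5 h6 x
    generalize F.Dw w (fun x => β i x • f i x) = g at *
    have h7 : Sm I g := fun x => h5.2 x trivial
    obtain ⟨χ, h2, h3, -, h8⟩ := hT.exh {x} isCompact_singleton
    have h9 := (Sup.of_tame hT).sq_le (u := fun y => χ y • g y) (h2.1.smul h7)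
      (hcs_bil_left (ContinuousLinearMap.lsmul ℝ ℝ) g h3) x
    rw [h8 x rfl, one_smul] at h9
    exact (abs_le_of_sq_le_sq' ((h9.trans (mul_le_mul_of_nonneg_left (N2_mul
      (ContinuousLinearMap.lsmul ℝ ℝ) h2.1 h7 (h2.2 4) h6).2 (abs_nonneg _))).trans h4.le) hη.le).2
  intro k η hη
  have h3 : ∀ᶠ i in l, ∀ w ∈ {w : List ι | w.length ≤ k}, ∀ x,
      ‖F.Dw w (fun x => β i x • f i x) x‖ ≤ η :=
    (eventually_all_finite (List.finite_length_le ι k)).2 fun w _ => h2 w η hη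
  filter_upwards [h3, h1.sm, e] with i h3 h4 h5
  exact (Lb.of_Dw (fun x _ => h4.2 x trivial) fun w hw x _ => h3 w hw x).congr h5.2.1
    fun x hx => by rw [h5.2.2 x hx, one_smul]

end Crest.Agent.X212.Sm10.Dg
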