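import Crest.Agent.X212.Sm10.Dg1
import Crest.Agent.X212.Cut71.Hf

/-!
# Row 212, SW-DEG (helper10), part 2: gluing of gauge transformations along a cut
-/

set_option autoImplicit false
set_option linter.unusedSectionVars false
noncomputable section
open scoped Manifold ContDiff Topology InnerProductSpace ENNReal
open MeasureTheory Set Function Filter

namespace Crest.Agent.X212.Sm10.Dg
open An Sw Sob92 Cyf70 Sw.En3
open Wz78 (SA)
open Pb50 (th LG Hi Gl nd nd_basis src)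
open Cut71 (half_nk half_inv mem_img tm_tgt pm_not pm_sq sH sH_lit)
open M (Mf pm)

variable {κ lam ν : Type} [Fintype κ] [Fintype lam] [Fintype ν] [DecidableEq ν]
  {X X' X'' : Mf 4} {nc nc' nc'' : ℕ}

section nk
variable {e : En3 κ lam ν} {b : Bg X.I X.M κ lam ν nc} {K : Nk e b} {s : Bool} {t t' : ℝ}

theorem J_up (h : K.Inf s) (ht : t ∈ K.J) (k : pm s * t ≤ pm s * t') : t' ∈ K.J :=
  Cut71.deep_zero K ▸ Cut71.up h (D := 0) (Cut71.deep_zero K ▸ ht :) k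

theorem gl_sh {N : Type} [NormedAddCommGroup N] [NormedSpace ℝ N] {f : e.Y.M × ℝ → N}
    (h : Gl e.D.F.toPre s f) (δ : ℝ) : Gl e.D.F.toPre s fun x => f (x.1, x.2 + δ) := by
  obtain ⟨g, hg, h⟩ := h
  refine ⟨fun x => g (x.1, x.2 + δ), ⟨hg.1.comp (Cut71.sm_sH δ), fun k => ?_⟩, ?_⟩
  · have := FL_pull (sH_lit (e := e) δ).iso k hg.1
      ⟨subset_univ _, by simpa using (isClosed_tsupport g).preimage (sH e δ).continuous⟩ (hg.2 k)
    rwa [show pull (sH e δ).toOpenPartialHomeomorph g = _ from indicator_univ _] at this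
  · obtain ⟨T, -, hT⟩ := nd_basis.eventually_iff.1 h
    exact nd_basis.eventually_iff.2 ⟨T - pm s * δ, trivial, fun x hx =>
      hT (x := (x.1, x.2 + δ)) (by simp only [mem_ofPred_eq] at hx ⊢; linarith)⟩

theorem asyG_of_one (h : K.Inf s) {u : X.M → ℂ} (hu : Sm X.I u)
    (e' : ∀ᶠ x in nd e.Y.M s, u (K.ψ x) = 1) : K.AsyG s u :=
  (Pb50.asyG_iff K h hu).2 ⟨0, Hi.zero, e'.mono fun _ hx => sub_eq_zero.2 hx⟩

theorem not_off {A : Type} [Fintype A] {e : A → En3 κ lam ν} {P : Pz X nc e} {j : A}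
    {K : Nk (e j) P.bg} (hK : K ∈ P.nk j) (h : K.Inf s) : ¬P.Off j := fun k => by
  obtain ⟨a, h1, h2⟩ := k K hK
  cases s <;> simp [Nk.Inf, h1, h2] at h

end nk

variable {d : Dt κ lam ν} [Fintype d.𝓔] {Sl : Type} [Fintype Sl]

/-- both sides of a cut -/
structure Tw (P : PcS d Sl X nc) (P' : PcS d Sl X' nc') (P'' : PcS d Sl X'' nc'') (ε : d.𝓔)
    (a a' a'' : Sl) (b : Bool) (φ : OpenPartialHomeomorph X'.M X.M)
    (φ'' : OpenPartialHomeomorph X''.M X.M) (δ δ'' : ℝ) (K : Nk (d.e ε) P.bg)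
    (K' : Nk (d.e ε) P'.bg) (K'' : Nk (d.e ε) P''.bg) : Prop where
  ok : P.OK
  ok' : P'.OK
  ok'' : P''.OK
  H : ∃ r O π cc r'' O'' cc'', Half P P' ε a a' b φ δ r O π cc ∅ ∧
    Half P P'' ε a a'' (!b) φ'' δ'' r'' O'' π cc'' ∅ ∧ ∀ j ≠ (ε, a), O j ∨ O'' j
  hK : P.nk (ε, a) = some K
  hK' : P'.nk (ε, a') = some K'
  hK'' : P''.nk (ε, a'') = some K''
  cov : φ.target ∪ φ''.target = univ
  ov : φ.target ∩ φ''.target = K.ψ.target

open Classical in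
/-- extension by `1` -/
def ext1 (φ : OpenPartialHomeomorph X'.M X.M) (v : X'.M → ℂ) (z : X.M) : ℂ :=
  if z ∈ φ.target then v (φ.symm z) else 1

theorem ext1_φ {φ : OpenPartialHomeomorph X'.M X.M} (v : X'.M → ℂ) {x : X'.M} (hx : x ∈ φ.source) :
    ext1 φ v (φ x) = v x := by rw [ext1, if_pos (φ.map_source hx), φ.left_inv hx]

namespace Tw
variable {P : PcS d Sl X nc} {P' : PcS d Sl X' nc'} {P'' : PcS d Sl X'' nc''} {ε : d.𝓔}
  {a a' a'' : Sl} {b : Bool} {φ : OpenPartialHomeomorph X'.M X.M}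
  {φ'' : OpenPartialHomeomorph X''.M X.M} {δ δ'' : ℝ} {K : Nk (d.e ε) P.bg}
  {K' : Nk (d.e ε) P'.bg} {K'' : Nk (d.e ε) P''.bg} {τ t : ℝ}
  (h : Tw P P' P'' ε a a' a'' b φ φ'' δ δ'' K K' K'')
include h

theorem symm : Tw P P'' P' ε a a'' a' (!b) φ'' φ δ'' δ K K'' K' :=
  let ⟨r, O, π, cc, r'', O'', cc'', H, H'', k⟩ := h.H
  ⟨h.ok, h.ok'', h.ok', ⟨r'', O'', π, cc'', r, O, cc, H'', by rwa [Bool.not_not],
    fun j hj => (k j hj).symm⟩, h.hK, h.hK'', h.hK', union_comm _ _ ▸ h.cov, inter_comm _ _ ▸ h.ov⟩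

theorem lit : P'.bg.Lit P.bg φ := let ⟨_, _, _, _, _, _, _, H, _⟩ := h.H; H.lit

theorem inf : K'.Inf b := let ⟨_, _, _, _, _, _, _, H, _⟩ := h.H; (half_nk H h.hK h.hK').1

theorem pq : if b then K.p = K'.p.map (· + δ) else K.q = K'.q.map (· + δ) :=
  let ⟨_, _, _, _, _, _, _, H, _⟩ := h.H; (half_nk H h.hK h.hK').2.1

theorem src_iff (x : X'.M) : x ∈ φ.source ↔ (K'.tm x ∈ K'.J → K'.tm x + δ ∈ K.J) :=
  let ⟨_, _, _, _, _, _, _, H, _⟩ := h.H; (half_nk H h.hK h.hK').2.2.1 x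

theorem inv (ht : t ∈ K.J) (y : (d.e ε).Y.M) : t - δ ∈ K'.J ∧ K'.ψ (y, t - δ) ∈ φ.source ∧
    φ (K'.ψ (y, t - δ)) = K.ψ (y, t) := by
  obtain ⟨_, _, _, _, _, _, _, H, _⟩ := h.H
  simpa using half_inv H h.hK h.hK' (t := t - δ) (by simpa using ht) y

theorem J_of (h1 : t - δ ∈ K'.J) (h2 : t - δ'' ∈ K''.J) : t ∈ K.J := by
  have k1 := h.pq
  have k2 := h.symm.pq
  cases b <;> simp only [Bool.not_false, Bool.not_true, if_true, Bool.false_eq_true, if_false] at k1 k2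
  all_goals
    refine ⟨fun a ha => ?_, fun a ha => ?_⟩ <;> simp only [k1, k2, Option.mem_map] at ha <;>
      obtain ⟨a, ha, rfl⟩ := ha
  exacts [by linarith [h2.1 a ha], by linarith [h1.2 a ha], by linarith [h1.1 a ha],
    by linarith [h2.2 a ha]]

theorem fwd (hτ : τ ∈ K.J) (ht : t ∈ K'.J) (k : pm b * (t + δ) ≤ pm b * τ) : t + δ ∈ K.J := by
  obtain ⟨y⟩ : Nonempty (d.e ε).Y.M := inferInstance
  exact h.J_of (by simpa using ht) (J_up h.symm.inf (h.symm.inv hτ y).1 (by rw [pm_not]; linarith))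

theorem src' (hτ : τ ∈ K.J) {x : X'.M} (k : pm b * (K'.tm x + δ) ≤ pm b * τ) : x ∈ φ.source :=
  (h.src_iff x).2 fun ht => h.fwd hτ ht k

/-- the preimage of a point of the neck -/
theorem pre {x : X'.M} (hx : x ∈ φ.source) (k : φ x ∈ K.ψ.target) :
    ∃ y, ∃ t ∈ K.J, x = K'.ψ (y, t - δ) ∧ K'.tm x = t - δ ∧ φ x = K.ψ (y, t) := by
  have h1 := K.mem_src.1 (K.ψ.map_target k)
  obtain ⟨h2, h3, h4⟩ := h.inv h1 (K.ψ.symm (φ x)).1
  have h5 := K.ψ.right_inv k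
  have h6 := φ.injOn hx h3 (h4.trans h5).symm
  exact ⟨_, _, h1, h6, (congrArg K'.tm h6).trans (K'.tm_ψ _ (src K' h2 _)), h5.symm⟩

variable {v : X'.M → ℂ} (hτ : τ ∈ K.J)
  (h1 : ∀ x, pm b * τ ≤ pm b * (K'.tm x + δ) → v x = 1)
include h1

theorem ext_one {x : X''.M} (hx : x ∈ φ''.source) (k : pm b * τ ≤ pm b * (K''.tm x + δ'')) :
    ext1 φ v (φ'' x) = 1 := by
  by_cases h2 : φ'' x ∈ φ.target
  · obtain ⟨y, t, ht, -, h3, h4⟩ := h.symm.pre hx (h.ov ▸ ⟨h2, φ''.map_source hx⟩)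
    obtain ⟨h5, h6, h7⟩ := h.inv ht y
    rw [h4, ← h7, ext1_φ v h6]
    exact h1 _ (by rw [K'.tm_ψ _ (src K' h5 y)]; simpa [h3] using k)
  · exact if_neg h2

include hτ

theorem ext_sm (hv : Sm X'.I v) : Sm X.I (ext1 φ v) := fun z => by
  by_cases h2 : z ∈ φ.target
  · exact ((hv _).comp z (iso_smAt (iso_symm h.lit.iso) h2)).congr_of_eventuallyEq
      (Eventually.mono (φ.open_target.mem_nhds h2) fun _ hy => if_pos hy)
  have h3 : z ∈ φ''.target := (h.cov ▸ mem_univ z : z ∈ φ.target ∪ φ''.target).resolve_left h2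
  have h4 := φ''.map_target h3
  have h5 : pm b * τ < pm b * (K''.tm (φ''.symm z) + δ'') := lt_of_not_ge fun k => h2 <| by
    obtain ⟨y⟩ : Nonempty (d.e ε).Y.M := inferInstance
    have k1 : K''.tm (φ''.symm z) ∈ K''.J :=
      J_up h.symm.inf (h.symm.inv hτ y).1 (by rw [pm_not]; linarith)
    have k2 := (h.symm.src_iff _).1 h4 k1
    have k3 := (tm_tgt K'').2 k1
    have k4 := (h.symm.inv k2 (K''.ψ.symm (φ''.symm z)).1).2.2
    rw [add_sub_cancel_right, ← K''.ψ.right_inv k3, K''.tm_ψ _ (K''.ψ.map_target k3),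
      K''.ψ.left_inv (K''.ψ.map_target k3), K''.ψ.right_inv k3, φ''.right_inv h3] at k4
    rw [← K''.ψ.right_inv k3, K''.tm_ψ _ (K''.ψ.map_target k3)] at k2
    exact (h.ov.ge (k4 ▸ K.ψ.map_source (src K k2 _))).1
  have h6 : ContinuousAt (fun z => pm b * (K''.tm (φ''.symm z) + δ'')) z :=
    continuousAt_const.mul ((K''.cont.continuousAt.comp (φ''.continuousAt_symm h3)).add
      continuousAt_const)
  refine (contMDiffAt_const (c := 1)).congr_of_eventuallyEq ?_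
  filter_upwards [φ''.open_target.mem_nhds h3, h6.eventually_const_lt h5] with y k1 k2
  rw [← φ''.right_inv k1]
  exact h.ext_one h1 (φ''.map_target k1) k2.le

theorem ext_al (hv : P'.Al v) : P.Al (ext1 φ v) := by
  have sm := h.ext_sm hτ h1 hv.1.1
  refine ⟨⟨sm, fun z => by unfold ext1; split_ifs; exacts [hv.1.2 _, norm_one]⟩,
    fun j s K₁ hK₁ hs => ?_⟩
  by_cases hj : j = (ε, a)
  · subst hj
    obtain rfl := Option.some.inj (h.hK.symm.trans hK₁)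
    by_cases hb : s = b
    · subst hb
      refine asyG_of_one hs sm ?_
      filter_upwards [Pb50.ev_J K hs, nd_basis.mem_of_mem (i := pm s * τ) trivial] with x k1 k2
      obtain ⟨k3, k4, k5⟩ := h.symm.inv k1 x.1
      rw [show K.ψ x = _ from k5.symm]
      exact h.ext_one h1 k4 (by rw [K''.tm_ψ _ (src K'' k3 _)]; simpa using le_of_lt k2)
    · have k : K'.Inf s := by
        have := h.pq
        cases s <;> cases b <;> simp_all [Nk.Inf]
      refine (Pb50.asyG_iff K hs sm).2 ((gl_sh ((Pb50.asyG_iff K' k hv.1.1).1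
        (hv.2 (ε, a') s K' h.hK' k)) (-δ)).congr ((Pb50.ev_J K hs).mono fun x hx => ?_))
      obtain ⟨-, k4, k5⟩ := h.inv hx x.1
      simp only [show K.ψ x = _ from k5.symm, ← sub_eq_add_neg, ext1_φ v k4]
  obtain ⟨_, O, π, _, _, O'', _, H, H'', k⟩ := h.H
  rcases k j hj with k | k
  · obtain ⟨-, -, k | ⟨K₀, k1, K₁', k2, k3, k4, k5, k6⟩⟩ := H.oth j k
    · exact absurd k.1 (not_off hK₁ hs)
    obtain rfl := Option.some.inj (k1.symm.trans hK₁)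
    have k7 : K₁'.Inf s := by simpa only [Nk.Inf, k3, k4] using hs
    refine (Pb50.asyG_iff K₀ hs sm).2 (((Pb50.asyG_iff K₁' k7 hv.1.1).1
      (hv.2 _ s K₁' k2 k7)).congr ((Pb50.ev_ψ K₁' k7).mono fun x hx => ?_))
    simp only [k6 x hx, ext1_φ v (k5 (K₁'.ψ.map_source hx))]
  · obtain ⟨-, -, k | ⟨K₀, k1, K₁', k2, k3, k4, k5, k6⟩⟩ := H''.oth j k
    · exact absurd k.1 (not_off hK₁ hs)
    obtain rfl := Option.some.inj (k1.symm.trans hK₁)
    have k7 : K₁'.Inf s := by simpa only [Nk.Inf, k3, k4] using hs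
    refine asyG_of_one hs sm ?_
    filter_upwards [Pb50.ev_ψ K₁' k7, Pb50.ev_ψ K₀ hs] with x k8 k9
    refine if_neg fun k => Set.disjoint_left.1 (h.ok.dj hj K₀ hK₁ K h.hK) (K₀.ψ.map_source k9) ?_
    exact h.ov ▸ ⟨k, k6 x k8 ▸ φ''.map_source (k5 (K₁'.ψ.map_source k8))⟩

omit h1 in
/-- gluing -/
theorem glue {v'' : X''.M → ℂ} {τ'' : ℝ} (hτ'' : τ'' ∈ K.J) (hv : P'.Al v) (hv'' : P''.Al v'')
    (h1 : ∀ x, pm b * τ ≤ pm b * (K'.tm x + δ) → v x = 1)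
    (h2 : ∀ x, pm (!b) * τ'' ≤ pm (!b) * (K''.tm x + δ'') → v'' x = 1) :
    ∃ g, P.Al g ∧ (∀ x, pm b * (K'.tm x + δ) ≤ pm b * τ'' → g (φ x) = v x) ∧
      ∀ x, pm (!b) * (K''.tm x + δ'') ≤ pm (!b) * τ → g (φ'' x) = v'' x := by
  refine ⟨_, Pb50.al_mul h.ok.toOK (h.ext_al hτ h1 hv) (h.symm.ext_al hτ'' h2 hv''),
    fun x k => ?_, fun x k => ?_⟩
  · have := h.src' hτ'' k
    rw [ext1_φ v this, h.symm.ext_one h2 this (by rw [pm_not]; linarith), one_mul]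
  · have := h.symm.src' hτ k
    rw [ext1_φ v'' this, h.ext_one h1 this (by rw [pm_not] at k; linarith), mul_one]

end Tw

theorem pb_act {b : Bg X.I X.M κ lam ν nc} {b' : Bg X'.I X'.M κ lam ν nc'}
    {φ : OpenPartialHomeomorph X'.M X.M} (h : b'.Lit b φ) {x : X'.M} (hx : x ∈ φ.source)
    {g : X.M → ℂ} {v : X'.M → ℂ} (e : ∀ᶠ y in 𝓝 x, v y = g (φ y)) (c : Cfg X.M κ ν) :
    At ((b.act g c).pb φ) (b'.act v (c.pb φ)) x :=
  ⟨fun a => by
    simp only [Cfg.pb, Bg.act, (Cut71.rel h).D hx a e, e.self_of_nhds],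
    by simp only [Cfg.pb, Bg.act, h.J, e.self_of_nhds]⟩

end Crest.Agent.X212.Sm10.Dg
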