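import Crest.Agent.X212.Sm10.Dg2

/-!
# Row 212, SW-DEG (helper10), part 3: one side of a degeneration, `DzP`
-/

set_option autoImplicit false
set_option linter.unusedSectionVars false
noncomputable section
open scoped Manifold ContDiff Topology InnerProductSpace ENNReal
open MeasureTheory Set Function Filter

namespace Crest.Agent.X212.Sm10.Dg
open An Sw Sob92 Cyf70 Sw.En3
open Wz78 (SA)
open Sep15.S (sa_clm)
open Pb50 (th LG LA Hi Gl nd nd_basis src)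
open Cut71 (mem_img tm_tgt pm_not pm_sq)
open M (Mf pm)

variable {κ lam ν : Type} [Fintype κ] [Fintype lam] [Fintype ν] [DecidableEq ν]
  {X X' X'' : Mf 4} {nc nc' nc'' nr nr' nr'' : ℕ} {α : Type} {l : Filter α}

section gen
variable {ι A N : Type} [Fintype ι] [Fintype A] [NormedAddCommGroup N] [NormedSpace ℝ N]

open Classical in
theorem toLp_eq (v : A → ℝ) : (WithLp.toLp 2 v : Fm A ℝ) =
    ∑ a, (ContinuousLinearMap.id ℝ ℝ).smulRight (PiLp.single 2 a (1 : ℝ) : Fm A ℝ) (v a) := by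
  ext a
  simp [Finset.sum_apply, Pi.single_apply]

theorem sa_toLp {f : A → X.M → ℝ} {x : X.M} (h : ∀ a, SA X.I (f a) x) :
    SA X.I (fun x => (WithLp.toLp 2 fun a => f a x : Fm A ℝ)) x := by
  simp only [toLp_eq]
  exact Wz78.SA.sum _ fun a _ => sa_clm _ (h a)

theorem Nl.toLp {F : Pre X.I X.M ι} {S : α → Set X.M} {f : A → α → X.M → ℝ}
    (o : ∀ᶠ i in l, IsOpen (S i)) (h : ∀ a, Nl F l S (f a)) :
    Nl F l S fun i x => (WithLp.toLp 2 fun a => f a i x : Fm A ℝ) := by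
  simp only [toLp_eq]
  exact Nl.sum _ o fun a _ => (h a).clm _

theorem Nl.loc {F : Fr X.I X.M ι} {C : ℕ → ℝ} (hT : F.Tame C) {S : α → Set X.M} {f : α → X.M → N}
    {g : X.M → N} (h : Nl F.toPre l S fun i x => f i x - g x)
    (e : ∀ K, IsCompact K → ∀ᶠ i in l, K ⊆ S i) : TendstoLocallyUniformly f g l := by
  have := Manifold.locallyCompact_of_finiteDimensional (M := X.M) X.I
  refine Metric.tendstoLocallyUniformly_iff.2 fun η hη a => ?_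
  obtain ⟨K, hK, ha⟩ := exists_compact_mem_nhds a
  obtain ⟨χ, h1, h2, -, h3⟩ := hT.exh K hK
  refine ⟨interior K, interior_mem_nhds.2 ha, ?_⟩
  filter_upwards [h.cn hT (β := fun _ => χ) (S' := fun _ => interior K) (.of_cb ⟨_, h1⟩)
    ((e _ h2).mono fun i hi => ⟨hi, isOpen_interior, fun x hx => h3 x (interior_subset hx)⟩) 0 (η / 2)
    (by positivity)] with i hi x hx
  rw [dist_comm, dist_eq_norm]
  linarith [hi.le hx]

theorem NC.iso {E HM M : Type} [NormedAddCommGroup E] [NormedSpace ℝ E] [FiniteDimensional ℝ E]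
    [MeasurableSpace E] [BorelSpace E] [TopologicalSpace HM] {I : ModelWithCorners ℝ E HM}
    [TopologicalSpace M] [ChartedSpace HM M] [IsManifold I ∞ M] [MeasurableSpace M] [T2Space M]
    [BorelSpace M] [SecondCountableTopology M] {F : Fr I M (Option κ)}
    {F' : Fr X.I X.M (Option κ)} {φ : α → OpenPartialHomeomorph M X.M} {S : α → Set M}
    {c c' : α → Cfg X.M κ ν} (h : ∀ᶠ i in l, Iso F.toPre F'.toPre (φ i) ∧ IsOpen (S i) ∧
      S i ⊆ (φ i).source ∧ ∀ x ∈ S i, (∀ a, SA X.I (fun x => (c i).a a x - (c' i).a a x) (φ i x)) ∧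
        SA X.I (fun x => (c i).Φ x - (c' i).Φ x) (φ i x)) :
    NC F.toPre l S (fun i => (c i).pb (φ i)) (fun i => (c' i).pb (φ i)) ↔
      NC F'.toPre l (fun i => φ i '' S i) c c' :=
  and_congr (forall_congr' fun a => Nl.iso (g := fun i x => (c i).a a x - (c' i).a a x)
      (h.mono fun _ hi => ⟨hi.1, hi.2.1, hi.2.2.1, fun x hx => (hi.2.2.2 x hx).1 a⟩))
    (Nl.iso (g := fun i x => (c i).Φ x - (c' i).Φ x)
      (h.mono fun _ hi => ⟨hi.1, hi.2.1, hi.2.2.1, fun x hx => (hi.2.2.2 x hx).2⟩))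

theorem NC.sm {F : Pre X.I X.M (Option κ)} {S : α → Set X.M} {c c' : α → Cfg X.M κ ν}
    (h : NC F l S c c') : ∀ᶠ i in l, ∀ x ∈ S i,
      (∀ a, SA X.I (fun x => (c i).a a x - (c' i).a a x) x) ∧
        SA X.I (fun x => (c i).Φ x - (c' i).Φ x) x :=
  ((eventually_all.2 fun a => (h.1 a).sm).and h.2.sm).mono fun _ hi x hx =>
    ⟨fun a => (hi.1 a).2 x hx, hi.2.2 x hx⟩

end gen

section nk
variable {e : En3 κ lam ν} {b : Bg X.I X.M κ lam ν nc} (K : Nk e b) (s : Bool)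

/-- the part before the depth `r` -/
def Up (r : ℝ) : Set X.M := {x | pm s * K.tm x < r}

theorem isOpen_Up (r : ℝ) : IsOpen (Up K s r) :=
  isOpen_lt (continuous_const.mul K.cont) continuous_const

variable {K s}

theorem big (h : K.Inf s) : ∃ T, ∀ t, T ≤ pm s * t → t ∈ K.J := by
  obtain ⟨T, -, hT⟩ := nd_basis.eventually_iff.1 (Pb50.ev_J K h)
  obtain ⟨y⟩ : Nonempty e.Y.M := inferInstance
  exact ⟨T + 1, fun t ht => hT (x := (y, t)) (by simp only [mem_ofPred_eq]; linarith)⟩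

theorem vol_tm {S : Set ℝ} (hS : MeasurableSet S) (h : S ⊆ K.J) :
    b.F.μ (K.tm ⁻¹' S) ≤ e.D.F.μ univ * volume S := by
  have h1 : MeasurableSet (K.tm ⁻¹' S) := K.cont.measurable hS
  have h2 : K.tm ⁻¹' S ⊆ K.ψ.target := fun x hx => (tm_tgt K).2 (h hx)
  rw [← Measure.restrict_eq_self _ h2, ← K.iso.μ, Measure.map_apply_of_aemeasurable
    (K.ψ.continuousOn.aemeasurable K.ψ.open_source.measurableSet) h1,
    Measure.restrict_apply' K.ψ.open_source.measurableSet, ← Measure.prod_prod]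
  exact measure_mono fun x hx => ⟨trivial, K.tm_ψ x hx.2 ▸ hx.1⟩

theorem cpt_Up {r : α → ℝ} (hr : Tendsto r l atTop) (C : Set X.M) (hC : IsCompact C) :
    ∀ᶠ i in l, C ⊆ Up K s (r i) := by
  obtain ⟨B, hB⟩ := hC.bddAbove_image (f := fun x => pm s * K.tm x)
    (continuous_const.mul K.cont).continuousOn
  exact (hr.eventually_gt_atTop B).mono fun i hi x hx => (hB ⟨x, hx, rfl⟩).trans_lt hi

end nk

variable {d : Dt κ lam ν} [Fintype d.𝓔] {Sl : Type} [Fintype Sl]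
  {T T' T'' : Type} [NormedAddCommGroup T] [NormedSpace ℝ T] [FiniteDimensional ℝ T]
  [NormedAddCommGroup T'] [NormedSpace ℝ T'] [FiniteDimensional ℝ T']
  [NormedAddCommGroup T''] [NormedSpace ℝ T''] [FiniteDimensional ℝ T'']

section side
variable {s : StS d Sl X} {σ : Cel s nc nr T} {j₀ : d.𝓔 × Sl} {K : Nk (d.e j₀.1) s.bg} {b : Bool}
  {r : α → ℝ} {t : α → T} {c : α → Cfg X.M κ ν} {x : σ.Pnt}

theorem sa_alC (h : σ.toFam.OK) {t : T} (ht : t ∈ σ.Q) {c : Cfg X.M κ ν} {z : X.M}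
    (k : LA (σ.P t).bg c z) : (∀ a, SA X.I ((alC σ.toFam t c).a a) z) ∧ SA X.I (alC σ.toFam t c).Φ z :=
  ⟨fun a => Wz78.SA.sum _ fun j _ => Wz78.SA.mul (((h.sSi a j).cb t ht).choose_spec.1 z) (k.sa j),
    k.sΦ⟩

theorem mem_upto (hK : s.nk j₀ = some K) {r : ℝ} {z : X.M} :
    z ∈ σ.upto j₀ b r ↔ (K.tm z ∈ K.J → pm b * K.tm z ≤ r) := by
  simp only [Cel.upto, hK, Option.mem_def, Option.some.injEq, forall_eq', mem_ofPred_eq]
  rw [mem_img K (S := K.far b r) inter_subset_left]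
  simp [Nk.far]

variable (σ) in
/-- convergence in `L²` with all derivatives over `S i` -/
abbrev Cg (l : Filter α) (S : α → Set X.M) (t : α → T) (c : α → Cfg X.M κ ν) (x : σ.Pnt) : Prop :=
  NC s.bg.F.toPre l S (fun i => alC σ.toFam (t i) (c i)) fun _ => alC σ.toFam x.1.1 x.1.2

theorem cg_of_dO (h : σ.toFam.OK) (hK : s.nk j₀ = some K)
    (k : ∀ᶠ i in l, t i ∈ σ.Q ∧ ∀ z ∈ Up K b (r i), LA (σ.P (t i)).bg (c i) z)
    (hd : ∀ w, Tendsto (fun i => σ.dO (σ.upto j₀ b (r i)) (t i) (c i) x w) l (𝓝 0)) :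
    Cg σ l (fun i => Up K b (r i)) t c x := by
  have k1 := fun z => sa_alC h x.2.1 (LA.of_adm x.2.2.1 z)
  have k2 : ∀ i, Up K b (r i) ⊆ σ.upto j₀ b (r i) := fun i z hz => (mem_upto hK).2 fun _ => hz.le
  have h1 : Nl s.bg.F.toPre l (fun i => Up K b (r i)) fun i => σ.al (t i) (c i) - σ.al x.1.1 x.1.2 :=
    .mk' (k.mono fun i hi => ⟨isOpen_Up _ _ _, fun z hz => (sa_toLp
      (sa_alC h hi.1 (hi.2 z hz)).1).sub (sa_toLp (k1 z).1)⟩) fun w => tendsto_le (hd w)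
      (.of_forall fun i => (lintegral_mono_set (k2 i)).trans (lintegral_mono fun _ => le_self_add))
  exact ⟨fun a => h1.clm (PiLp.proj 2 (fun _ : Option κ => ℝ) a),
    .mk' (k.mono fun i hi => ⟨isOpen_Up _ _ _, fun z hz => (hi.2 z hz).sΦ.sub (k1 z).2⟩) fun w =>
      tendsto_le (hd w) (.of_forall fun i => (lintegral_mono_set (k2 i)).trans
        (lintegral_mono fun _ => le_add_self))⟩

theorem dO_of_cg (hK : s.nk j₀ = some K) (hb : K.Inf b) (hr : Tendsto r l atTop)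
    (h : Cg σ l (fun i => Up K b (r i)) t c x) (w : List (Option κ)) :
    Tendsto (fun i => σ.dO (σ.upto j₀ b (r i)) (t i) (c i) x w) l (𝓝 0) := by
  have h1 : Nl s.bg.F.toPre l (fun i => Up K b (r i)) fun i => σ.al (t i) (c i) - σ.al x.1.1 x.1.2 :=
    Nl.toLp h.op h.1
  obtain ⟨T₀, hT⟩ := big hb
  refine tendsto_le (by simpa using (h1 w).z.add (h.2 w).z) ?_
  filter_upwards [hr.eventually_ge_atTop T₀, (h1 w).sm] with i h2 h3
  have h4 : pm b * (pm b * r i) = r i := by rw [← mul_assoc, pm_sq, one_mul]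
  have h5 : s.bg.F.μ (K.tm ⁻¹' {pm b * r i}) = 0 := nonpos_iff_eq_zero.1
    ((vol_tm (measurableSet_singleton _) (singleton_subset_iff.2 (hT _ (h2.trans h4.ge)))).trans
      (by simp))
  refine (lintegral_mono_set' (t := Up K b (r i)) (measure_mono_null (fun z hz => ?_) h5)).trans
    (lintegral_add_left' (aem2 h3.1 h3.2) _).le
  obtain ⟨k1, k2⟩ := Classical.not_imp.1 hz
  have k3 : r i ≤ pm b * K.tm z := not_lt.1 k2
  show K.tm z = _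
  rw [le_antisymm k3 ((mem_upto (σ := σ) hK).1 k1 (hT _ (h2.trans k3))), ← mul_assoc, pm_sq, one_mul]

theorem cg_nk (h : σ.toFam.OK) {j : d.𝓔 × Sl} {K₁ : Nk (d.e j.1) s.bg} (hK : K₁ ∈ s.nk j)
    {S : α → Set X.M} {J : α → Set ℝ} (hc : Cg σ l S t c x)
    (k : ∀ᶠ i in l, t i ∈ σ.Q ∧ IsOpen (J i) ∧ J i ⊆ K₁.J ∧
      ∀ z, K₁.tm z ∈ J i → z ∈ S i ∧ LA (σ.P (t i)).bg (c i) z) :
    NC (d.e j.1).D.Z.toPre l (fun i => univ ×ˢ J i) (fun i => K₁.pb (c i)) fun _ => K₁.pb x.1.2 := by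
  have k1 : ∀ i z, J i ⊆ K₁.J → z ∈ univ ×ˢ J i → K₁.tm (K₁.ψ z) ∈ J i := fun i z a b =>
    (K₁.tm_ψ z (K₁.mem_src.2 (a b.2))).symm ▸ b.2
  refine (((NC.iso (φ := fun _ => K₁.ψ) ?_).2 (hc.sub ?_)).left ?_).right ?_
  · filter_upwards [k, hc.sm] with i k h2
    exact ⟨K₁.iso, isOpen_univ.prod k.2.1, fun z hz => K₁.mem_src.2 (k.2.2.1 hz.2),
      fun z hz => h2 _ (k.2.2.2 _ (k1 i z k.2.2.1 hz)).1⟩
  · exact k.mono fun i k => by
      rw [img_eq K₁ k.2.2.1]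
      exact ⟨k.2.1.preimage K₁.cont, fun z hz => (k.2.2.2 z hz).1⟩
  · exact k.mono fun i k z hz => (alC_nk h k.1 hK (K₁.mem_src.2 (k.2.2.1 hz.2))
      (by simpa only [h.B _ k.1] using (k.2.2.2 _ (k1 i z k.2.2.1 hz)).2.pa)).symm
  · exact k.mono fun i k z hz => alC_nk h x.2.1 hK (K₁.mem_src.2 (k.2.2.1 hz.2))
      fun a => by simpa only [h.B _ x.2.1] using x.2.2.1.pa a (K₁.ψ z)

theorem dsid_of {c : α → Cfg X'.M κ ν} {φ : α → OpenPartialHomeomorph X.M X'.M} (h : σ.toFam.OK)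
    (hK : s.nk j₀ = some K) (hb : K.Inf b) (hr : Tendsto r l atTop) (ht : Tendsto t l (𝓝 x.1.1))
    (k : ∀ᶠ i in l, t i ∈ σ.Q ∧ ∀ z ∈ Up K b (r i + 1), z ∈ (φ i).source ∧
      LA (σ.P (t i)).bg ((c i).pb (φ i)) z)
    (hc : Cg σ l (fun i => Up K b (r i + 1)) t (fun i => (c i).pb (φ i)) x) :
    DSid σ j₀ b l c t φ (fun i => r i + 1 / 2) x := by
  have hr' := tendsto_atTop_add_const_right _ 1 hr
  have hT := h.site.bg.tame.choose_spec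
  refine ⟨ht, ⟨K, hK, hb⟩, fun a => ⟨Up K b (pm b * K.tm a + 1), (isOpen_Up _ _ _).mem_nhds
    (lt_add_one (pm b * K.tm a)), ?_⟩, Nl.loc hT (Nl.toLp hc.op hc.1) (cpt_Up hr'), Nl.loc hT hc.2 (cpt_Up hr'),
    fun j K₁ hK₁ => ?_⟩
  · filter_upwards [k, hr.eventually_ge_atTop (pm b * K.tm a)] with i h1 h2 z hz
    exact (h1.2 z (lt_of_lt_of_le hz (add_le_add_left h2 1))).1
  obtain ⟨T₀, hT₀⟩ := big hb
  refine (cg_nk h hK₁ hc (J := fun i => {τ ∈ K₁.J | j = j₀ → pm b * τ < r i + 1}) ?_).zs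
    (h.site.en j) (ε := 1 / 2) one_half_pos (.of_forall fun i τ hτ τ' h' => ⟨?_, fun e => ?_⟩)
  · filter_upwards [k, hr'.eventually_ge_atTop T₀] with i h1 h2
    refine ⟨h1.1, Nd18.isOpen_Jv.inter ?_, sep_subset _ _, fun z hz => ?_⟩
    · show IsOpen {τ | j = j₀ → pm b * τ < r i + 1}
      by_cases e : j = j₀
      · simpa [e] using isOpen_lt (by fun_prop) (continuous_const (y := r i + 1))
      · simp [e]
    have : z ∈ Up K b (r i + 1) := by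
      by_cases e : j = j₀
      · subst e
        obtain rfl := Option.some.inj (hK.symm.trans hK₁)
        exact hz.2 rfl
      · exact lt_of_not_ge fun k => Set.disjoint_left.1 (h.site.dj e K₁ hK₁ K hK)
          ((tm_tgt K₁).2 hz.1) ((tm_tgt K).2 (hT₀ _ (h2.trans k)))
    exact ⟨this, (h1.2 z this).2⟩
  · exact Pb50.half_J K₁ (Pb50.deep_sub K₁ hτ.1) (Ioo_subset_Icc_self h')
  · have := hτ.2 e
    cases b <;> simp only [pm] at this ⊢ <;> norm_num at this ⊢ <;> linarith [h'.1, h'.2]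

end side

section two
variable {s : StS d Sl X} {s' : StS d Sl X'} {s'' : StS d Sl X''} (σ : Cel s nc nr T)
  (σ' : Cel s' nc' nr' T') (σ'' : Cel s'' nc'' nr'' T'') {ε : d.𝓔} (a : Sl) {a' a'' : Sl} (b : Bool)
  (K' : Nk (d.e ε) s'.bg) (K'' : Nk (d.e ε) s''.bg)

variable (a' a'') in
/-- both sides of a cut, with the ends of the sites -/
def TwS (t : T) (t' : T') (t'' : T'') (φ : OpenPartialHomeomorph X'.M X.M)
    (φ'' : OpenPartialHomeomorph X''.M X.M) (δ δ'' : ℝ) : Prop :=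
  t ∈ σ.Q ∧ t' ∈ σ'.Q ∧ t'' ∈ σ''.Q ∧ ∃ K K₁ K₂, Tw (σ.P t) (σ'.P t') (σ''.P t'') ε a a' a'' b φ φ''
    δ δ'' K K₁ K₂ ∧ K₁.ng = K'.ng ∧ K₂.ng = K''.ng

variable {σ σ' σ'' a b K' K''} {t : T} {t' : T'} {t'' : T''} {φ : OpenPartialHomeomorph X'.M X.M}
  {φ'' : OpenPartialHomeomorph X''.M X.M} {δ δ'' τ : ℝ}
  (h : TwS σ σ' σ'' a a' a'' b K' K'' t t' t'' φ φ'' δ δ'')
include h

theorem TwS.symm : TwS σ σ'' σ' a a'' a' (!b) K'' K' t t'' t' φ'' φ δ'' δ :=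
  let ⟨a, b, c, K, K₁, K₂, e, f, g⟩ := h; ⟨a, c, b, K, K₂, K₁, e.symm, g, f⟩

theorem TwS.lit : (σ'.P t').bg.Lit (σ.P t).bg φ := let ⟨_, _, _, _, _, _, e, _⟩ := h; e.lit

theorem TwS.src (h1 : τ - δ ∈ K'.J) (h2 : τ - δ'' ∈ K''.J) {x : X'.M}
    (k : pm b * (K'.tm x + δ) ≤ pm b * τ) : x ∈ φ.source := by
  obtain ⟨-, -, -, K, K₁, K₂, e, f, g⟩ := h
  rw [← Pb50.ng_tm f] at k
  refine e.src' (e.J_of ?_ ?_) k
  · simpa only [Nd18.Nk.J, Pb50.ng_p f, Pb50.ng_q f] using h1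
  · simpa only [Nd18.Nk.J, Pb50.ng_p g, Pb50.ng_q g] using h2

theorem TwS.nk (h1 : τ - δ ∈ K'.J) (h2 : τ - δ'' ∈ K''.J) (y : (d.e ε).Y.M) :
    φ (K'.ψ (y, τ - δ)) = φ'' (K''.ψ (y, τ - δ'')) := by
  obtain ⟨-, -, -, K, K₁, K₂, e, f, g⟩ := h
  have : τ ∈ K.J := by
    refine e.J_of ?_ ?_
    · simpa only [Nd18.Nk.J, Pb50.ng_p f, Pb50.ng_q f] using h1
    · simpa only [Nd18.Nk.J, Pb50.ng_p g, Pb50.ng_q g] using h2
  rw [← Pb50.ng_ψ f, ← Pb50.ng_ψ g, (e.inv this y).2.2, (e.symm.inv this y).2.2]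

theorem TwS.glue (hσ' : σ'.toFam.OK) (hσ'' : σ''.toFam.OK) {v : X'.M → ℂ} {v'' : X''.M → ℂ} {τ'' : ℝ}
    (h1 : τ - δ ∈ K'.J) (h2 : τ - δ'' ∈ K''.J) (h3 : τ'' - δ ∈ K'.J) (h4 : τ'' - δ'' ∈ K''.J)
    (hv : s'.Al v) (hv'' : s''.Al v'') (k1 : ∀ x, pm b * τ ≤ pm b * (K'.tm x + δ) → v x = 1)
    (k2 : ∀ x, pm (!b) * τ'' ≤ pm (!b) * (K''.tm x + δ'') → v'' x = 1) :
    ∃ g, (σ.P t).Al g ∧ (∀ x, pm b * (K'.tm x + δ) ≤ pm b * τ'' → g (φ x) = v x) ∧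
      ∀ x, pm (!b) * (K''.tm x + δ'') ≤ pm (!b) * τ → g (φ'' x) = v'' x := by
  obtain ⟨-, q1, q2, K, K₁, K₂, e, f, g⟩ := h
  rw [← Pb50.ng_tm f] at k1 ⊢
  rw [← Pb50.ng_tm g] at k2 ⊢
  simp only [Nd18.Nk.J, ← Pb50.ng_p f, ← Pb50.ng_q f, ← Pb50.ng_p g, ← Pb50.ng_q g] at h1 h2 h3 h4
  exact e.glue (e.J_of h1 h2) (e.J_of h3 h4) ((Pb50.al_fam hσ' q1 v).2 hv)
    ((Pb50.al_fam hσ'' q2 v'').2 hv'') k1 k2

end two

section spl
variable {XL XR : Mf 4} {ncL nrL ncR nrR : ℕ} {TL TR : Type}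
  [NormedAddCommGroup TL] [NormedSpace ℝ TL] [FiniteDimensional ℝ TL]
  [NormedAddCommGroup TR] [NormedSpace ℝ TR] [FiniteDimensional ℝ TR]
  {s : StS d Sl X} {sL : StS d Sl XL} {sR : StS d Sl XR} {σ : Cel s nc nr T}
  {σL : Cel sL ncL nrL TL} {σR : Cel sR ncR nrR TR} {p : Spl X XL XR nc ncL ncR d Sl T TL TR}
  (hp : p.OK σ σL σR) {tL : α → TL} {tR : α → TR} {δ : α → ℝ × ℝ}
include hp

theorem ev_ct (hδ : Tendsto (fun i => (δ i).2 - (δ i).1) l atTop)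
    (h : ∀ᶠ i in l, δ i ∈ p.Δ ∧ tL i ∈ σL.Q ∧ tR i ∈ σR.Q) :
    ∀ᶠ i in l, Ct p σ σL σR (tL i) (tR i) (δ i) := by
  obtain ⟨l₀, h0⟩ := hp.cut ∅
  filter_upwards [h, hδ.eventually_ge_atTop l₀] with i h1 h2
  obtain ⟨a, b, c, e, f⟩ := h0 _ h1.1 h2 _ h1.2.1 _ h1.2.2
  exact ⟨h1.1, h1.2.1, h1.2.2, a, b, c, e, f⟩

theorem tws_of {tL : TL} {tR : TR} {δ : ℝ × ℝ} (h : Ct p σ σL σR tL tR δ) :
    ∃ KL KR, sL.nk (p.ε, p.aL) = some KL ∧ sR.nk (p.ε, p.aR) = some KR ∧ KL.Inf true ∧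
      KR.Inf false ∧ TwS σ σL σR p.a p.aL p.aR true KL KR (p.par tL tR δ) tL tR (p.φL δ) (p.φR δ)
        δ.1 δ.2 := by
  obtain ⟨K, h1, K₁, h2, h3, -⟩ := h.L.nk
  obtain ⟨K₀, h4, K₂, h5, h6, -⟩ := h.R.nk
  obtain ⟨KL, k1, k2⟩ := Pb50.inf_site hp.okL.toOK h.QL h2 h3
  obtain ⟨KR, k3, k4⟩ := Pb50.inf_site hp.okR.toOK h.QR h5 h6
  exact ⟨KL, KR, k1, k3, (Pb50.ng_inf k2).1 h3, (Pb50.ng_inf k4).1 h6, h.Q, h.QL, h.QR, K, K₁, K₂,
    ⟨hp.ok.ok _ h.Q, hp.okL.ok _ h.QL, hp.okR.ok _ h.QR, ⟨_, _, _, _, _, _, _, h.L, h.R,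
      fun j hj => by cases p.side j <;> simp [hj]⟩, h1, h2, h5, h.cov, h.ov K h1⟩, k2, k4⟩

theorem ev_tws [l.NeBot] (h : ∀ᶠ i in l, Ct p σ σL σR (tL i) (tR i) (δ i)) :
    ∃ KL KR, sL.nk (p.ε, p.aL) = some KL ∧ sR.nk (p.ε, p.aR) = some KR ∧ KL.Inf true ∧
      KR.Inf false ∧ ∀ᶠ i in l, TwS σ σL σR p.a p.aL p.aR true KL KR (p.par (tL i) (tR i) (δ i))
        (tL i) (tR i) (p.φL (δ i)) (p.φR (δ i)) (δ i).1 (δ i).2 := by
  obtain ⟨i, hi⟩ := h.exists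
  obtain ⟨KL, KR, a, b, c, e, -⟩ := tws_of hp hi
  refine ⟨KL, KR, a, b, c, e, h.mono fun i hi => ?_⟩
  obtain ⟨KL', KR', a', b', -, -, k⟩ := tws_of hp hi
  obtain rfl := Option.some.inj (a.symm.trans a')
  obtain rfl := Option.some.inj (b.symm.trans b')
  exact k

end spl

section one
variable {s : StS d Sl X} {s' : StS d Sl X'} {s'' : StS d Sl X''} {σ : Cel s nc nr T}
  {σ' : Cel s' nc' nr' T'} {σ'' : Cel s'' nc'' nr'' T''} {ε : d.𝓔} {a a' a'' : Sl} {b : Bool}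
  {K' : Nk (d.e ε) s'.bg} {K'' : Nk (d.e ε) s''.bg} {t : α → T} {t' : α → T'} {t'' : α → T''}
  {φ : α → OpenPartialHomeomorph X'.M X.M} {φ'' : α → OpenPartialHomeomorph X''.M X.M}
  {δ δ'' r : α → ℝ}

theorem ev_J {e : En3 κ lam ν} {g : Bg X.I X.M κ lam ν nc} {K : Nk e g} (h : K.Inf b) {τ : α → ℝ}
    (hτ : Tendsto (fun i => pm b * τ i) l atTop) : ∀ᶠ i in l, τ i ∈ K.J :=
  let ⟨T₀, h⟩ := big h; (hτ.eventually_ge_atTop T₀).mono fun _ hi => h _ hi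

/-- the part up to the depth `r i` lies in the source -/
theorem ev_src (h : ∀ᶠ i in l, TwS σ σ' σ'' a a' a'' b K' K'' (t i) (t' i) (t'' i) (φ i) (φ'' i)
    (δ i) (δ'' i)) (h1 : K'.Inf b) (h2 : K''.Inf !b) (hr : Tendsto r l atTop)
    (hr' : Tendsto (fun i => pm b * (δ'' i - δ i) - r i) l atTop) :
    ∀ᶠ i in l, ∀ x, pm b * K'.tm x ≤ r i → x ∈ (φ i).source := by
  have e : ∀ x, pm b * (pm b * x) = x := fun x => by rw [← mul_assoc, pm_sq, one_mul]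
  filter_upwards [h, ev_J h1 (τ := fun i => δ i + pm b * r i - δ i) (by simpa [e] using hr),
    ev_J h2 (τ := fun i => δ i + pm b * r i - δ'' i) (hr'.congr fun i => by
      rw [pm_not]; linarith [e (r i)])] with i k1 k2 k3 x hx
  exact k1.src k2 k3 (by linarith [e (r i)])

theorem ev_la {y : α → σ.Pnt} (h : ∀ᶠ i in l, (y i).1.1 = t i ∧ TwS σ σ' σ'' a a' a'' b K' K'' (t i)
    (t' i) (t'' i) (φ i) (φ'' i) (δ i) (δ'' i)) :
    ∀ᶠ i in l, ∀ x ∈ (φ i).source, LA (σ'.P (t' i)).bg ((y i).1.2.pb (φ i)) x :=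
  h.mono fun i k _ hx => Cut71.la_φ k.2.lit hx (.of_forall (Cut71.At.pb _ _))
    (k.1 ▸ LA.of_adm (y i).2.2.1 _)

end one

theorem half_top {L : α → ℝ} (h : Tendsto L l atTop) (c : ℝ) :
    Tendsto (fun i => L i / 2 + c) l atTop :=
  tendsto_atTop_add_const_right _ _ (h.atTop_div_const two_pos)

theorem dzP {XL XR : Mf 4} {ncL nrL ncR nrR : ℕ} {TL TR : Type}
    [NormedAddCommGroup TL] [NormedSpace ℝ TL] [FiniteDimensional ℝ TL]
    [NormedAddCommGroup TR] [NormedSpace ℝ TR] [FiniteDimensional ℝ TR] :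
    DzP d Sl X XL XR nc nr ncL nrL ncR nrR T TL TR := by
  rintro s sL sR σ σL σR p hp ι l _ y x z ⟨y', tL, tR, δ, h1, h2, h3, h4, h5⟩
  have h6 := ev_ct hp h2 (((h1.and (h3 (hp.okL.opn.mem_nhds x.2.1))).and
    (h4 (hp.okR.opn.mem_nhds z.2.1))).mono fun _ k => ⟨k.1.1.2.2.1, k.1.2, k.2⟩)
  obtain ⟨KL, KR, a, b, c, e, k⟩ := ev_tws hp h6
  have k1 := (h1.mono fun _ k => k.2.2.2).and k
  have kL := ev_src k c e (half_top h2 1) ((half_top h2 (-1)).congr fun i => by simp [pm]; ring)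
  have kR := ev_src (k.mono fun _ k => k.symm) e c (half_top h2 1)
    ((half_top h2 (-1)).congr fun i => by simp [pm]; ring)
  have lL := (h6.and (kL.and (ev_la k1))).mono fun i k => And.intro k.1.QL
    fun z (hz : z ∈ Up KL true _) => And.intro (k.2.1 z hz.le) (k.2.2 z (k.2.1 z hz.le))
  have lR := (h6.and (kR.and (ev_la (k1.mono fun _ k => ⟨k.1, k.2.symm⟩)))).mono fun i k =>
    And.intro k.1.QR fun z (hz : z ∈ Up KR false _) =>
      And.intro (k.2.1 z hz.le) (k.2.2 z (k.2.1 z hz.le))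
  exact ⟨y', tL, tR, δ, (h1.and h6).mono fun _ k => ⟨k.1.1, k.1.2.1, k.1.2.2.2, k.2⟩, h2,
    dsid_of hp.okL.toOK a c (h2.atTop_div_const two_pos) h3 lL (cg_of_dO hp.okL.toOK a
      (lL.mono fun _ k => ⟨k.1, fun z hz => (k.2 z hz).2⟩) fun w => (h5 w).1),
    dsid_of hp.okR.toOK b e (h2.atTop_div_const two_pos) h4 lR (cg_of_dO hp.okR.toOK b
      (lR.mono fun _ k => ⟨k.1, fun z hz => (k.2 z hz).2⟩) fun w => (h5 w).2)⟩

end Crest.Agent.X212.Sm10.Dg
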