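import Crest.Agent.X212.Sm10.Dg3

/-!
# Row 212, SW-DEG (helper10), part 4: cutting off gauge transformations, `EqP`
-/

set_option autoImplicit false
set_option linter.unusedSectionVars false
noncomputable section
open scoped Manifold ContDiff Topology InnerProductSpace ENNReal
open MeasureTheory Set Function Filter

namespace Crest.Agent.X212.Sm10.Dg
open An Sw Sob92 Cyf70 Sw.En3
open Wz78 (SA)
open Sep15.S (sa_clm)
open Pb50 (th LG LA Hi Gl nd nd_basis src)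
open Cut71 (mem_img tm_tgt pm_not pm_sq kk)
open M (Mf pm)

variable {κ lam ν : Type} [Fintype κ] [Fintype lam] [Fintype ν] [DecidableEq ν]
  {X X' X'' : Mf 4} {nc nc' nc'' nr nr' nr'' : ℕ} {α : Type} {l : Filter α}

theorem pm_pm (b : Bool) (x : ℝ) : pm b * (pm b * x) = x := by rw [← mul_assoc, pm_sq, one_mul]

/-- the window round the depth `r` -/
abbrev Wn (b : Bool) (r : ℝ) : Set ℝ := Ioo (pm b * r - 3) (pm b * r + 3)

theorem mem_Wn {b : Bool} {r t : ℝ} : t ∈ Wn b r ↔ r - 3 < pm b * t ∧ pm b * t < r + 3 := by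
  cases b <;> simp only [pm, mem_Ioo] <;> norm_num
  · constructor <;> exact fun h => ⟨by linarith [h.2], by linarith [h.1]⟩

section nk
variable {e : En3 κ lam ν} {g : Bg X.I X.M κ lam ν nc} (K : Nk e g) (b : Bool)

theorem sa_tm {x : X.M} (hx : x ∈ K.ψ.target) : SA X.I K.tm x :=
  (contMDiffAt_snd.comp x (iso_smAt (iso_symm K.iso) hx)).congr_of_eventuallyEq
    (Eventually.mono (K.ψ.open_target.mem_nhds hx) fun _ hy =>
      (congrArg K.tm (K.ψ.right_inv hy)).symm.trans (K.tm_ψ _ (K.ψ.map_target hy)))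

/-- the correction -/
def cE (r : ℝ) (u : X.M → ℂ) : X.M → ℂ :=
  ex fun x => (kk b (pm b * (r - 3)) (K.tm x) - 1) * (u x).arg

variable {K b} {r : ℝ} {u : X.M → ℂ} {x : X.M}

theorem cE_one (h : pm b * K.tm x ≤ r - 2) : cE K b r u x = 1 := by
  rw [cE, ex, Cut71.kk_one (by rw [mul_sub, pm_pm]; linarith)]
  simp

theorem cE_star (h : r - 1 ≤ pm b * K.tm x) (hu : ‖u x‖ = 1) : cE K b r u x = star (u x) := by
  refine .trans ?_ (congrArg star (ex_arg hu))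
  rw [cE, ex, Cut71.kk_zero (by rw [mul_sub, pm_pm]; linarith), ex]
  simp [← Complex.exp_conj]

theorem sm_cE (hu : Gau X.I u) (h : ∀ x, K.tm x ∈ Wn b r → K.tm x ∈ K.J ∧ ‖u x - 1‖ < 1) :
    Sm X.I (cE K b r u) := fun x => by
  have c : Continuous fun x => pm b * K.tm x := continuous_const.mul K.cont
  rcases lt_or_ge (pm b * K.tm x) (r - 2) with h1 | h1
  · exact (contMDiffAt_const (c := 1)).congr_of_eventuallyEq
      ((c.continuousAt.eventually_lt_const h1).mono fun y hy => cE_one hy.le)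
  rcases lt_or_ge (r - 1) (pm b * K.tm x) with h2 | h2
  · exact (Pb50.sa_star (hu.1 x)).congr_of_eventuallyEq
      ((c.continuousAt.eventually_const_lt h2).mono fun y hy => cE_star hy.le (hu.2 y))
  have := h x (mem_Wn.2 ⟨by linarith, by linarith⟩)
  exact sa_ex (Wz78.SA.mul ((Cut71.sm_kk.contMDiff.contMDiffAt.comp x
    (sa_tm K ((tm_tgt K).2 this.1))).sub contMDiffAt_const) (sa_arg (hu.1 x) this.2))

end nk

variable {d : Dt κ lam ν} [Fintype d.𝓔] {Sl : Type} [Fintype Sl]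
  {T T' T'' : Type} [NormedAddCommGroup T] [NormedSpace ℝ T] [FiniteDimensional ℝ T]
  [NormedAddCommGroup T'] [NormedSpace ℝ T'] [FiniteDimensional ℝ T']
  [NormedAddCommGroup T''] [NormedSpace ℝ T''] [FiniteDimensional ℝ T'']

section side
variable {s : StS d Sl X} {σ : Cel s nc nr T} {j₀ : d.𝓔 × Sl} {K : Nk (d.e j₀.1) s.bg} {b : Bool}
  {r : α → ℝ} {t : α → T} {c : α → Cfg X.M κ ν} {x : σ.Pnt} {u : α → X.M → ℂ}

theorem al_cut (h : s.OK) (hK : s.nk j₀ = some K) {r : ℝ} {u : X.M → ℂ} (hu : s.Al u)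
    (hr : ∀ t, r - 2 ≤ pm b * t → t ∈ K.J) (sm : Sm X.I (cE K b r u)) :
    s.Al fun x => cE K b r u x * u x := by
  have sm' : Sm X.I fun x => cE K b r u x * u x := fun x => Wz78.SA.mul (sm x) (hu.1.1 x)
  refine ⟨⟨sm', fun x => by rw [norm_mul, hu.1.2, cE, norm_ex, one_mul]⟩, fun j a K₁ hK₁ ha => ?_⟩
  have k : (∀ᶠ x in nd (d.e j.1).Y.M a, pm b * K.tm (K₁.ψ x) ≤ r - 2) → K₁.AsyG a
      fun x => cE K b r u x * u x := fun k => (Pb50.asyG_iff K₁ ha sm').2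
    (((Pb50.asyG_iff K₁ ha hu.1.1).1 (hu.2 j a K₁ hK₁ ha)).congr (k.mono fun x hx => by
      simp only [cE_one hx, one_mul]))
  by_cases hj : j = j₀
  · subst hj
    obtain rfl := Option.some.inj (hK.symm.trans hK₁)
    by_cases hb : a = b
    · subst hb
      refine asyG_of_one ha sm' ?_
      filter_upwards [Pb50.ev_ψ K ha, nd_basis.mem_of_mem (i := r - 1) trivial] with x k1 k2
      rw [cE_star (by rw [K.tm_ψ x k1]; exact le_of_lt k2) (hu.1.2 _), Pb50.star_mul_one (hu.1.2 _)]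
    · refine k ?_
      filter_upwards [Pb50.ev_ψ K ha, nd_basis.mem_of_mem (i := -(r - 2)) trivial] with x k1 k2
      obtain rfl : a = !b := by cases a <;> cases b <;> simp_all
      rw [pm_not] at k2
      rw [K.tm_ψ x k1]
      linarith
  · exact k ((Pb50.ev_ψ K₁ ha).mono fun x hx => le_of_not_gt fun k => Set.disjoint_left.1
      (h.dj hj K₁ hK₁ K hK) (K₁.ψ.map_source hx) ((tm_tgt K).2 (hr _ k.le)))

/-- the cut-off -/
theorem cut (h : s.OK) (hK : s.nk j₀ = some K) (hb : K.Inf b) (hr : Tendsto r l atTop)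
    (hu : ∀ᶠ i in l, s.Al (u i))
    (hc : Cn (d.e j₀.1).D.Z.toPre l (fun i => univ ×ˢ Wn b (r i)) fun i x => u i (K.ψ x) - 1) :
    ∃ E : α → X.M → ℂ, (∀ᶠ i in l, Gau X.I (E i) ∧ (s.Al fun x => E i x * u i x) ∧
      ∀ x, r i - 1 ≤ pm b * K.tm x → E i x * u i x = 1) ∧
      Bb s.bg.F.toPre l (fun i => Up K b (r i + 3)) E ∧
      Nl s.bg.F.toPre l (fun i => Up K b (r i + 3)) fun i x => E i x - 1 := by
  obtain ⟨T₀, hT⟩ := big hb
  have h0 := hr.eventually_ge_atTop (T₀ + 3)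
  have h1 : ∀ᶠ i in l, Wn b (r i) ⊆ K.J := h0.mono fun i hi t ht =>
    hT t (by linarith [(mem_Wn.1 ht).1])
  have o : ∀ᶠ i in l, IsOpen ((univ : Set (d.e j₀.1).Y.M) ×ˢ Wn b (r i)) :=
    .of_forall fun _ => isOpen_univ.prod isOpen_Ioo
  have h2 : ∀ᶠ i in l, Sm X.I (cE K b (r i) (u i)) := by
    filter_upwards [h1, hu, hc 0 (1 / 2) one_half_pos] with i h1 hu hc
    refine sm_cE hu.1 fun x hx => ⟨h1 hx, ?_⟩
    obtain ⟨z, hz, rfl⟩ := (mem_img K h1).2 hx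
    exact (hc.le hz).trans_lt one_half_lt_one
  obtain ⟨C, hC⟩ := Cut71.bd_kk
  have h3 : Cn s.bg.F.toPre l (fun i => K.tm ⁻¹' Wn b (r i)) fun i x => cE K b (r i) (u i) x - 1 := by
    refine ((Cn.iso (F := (d.e j₀.1).D.Z) (φ := fun _ => K.ψ) (g := fun i x => cE K b (r i) (u i) x - 1) ?_).1
      (((Cn.bil (ContinuousLinearMap.mul ℝ ℝ) ((Bb.of_cbs fun i => (hC b (pm b * (r i - 3))).cyl
        (d.e j₀.1).D.F.toPre).add (Bb.const (-1)) o) (hc.arg o (hu.mono fun i hi x _ => hi.1.2 _))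
        o).ex o).congr o ?_)).sub (h1.mono fun i hi => (img_eq K hi).ge)
    · exact (h1.and h2).mono fun i hi => ⟨K.iso, fun z hz => K.mem_src.2 (hi.1 hz.2),
        fun z _ => (hi.2 _).sub contMDiffAt_const⟩
    · exact h1.mono fun i hi z hz => by
        simp only [cE, Dg.ex, K.tm_ψ z (K.mem_src.2 (hi hz.2)), sub_eq_add_neg]; rfl
  have o1 : ∀ c, ∀ᶠ i in l, IsOpen (Up K b (r i + c)) := fun c => .of_forall fun _ => isOpen_Up _ _ _
  have z : ∀ᶠ i in l, ∀ x ∈ Up K b (r i + -2), cE K b (r i) (u i) x - 1 = 0 :=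
    .of_forall fun i x hx => sub_eq_zero.2 (cE_one (le_of_lt hx))
  have cv : ∀ i, Up K b (r i + 3) ⊆ Up K b (r i + -2) ∪ K.tm ⁻¹' Wn b (r i) := fun i x hx =>
    (lt_or_ge (pm b * K.tm x) (r i + -2)).imp id fun k => mem_Wn.2 ⟨by linarith, hx⟩
  refine ⟨fun i => cE K b (r i) (u i), ?_, ((Cn.of_zero (o1 _) z).cover h3 (.of_forall cv)).one (o1 _),
    (Nl.of_zero (o1 _) z).cover (Nl.of_cn h3 (V := (d.e j₀.1).D.F.μ univ * ENNReal.ofReal 6)
      (ENNReal.mul_ne_top isCompact_univ.measure_ne_top ENNReal.ofReal_ne_top) (h1.mono fun i hi =>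
        ⟨isOpen_Ioo.preimage K.cont, (vol_tm measurableSet_Ioo hi).trans_eq ?_⟩))
      (.of_forall fun i => ⟨isOpen_Up _ _ _, cv i⟩)⟩
  · filter_upwards [h0, h2, hu] with i h0 h2 hu
    exact ⟨⟨h2, norm_ex _⟩, al_cut h hK hu (fun t ht => hT t (by linarith)) h2, fun x hx => by
      rw [cE_star hx (hu.1.2 x), Pb50.star_mul_one (hu.1.2 x)]⟩
  · rw [Real.volume_Ioo]; congr 2; ring

theorem cb_Φ (h : σ.OK) (x : σ.Pnt) : s.bg.F.Cb x.1.2.Φ :=
  (Pb50.as_cb h.site (fun i b k => (h.gd i b k).crit)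
    ((Pb50.as_fam h.toOK x.2.1 _ _).1 x.2.2).1).2

theorem cg_cut (h : σ.OK) {S : α → Set X.M} {E : α → X.M → ℂ}
    (k : ∀ᶠ i in l, t i ∈ σ.Q ∧ Gau X.I (E i) ∧ Gau X.I (u i)) (h1 : Bb s.bg.F.toPre l S E)
    (h2 : Nl s.bg.F.toPre l S fun i x => E i x - 1)
    (hc : Cg σ l S t (fun i => (σ.P (t i)).bg.act (u i) (c i)) x) :
    Cg σ l S t (fun i => (σ.P (t i)).bg.act (fun x => E i x * u i x) (c i)) x := by
  refine ((NC.ac (J := s.bg.m.J) hc h1).trans (NC.ac1 h2 h1 (.of_cb (cb_Φ h x)))).left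
    (k.mono fun i k z _ => ?_)
  rw [alC_act h.toOK k.1, alC_act h.toOK k.1]
  exact ac_mul h.site.bg.m.Jsq (.of_gau k.2.1 z) (.of_gau k.2.2 z) _

theorem Cg.congr {S : α → Set X.M} {c' : α → Cfg X.M κ ν} (hc : Cg σ l S t c x)
    (e : ∀ᶠ i in l, ∀ z ∈ S i, At (c' i) (c i) z) : Cg σ l S t c' x :=
  hc.left (e.mono fun _ k z hz => alC_congr (k z hz))

/-- a fixed gauge transformation -/
theorem cut_eqv (h : σ.OK) (hK : s.nk j₀ = some K) (hb : K.Inf b) (hr : Tendsto r l atTop)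
    {x' : σ.Pnt} (e : σ.Eqv x x') (k : ∀ᶠ i in l, t i ∈ σ.Q) : ∃ v : α → X.M → ℂ,
    (∀ᶠ i in l, s.Al (v i) ∧ ∀ x, r i - 1 ≤ pm b * K.tm x → v i x = 1) ∧
      (Cg σ l (fun i => Up K b (r i + 1)) t c x →
        Cg σ l (fun i => Up K b (r i + 1)) t (fun i => (σ.P (t i)).bg.act (v i) (c i)) x') := by
  obtain ⟨e1, u, hu, e2⟩ := e
  rw [Pb50.al_fam h.toOK x.2.1] at hu
  obtain ⟨T₀, h0⟩ := hu.2 j₀ b K hK hb
  obtain ⟨T₁, h1⟩ := big hb
  obtain ⟨E, h2, h3, h4⟩ := cut h.site hK hb hr (u := fun _ => u) (.of_forall fun _ => hu)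
    ((hh_nl K (fun x hx => (Pb50.sa_ψ K hx (hu.1.1 _)).sub contMDiffAt_const) h0
      (tendsto_atTop_add_const_right _ (-4) hr)).cyl (h.site.en j₀) one_pos
      ((hr.eventually_ge_atTop (T₁ + 4)).mono fun i hi τ hτ τ' h' => by
        have : r i + -4 < pm b * τ' := by
          have := (mem_Wn.1 hτ).1
          cases b <;> simp only [pm] at this ⊢ <;> norm_num at this ⊢ <;> linarith [h'.1, h'.2]
        exact ⟨h1 _ (by linarith), this⟩))
  have sb : ∀ i, Up K b (r i + 1) ⊆ Up K b (r i + 3) := fun i z hz =>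
    lt_of_lt_of_le hz (show r i + 1 ≤ r i + 3 by linarith)
  refine ⟨_, h2.mono fun _ k => k.2, fun hc => cg_cut h ((k.and h2).mono fun _ k =>
    ⟨k.1, k.2.1, hu.1⟩) (h3.sub (.of_forall sb)) (h4.sub (.of_forall fun i =>
      ⟨isOpen_Up _ _ _, sb i⟩)) ?_⟩
  refine ((NC.ac (J := s.bg.m.J) hc (.of_cb (Pb50.al_cb h.site hu))).left
    (k.mono fun i k z _ => ?_)).right (.of_forall fun _ z _ => ?_)
  · rw [alC_act h.toOK k]; exact ⟨fun _ => rfl, rfl⟩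
  · rw [← e1, e2, alC_act h.toOK x.2.1]; exact ⟨fun _ => rfl, rfl⟩

end side

section one
variable {s : StS d Sl X} {s' : StS d Sl X'} {s'' : StS d Sl X''} {σ : Cel s nc nr T}
  {σ' : Cel s' nc' nr' T'} {σ'' : Cel s'' nc'' nr'' T''} {ε : d.𝓔} {a a' a'' : Sl} {b : Bool}
  {K' : Nk (d.e ε) s'.bg} {K'' : Nk (d.e ε) s''.bg} {t : α → T} {t' : α → T'} {t'' : α → T''}
  {φ : α → OpenPartialHomeomorph X'.M X.M} {φ'' : α → OpenPartialHomeomorph X''.M X.M}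
  {δ δ'' r r'' : α → ℝ}

theorem glue_pt [l.NeBot] (hσ : σ.OK) (hσ' : σ'.OK) (hσ'' : σ''.OK) {y : α → σ.Pnt}
    (h : ∀ᶠ i in l, (y i).1.1 = t i ∧ TwS σ σ' σ'' a a' a'' b K' K'' (t i) (t' i) (t'' i) (φ i)
      (φ'' i) (δ i) (δ'' i)) (h1 : K'.Inf b) (h2 : K''.Inf !b) (hr : Tendsto r l atTop)
    (hr'' : Tendsto r'' l atTop) (e : ∀ i, r i + r'' i = pm b * (δ'' i - δ i))
    {v : α → X'.M → ℂ} {v'' : α → X''.M → ℂ}
    (hv : ∀ᶠ i in l, s'.Al (v i) ∧ ∀ x, r i - 1 ≤ pm b * K'.tm x → v i x = 1)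
    (hv'' : ∀ᶠ i in l, s''.Al (v'' i) ∧ ∀ x, r'' i - 1 ≤ pm (!b) * K''.tm x → v'' i x = 1) :
    ∃ y' : α → σ.Pnt, ∀ᶠ i in l, σ.Eqv (y i) (y' i) ∧
      (∀ x ∈ Up K' b (r i + 1), At ((y' i).1.2.pb (φ i))
        ((σ'.P (t' i)).bg.act (v i) ((y i).1.2.pb (φ i))) x) ∧
      ∀ x ∈ Up K'' (!b) (r'' i + 1), At ((y' i).1.2.pb (φ'' i))
        ((σ''.P (t'' i)).bg.act (v'' i) ((y i).1.2.pb (φ'' i))) x := by
  have p := pm_pm b
  have a1 : ∀ c, ∀ᶠ i in l, δ i + pm b * (r i + c) - δ i ∈ K'.J := fun c => ev_J h1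
    ((tendsto_atTop_add_const_right _ c hr).congr fun i => by linarith [p (r i + c)])
  have a2 : ∀ c, ∀ᶠ i in l, δ i + pm b * (r i + c) - δ'' i ∈ K''.J := fun c => ev_J h2
    ((tendsto_atTop_add_const_right _ (-c) hr'').congr fun i => by
      rw [pm_not]; linarith [p (r i + c), e i])
  refine Eventually.choice (l := l) (r := fun i (y' : σ.Pnt) => σ.Eqv (y i) y' ∧
    (∀ x ∈ Up K' b (r i + 1), At (y'.1.2.pb (φ i))
      ((σ'.P (t' i)).bg.act (v i) ((y i).1.2.pb (φ i))) x) ∧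
    ∀ x ∈ Up K'' (!b) (r'' i + 1), At (y'.1.2.pb (φ'' i))
      ((σ''.P (t'' i)).bg.act (v'' i) ((y i).1.2.pb (φ'' i))) x) ?_
  filter_upwards [h, a1 (-1), a2 (-1), a1 1, a2 1, hv, hv''] with i ⟨k0, k⟩ k1 k2 k3 k4 k5 k6
  obtain ⟨g, hg, g1, g2⟩ := k.glue hσ'.toOK hσ''.toOK k1 k2 k3 k4 k5.1 k6.1
    (fun x hx => k5.2 x (by linarith [p (r i + -1)]))
    fun x hx => k6.2 x (by rw [pm_not] at hx ⊢; linarith [p (r i + 1), e i])
  rw [← k0] at hg k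
  have q := (y i).2.1
  refine ⟨⟨((y i).1.1, (σ.P _).bg.act g (y i).1.2), q, Pb50.as_act (hσ.ok _ q).toOK
    (fun j b k => (hσ.gd j b ((Pb50.inf_iff hσ.toOK q j b).1 k)).crit) (y i).2.2 hg⟩,
    ⟨rfl, g, hg, rfl⟩, fun x hx => ?_, fun x hx => ?_⟩
  · have f : ∀ x ∈ Up K' b (r i + 1), pm b * (K'.tm x + δ i) ≤ pm b * (δ i + pm b * (r i + 1)) :=
      fun x (hx : pm b * K'.tm x < r i + 1) => by linarith [p (r i + 1)]
    exact pb_act k.lit (k.src k3 k4 (f x hx))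
      (Eventually.mono ((isOpen_Up _ _ _).mem_nhds hx) fun z hz => (g1 z (f z hz)).symm) _
  · have f : ∀ x ∈ Up K'' (!b) (r'' i + 1),
        pm (!b) * (K''.tm x + δ'' i) ≤ pm (!b) * (δ i + pm b * (r i + -1)) :=
      fun x (hx : pm (!b) * K''.tm x < r'' i + 1) => by
        rw [pm_not] at hx ⊢; linarith [p (r i + -1), e i]
    exact pb_act k.symm.lit (k.symm.src k2 k1 (f x hx))
      (Eventually.mono ((isOpen_Up _ _ _).mem_nhds hx) fun z hz => (g2 z (f z hz)).symm) _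

end one

theorem eqv_trans {s : StS d Sl X} {σ : Cel s nc nr T} (h : σ.OK) {x y z : σ.Pnt} (a : σ.Eqv x y)
    (b : σ.Eqv y z) : σ.Eqv x z :=
  ⟨a.1.trans b.1, (Pb50.eqv_equiv (h.ok _ x.2.1).toOK).trans a.2 (a.1 ▸ b.2)⟩

theorem R_eqv {s : StS d Sl X} {σ : Cel s nc nr T} (h : σ.OK) {x y : σ.Pnt} (a : σ.Eqv x y)
    (b : σ.R x.1.1 x.1.2 = 0) : σ.R y.1.1 y.1.2 = 0 :=
  funext fun j => ((h.R j).2 x y a.1 a.2).trans (congrFun b j)

theorem eqP {XL XR : Mf 4} {ncL nrL ncR nrR : ℕ} {TL TR : Type}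
    [NormedAddCommGroup TL] [NormedSpace ℝ TL] [FiniteDimensional ℝ TL]
    [NormedAddCommGroup TR] [NormedSpace ℝ TR] [FiniteDimensional ℝ TR] :
    EqP d Sl X XL XR nc nr ncL nrL ncR nrR T TL TR := by
  rintro s sL sR σ σL σR p hp ι l y x x' z z' ex ez ⟨y', tL, tR, δ, h1, h2, h3, h4, h5⟩
  rcases l.eq_or_neBot with rfl | hl
  · exact ⟨y', tL, tR, δ, h1, h2, tendsto_bot, tendsto_bot, fun _ => ⟨tendsto_bot, tendsto_bot⟩⟩
  have h6 := ev_ct hp h2 (((h1.and (h3 (hp.okL.opn.mem_nhds x.2.1))).and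
    (h4 (hp.okR.opn.mem_nhds z.2.1))).mono fun _ k => ⟨k.1.1.2.2.1, k.1.2, k.2⟩)
  obtain ⟨KL, KR, a, b, c, e, k⟩ := ev_tws hp h6
  have k1 := (h1.mono fun _ k => k.2.2.2).and k
  have kL := ev_src k c e (half_top h2 1) ((half_top h2 (-1)).congr fun i => by simp [pm]; ring)
  have kR := ev_src (k.mono fun _ k => k.symm) e c (half_top h2 1)
    ((half_top h2 (-1)).congr fun i => by simp [pm]; ring)
  have lL := (h6.and (kL.and (ev_la k1))).mono fun i k => And.intro k.1.QL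
    fun z (hz : z ∈ Up KL true _) => k.2.2 z (k.2.1 z hz.le)
  have lR := (h6.and (kR.and (ev_la (k1.mono fun _ k => ⟨k.1, k.2.symm⟩)))).mono fun i k =>
    And.intro k.1.QR fun z (hz : z ∈ Up KR false _) => k.2.2 z (k.2.1 z hz.le)
  have hr := h2.atTop_div_const two_pos
  obtain ⟨v, v1, v2⟩ := cut_eqv (c := fun i => (y' i).1.2.pb (p.φL (δ i))) hp.okL a c hr ex
    (h6.mono fun _ k => k.QL)
  obtain ⟨w, w1, w2⟩ := cut_eqv (c := fun i => (y' i).1.2.pb (p.φR (δ i))) hp.okR b e hr ez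
    (h6.mono fun _ k => k.QR)
  obtain ⟨y'', hy⟩ := glue_pt hp.ok hp.okL hp.okR k1 c e hr hr (fun i => by simp [pm]) v1 w1
  exact ⟨y'', tL, tR, δ, (h1.and hy).mono fun _ k => ⟨eqv_trans hp.ok k.1.1 k.2.1,
      R_eqv hp.ok k.2.1 k.1.2.1, k.1.2.2.1, k.2.1.1.symm.trans k.1.2.2.2⟩, h2, ex.1 ▸ h3, ez.1 ▸ h4,
    fun w => ⟨dO_of_cg a c (half_top h2 1) ((v2 (cg_of_dO hp.okL.toOK a lL fun w => (h5 w).1)).congr
      (hy.mono fun _ k => k.2.1)) w, dO_of_cg b e (half_top h2 1)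
      ((w2 (cg_of_dO hp.okR.toOK b lR fun w => (h5 w).2)).congr (hy.mono fun _ k => k.2.2)) w⟩⟩

end Crest.Agent.X212.Sm10.Dg
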