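import Crest.Agent.X212.Sm10.Dg5
import Crest.Agent.X212.Wal9.Main
import Crest.Agent.X212.Unq6.Main
import Crest.Agent.X212.Sep15.Eqv

/-!
# Row 212, SW-DEG (helper10): the statement without hypotheses
-/

set_option autoImplicit false
noncomputable section

namespace Crest.Agent.X212.Sm10.Dg
open Sw
open M (Mf)

/-- **SW-DEG** -/
theorem deg {κ lam ν : Type} [Fintype κ] [Fintype lam] [Fintype ν] [DecidableEq ν]
    (d : Dt κ lam ν) [Fintype d.𝓔] (Sl : Type) [Fintype Sl] (X XL XR : Mf 4)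
    (nc nr ncL nrL ncR nrR : ℕ) (T TL TR : Type)
    [NormedAddCommGroup T] [NormedSpace ℝ T] [FiniteDimensional ℝ T]
    [NormedAddCommGroup TL] [NormedSpace ℝ TL] [FiniteDimensional ℝ TL]
    [NormedAddCommGroup TR] [NormedSpace ℝ TR] [FiniteDimensional ℝ TR] :
    DegStmt d Sl X XL XR nc nr ncL nrL ncR nrR T TL TR :=
  degStmt (Wal9.wallP d Sl X nc nr T XL XR ncL nrL ncR nrR TL TR)
    (Unq6.uniq (Sep15.S.eqv (Pb50.pb κ lam ν)))

end Crest.Agent.X212.Sm10.Dg
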