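import Crest.Agent.X212.Sm10.Cube
import Crest.Agent.X212.Hp13.Defs
import Crest.Agent.X212.Ext52.Seif

/-!
# X212 / Sm10 (helper10): the record of the seam IN

* `sg t : E3 → S3` : stereographic parametrisation, missing only the point `τ (1, 0)` of the core;
* `rho t`, `th k` : tube radius (cut at 4) and meridional angle read in `E3`;
* `Cir R W z a Θ` : the circle map `Θ` is PL on the subcomplex `W`, with integer cocycle `z` and
  vertex values `a`;
* `Geo k η s` : the state `s` is realised on a cube, its region is the knot exterior;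
* `InStmt`.
-/

set_option autoImplicit false
set_option linter.unusedSectionVars false

open Set Filter Topology Function
open scoped ContDiff Manifold NNReal Real
open Crest.GeometryTopology.DehnSurgery Crest.Agent.X212.Glue52 Crest.Agent.X212.Ext52
open Crest.Agent.X212.Hp13

noncomputable section

namespace Crest.Agent.X212.Sm10

theorem sd_ch (P : Type) [PartialOrder P] [Fintype P] : Sd fun c : Ch P => (c.1 : Set P) :=
  ⟨fun _ _ => Finset.coe_subset, fun c => c.2.2, fun c => c.2.1, fun s h1 h2 =>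
    ⟨⟨(toFinite s).toFinset, by simpa using h2, by simpa using h1⟩, by simp⟩⟩

section chart

variable (t : Tube)

/-- stereographic parametrisation from the point `τ (1, 0)` -/
def sg : E3 → S3 := (chartAt E3 (-t.τ (1, 0))).symm

theorem chart_target : (chartAt E3 (-t.τ (1, 0))).target = univ :=
  haveI : Fact (Module.finrank ℝ (EuclideanSpace ℝ (Fin 4)) = 3 + 1) := ⟨by simp⟩
  stereographic'_target _

theorem chart_source : (chartAt E3 (-t.τ (1, 0))).source = {t.τ (1, 0)}ᶜ :=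
  haveI : Fact (Module.finrank ℝ (EuclideanSpace ℝ (Fin 4)) = 3 + 1) := ⟨by simp⟩
  (stereographic'_source _).trans (by rw [neg_neg])

theorem ld_sg : IsLocalDiffeomorph (𝓡 3) (𝓡 3) ∞ (sg t) := fun p =>
  ⟨(pdOf (chartAt E3 (-t.τ (1, 0))) contMDiffOn_chart contMDiffOn_chart_symm).symm,
    (chart_target t).ge (mem_univ p), fun _ _ => rfl⟩

theorem sg_injective : Injective (sg t) := fun p q h =>
  (chartAt E3 (-t.τ (1, 0))).symm.injOn ((chart_target t).ge (mem_univ p))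
    ((chart_target t).ge (mem_univ q)) h

theorem range_sg : range (sg t) = {t.τ (1, 0)}ᶜ := by
  rw [← chart_source, ← image_univ, ← chart_target t]
  exact (chartAt E3 (-t.τ (1, 0))).symm.image_source_eq_target

theorem isOpenEmbedding_sg : IsOpenEmbedding (sg t) := ld_isOpenEmbedding (ld_sg t) (sg_injective t)

/-- the tube radius, cut at `4` -/
def rhoS : S3 → ℝ := extend t.τ (fun z => min ‖z.2‖ 4) fun _ => 4

theorem rhoS_τ (z : Circle × ℂ) : rhoS t (t.τ z) = min ‖z.2‖ 4 := t.inj.extend_apply _ _ _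

theorem rhoS_out {x : S3} (h : x ∉ range t.τ) : rhoS t x = 4 := extend_apply' _ _ _ h

/-- the tube radius in the chart -/
def rho (p : E3) : ℝ := rhoS t (sg t p)

/-- the meridional angle in the chart -/
def th (k : KD) (p : E3) : Circle := extend Subtype.val k.θ 1 (sg k.toTube p)

end chart

/-- the circle map `Θ` is PL on the subcomplex `W` -/
def Cir {P : Type*} [PartialOrder P] [Fintype P] {E : Type*} [NormedAddCommGroup E]
    [NormedSpace ℝ E] (R : Real P E) (W : Set P) (z : P → P → ℤ) (a : P → ℝ) (Θ : E → Circle) :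
    Prop :=
  ∀ p ∈ R.spx W, ∀ t ∈ W, (∀ s, R.lam s p ≠ 0 → s ≤ t) →
    Θ p = Circle.exp (2 * π * R.pl (fun s => a s - z s t) p)

/-- the state `s` is realised on a cube and its region is the knot exterior -/
structure Geo (k : KD) (η : ℝ≥0) (s : St) where
  R : Real s.P E3
  L : ℝ
  mem_B : ∀ p, p ∈ R.B ↔ ∀ i, |p i| ≤ L
  far : ∀ p, 1 / 16 ≤ rho k.toTube p → p ∈ interior R.B
  /-- small simplices -/
  mesh : ∀ c, IsChain (· ≤ ·) c → ∀ p ∈ R.spx c, ∀ q ∈ R.spx c, dist p q ≤ η ∧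
    |rho k.toTube p - rho k.toTube q| ≤ η
  /-- the PL radius -/
  ρ : E3 → ℝ
  r0 : ℝ
  r0_mem : r0 ∈ Ioo (1 : ℝ) 2
  ρ_pl : ∀ p ∈ R.B, ρ p = R.pl (fun x => ρ (R.x x)) p
  ρ_near : ∀ p ∈ R.B, |ρ p - rho k.toTube p| ≤ η
  ρ_lip : ∀ U, Convex ℝ U → U ⊆ rho k.toTube ⁻¹' Icc (1 / 4) 3 →
    LipschitzOnWith η (ρ - rho k.toTube) U
  mem_A : ∀ x, x ∈ s.A ↔ r0 < ρ (R.x x)
  spx_O : R.spx s.Aᶜ = {p | p ∈ R.B ∧ ρ p ≤ r0}
  /-- the cells off the thin tube -/
  W : Set s.P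
  low : IsLowerSet W
  mem_W : ∀ p, 1 / 4 ≤ rho k.toTube p → p ∈ R.spx W
  W_far : ∀ p ∈ R.spx W, 1 / 16 < rho k.toTube p
  star : ∀ a ∈ s.A, ∀ x, Cm a x → x ∈ W
  /-- the winding cocycle -/
  z : s.P → s.P → ℤ
  coc : CocOn W z
  mono : ∀ x ∈ W, ∀ y ∈ W, x ≤ y → 0 ≤ z x y
  /-- the PL angle is `th * exp (2 π i δ) = exp (2 π i (c + a + u))`, `z = d u` -/
  δ : E3 → ℝ
  c : ℝ
  a : s.P → ℝ
  a_mem : ∀ x ∈ W, a x ∈ Ioo (0 : ℝ) 1
  cir : Cir R W z (fun x => c + a x) fun p => th k p * Circle.exp (2 * π * δ p)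
  δ_near : ∀ p ∈ R.spx W, |δ p| ≤ η
  δ_lip : ∀ U, Convex ℝ U → U ⊆ rho k.toTube ⁻¹' Ici (1 / 4) → LipschitzOnWith η δ U

/-- the seam IN -/
def InStmt : Prop :=
  ∀ (k : KD) (η : ℝ≥0), 0 < η → ∃ s : St, Good s ∧ IsUpperSet s.A ∧ Nonempty (Geo k η s)

/-- `R'` lies higher in the tower of `R`, `f` is the iterated `top` -/
structure Tw {P Q : Type*} [PartialOrder P] [Fintype P] [PartialOrder Q] [Fintype Q] {E : Type*}
    [NormedAddCommGroup E] [NormedSpace ℝ E] (R : Real P E) (R' : Real Q E) (f : Q → P) : Prop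
    extends Ref R R' where
  mono : Monotone f
  ne : ∀ c, R.lam (f c) (R'.x c) ≠ 0
  le : ∀ c x, R.lam x (R'.x c) ≠ 0 → x ≤ f c

/-- NEAR in the tower -/
def NearStmt : Prop :=
  ∀ (s t : St) (f : t.P → s.P), Desc s t f → ∀ (R : Real s.P E3) (V : s.P → Set E3),
    (∀ x, V x ∈ 𝓝[R.B] R.x x) → ∃ R' : Real t.P E3, Tw R R' f ∧ ∀ c, R'.x c ∈ V (f c)

/-- the geometric data go up the tower (for every realisation that is near enough) -/
def UpStmt : Prop :=
  ∀ (k : KD) (η : ℝ≥0) (s : St), IsUpperSet s.A → ∀ g : Geo k η s,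
    ∃ V : s.P → Set E3, (∀ x, V x ∈ 𝓝[g.R.B] g.R.x x) ∧
      ∀ (t : St) (f : t.P → s.P), t.A = f ⁻¹' s.A → ∀ R' : Real t.P E3, Tw g.R R' f →
        (∀ c, R'.x c ∈ V (f c)) → ∃ g' : Geo k η t, g'.R = R' ∧ g'.ρ = g.ρ ∧ g'.r0 = g.r0 ∧
          g'.W = f ⁻¹' g.W ∧ g'.z = pb f g.z ∧ g'.δ = g.δ ∧ g'.c = g.c

end Crest.Agent.X212.Sm10
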