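import Crest.Agent.X212.Sm10.Der
import Crest.Agent.X212.Hp13.Defs

/-!
# X212 / Sm10 (helper10): a realisation in a `d`-dimensional space is a combinatorial manifold

`mf_of_real`, `rch_gen`, `rch_of_preconnected`.
-/

set_option autoImplicit false
set_option linter.unusedSectionVars false

open Set Filter Topology Function
open Module (finrank finrank_self finrank_fintype_fun_eq_card)
open Crest.Agent.X212.Hp13

noncomputable section

namespace Crest.Agent.X212.Sm10

theorem rch_gen {α : Type} [PartialOrder α] {X : Type*} [TopologicalSpace X] {A : Set α} {T : Set X}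
    (hT : IsPreconnected T) (l : X → α → Prop) (hex : ∀ q ∈ T, ∃ s ∈ A, l q s)
    (hl : ∀ p ∈ T, ∀ᶠ q in 𝓝[T] p, ∀ s ∈ A, ∀ t ∈ A, l p s → l q t → Cm s t) {p q : X} (hp : p ∈ T)
    (hq : q ∈ T) {s t : α} (hs : s ∈ A) (ht : t ∈ A) (h1 : l p s) (h2 : l q t) : Rch A s t := by
  refine (hT.induction₂' (fun p q => q ∈ T ∧ ∀ s ∈ A, ∀ t ∈ A, l p s → l q t → Rch A s t)
    (fun p hp => ?_) (fun p q r _ _ _ h k => ⟨k.1, fun s hs t ht h1 h2 => ?_⟩) hp hq).2 s hs t ht h1 h2
  · filter_upwards [hl p hp, self_mem_nhdsWithin] with q h hq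
    exact ⟨⟨hq, fun s hs t ht h1 h2 => .single ⟨hs, ht, h s hs t ht h1 h2⟩⟩, hp,
      fun t ht s hs h2 h1 => .single ⟨ht, hs, (h s hs t ht h1 h2).symm⟩⟩
  · obtain ⟨u, hu, h3⟩ := hex q h.1
    exact (h.2 s hs u hu h1 h3).trans (k.2 u hu t ht h3 h2)

namespace Real

variable {P : Type} [PartialOrder P] [Fintype P] {E : Type*} [NormedAddCommGroup E]
  [NormedSpace ℝ E] (R : Real P E)

/-- carriers grow -/
theorem eventually_support {p : E} (hp : p ∈ R.B) :
    ∀ᶠ q in 𝓝[R.B] p, support (R.wt p) ⊆ support (R.wt q) :=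
  (eventually_all.2 fun s => show ∀ᶠ q in 𝓝[R.B] p, R.lam s p ≠ 0 → R.lam s q ≠ 0 by
    by_cases h : R.lam s p = 0
    · exact Eventually.of_forall fun _ k => (k h).elim
    · exact (R.continuousOn_lam s p hp).eventually_ne h |>.mono fun _ k _ => k).mono fun _ k s => k s

/-- vertices of `A` seen from a connected set are joined in `A` -/
theorem rch_of_preconnected {A : Set P} {T : Set E} (hT : IsPreconnected T) (hB : T ⊆ R.B)
    (hex : ∀ q ∈ T, ∃ s ∈ A, R.lam s q ≠ 0) {p q : E} (hp : p ∈ T) (hq : q ∈ T) {s t : P}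
    (hs : s ∈ A) (ht : t ∈ A) (h1 : R.lam s p ≠ 0) (h2 : R.lam t q ≠ 0) : Rch A s t := by
  refine rch_gen hT (fun q s => R.lam s q ≠ 0) hex (fun p hp => ?_) hp hq hs ht h1 h2
  filter_upwards [nhdsWithin_mono _ hB (R.eventually_support (hB hp)), self_mem_nhdsWithin]
    with q h hq s _ t _ h1 h2
  exact (wt_mem (hB hq)).chain.total (h h1) (show t ∈ support _ from h2)

open Classical in
/-- the carrier as a chain -/
def car (p : E) (hp : p ∈ R.B) : Ch P :=
  ⟨Finset.univ.filter fun s => R.wt p s ≠ 0, by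
    simpa [Finset.Nonempty, funext_iff] using (wt_mem hp).ne_zero,
    (wt_mem hp).chain.mono fun s hs => by simpa using hs⟩

theorem coe_car {p : E} (hp : p ∈ R.B) : ((R.car p hp).1 : Set P) = support (R.wt p) := by
  ext s
  simp [car]

/-- the direction of a simplex -/
def dir (c : Ch P) : Submodule ℝ E :=
  (LinearMap.ker (cmb fun _ : c.1 => (1 : ℝ))).map (cmb fun s : c.1 => R.x s)

theorem cmb_sub_type {F : Type*} [AddCommGroup F] [Module ℝ F] (y : P → F) {c : Finset P}
    {m : P → ℝ} (h : support m ⊆ c) : cmb (fun s : c => y s) (fun s => m s) = cmb y m := by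
  rw [cmb_apply, cmb_apply, Finset.sum_coe_sort c fun s => m s • y s]
  exact Finset.sum_subset (Finset.subset_univ _) fun s _ hs => by
    rw [support_subset_iff'.1 h s hs, zero_smul]

theorem exists_ext {c : Finset P} (w : c → ℝ) : ∃ m : P → ℝ, support m ⊆ c ∧ w = fun s : c => m s := by
  classical
  exact ⟨fun s => if h : s ∈ c then w ⟨s, h⟩ else 0, support_subset_iff'.2 fun s hs => dif_neg hs,
    funext fun s => by simp⟩

theorem mem_dir {c : Ch P} {u : E} :
    u ∈ R.dir c ↔ ∃ m : P → ℝ, support m ⊆ c.1 ∧ ∑ s, m s = 0 ∧ cmb R.x m = u := by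
  have e : ∀ m : P → ℝ, cmb (fun _ => (1 : ℝ)) m = ∑ s, m s := fun m => by simp [cmb_real]
  constructor
  · rintro ⟨w, h1, rfl⟩
    obtain ⟨m, h, rfl⟩ := exists_ext w
    exact ⟨m, h, (e m).symm.trans ((cmb_sub_type (fun _ => (1 : ℝ)) h).symm.trans h1),
      (cmb_sub_type _ h).symm⟩
  · rintro ⟨m, h, h1, rfl⟩
    exact ⟨fun s => m s, (cmb_sub_type (fun _ => (1 : ℝ)) h).trans ((e m).trans h1), cmb_sub_type _ h⟩

theorem finrank_dir (c : Ch P) : finrank ℝ (R.dir c) + 1 = c.1.card := by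
  classical
  have h1 := (cmb fun _ : c.1 => (1 : ℝ)).finrank_range_add_finrank_ker
  have h2 : LinearMap.range (cmb fun _ : c.1 => (1 : ℝ)) = ⊤ := LinearMap.range_eq_top.2 fun a => by
    obtain ⟨s, hs⟩ := c.2.1
    exact ⟨Pi.single ⟨s, hs⟩ a, by simp [cmb_single]⟩
  have h3 : Injective ((cmb fun s : c.1 => R.x s).domRestrict
      (LinearMap.ker (cmb fun _ : c.1 => (1 : ℝ)))) := LinearMap.ker_eq_bot.1 <|
    LinearMap.ker_eq_bot'.2 fun w hw => Subtype.ext <| by
      obtain ⟨w, h0⟩ := w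
      obtain ⟨m, h, rfl⟩ := exists_ext w
      have := indep (R := R) c.2.2 h (by
        simpa [cmb_real] using (cmb_sub_type (fun _ => (1 : ℝ)) h).symm.trans h0)
        ((cmb_sub_type _ h).symm.trans hw)
      simp [this, funext_iff]
  rw [h2, finrank_top, finrank_self, finrank_fintype_fun_eq_card, Fintype.card_coe] at h1
  rw [dir, ← LinearMap.range_domRestrict, LinearMap.finrank_range_of_inj h3]
  omega

variable {R}

theorem sub_mem_dir {c : Ch P} {p q : E} (hp : p ∈ R.spx c.1) (hq : q ∈ R.spx c.1) :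
    q - p ∈ R.dir c :=
  R.mem_dir.2 ⟨R.wt q - R.wt p, (support_sub _ _).trans (union_subset hq.2 hp.2),
    by simp [(wt_mem hp.1).sum, (wt_mem hq.1).sum], by rw [map_sub, cmb_wt hp.1, cmb_wt hq.1]⟩

theorem wt_sub {c : Set P} (hc : IsChain (· ≤ ·) c) {p q : E} (hp : p ∈ R.spx c) (hq : q ∈ R.spx c)
    {m : P → ℝ} (h1 : support m ⊆ c) (h2 : ∑ s, m s = 0) (h3 : cmb R.x m = q - p) :
    R.wt q = R.wt p + m := by
  have := indep (R := R) hc (m := R.wt q - R.wt p - m)
    ((support_sub _ _).trans (union_subset ((support_sub _ _).trans (union_subset hq.2 hp.2)) h1))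
    (by simp [(wt_mem hp.1).sum, (wt_mem hq.1).sum, h2])
    (by rw [map_sub, map_sub, cmb_wt hp.1, cmb_wt hq.1, h3, sub_self])
  linear_combination this

theorem eventually_ray {p : E} (hp : p ∈ interior R.B) (u : E) : ∀ᶠ t : ℝ in 𝓝[>] 0,
    p + t • u ∈ R.B ∧ support (R.wt p) ⊆ support (R.wt (p + t • u)) := by
  have h := R.eventually_support (interior_subset hp)
  rw [nhdsWithin_eq_nhds.2 (mem_interior_iff_mem_nhds.1 hp)] at h
  have t : Tendsto (fun t : ℝ => p + t • u) (𝓝[>] 0) (𝓝 p) :=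
    tendsto_nhdsWithin_of_tendsto_nhds (Continuous.tendsto' (by fun_prop) _ _ (by simp))
  exact t.eventually ((show ∀ᶠ q in 𝓝 p, q ∈ R.B from mem_interior_iff_mem_nhds.1 hp).and h)

variable [FiniteDimensional ℝ E] {d : ℕ}

theorem card_le (R : Real P E) (c : Ch P) : c.1.card ≤ finrank ℝ E + 1 := by
  rw [← R.finrank_dir]
  exact Nat.succ_le_succ (Submodule.finrank_le _)

theorem exists_generic (R : Real P E) : ∃ u, ∀ c : Ch P, c.1.card ≤ finrank ℝ E → u ∉ R.dir c := by
  by_contra! h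
  obtain ⟨c, hc⟩ := Subspace.exists_eq_top_of_iUnion_eq_univ
    (p := fun c : {c : Ch P // c.1.card ≤ finrank ℝ E} => R.dir c) (eq_univ_of_forall fun u =>
      let ⟨c, h1, h2⟩ := h u; mem_iUnion.2 ⟨⟨c, h1⟩, h2⟩)
  have := R.finrank_dir c
  have := c.2
  rw [hc, finrank_top] at *
  omega

/-- a generic direction leads from a face into exactly one top simplex -/
theorem flow {u : E} (hu : ∀ c : Ch P, c.1.card ≤ finrank ℝ E → u ∉ R.dir c) {μ : Ch P → P → ℝ}
    (hμ : ∀ D : Ch P, D.1.card = finrank ℝ E + 1 →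
      support (μ D) ⊆ D.1 ∧ ∑ s, μ D s = 0 ∧ cmb R.x (μ D) = u)
    {c : Ch P} {p : E} (hp : p ∈ interior R.B) (hc : support (R.wt p) = c.1) :
    ∃! D : Ch P, D.1.card = finrank ℝ E + 1 ∧ c ≤ D ∧ ∀ s ∈ D.1, s ∉ c.1 → 0 < μ D s := by
  have pB := interior_subset hp
  have key : ∀ D : Ch P, D.1.card = finrank ℝ E + 1 ∧ c ≤ D ∧ (∀ s ∈ D.1, s ∉ c.1 → 0 < μ D s) →
      ∀ᶠ t : ℝ in 𝓝[>] 0, support (R.wt (p + t • u)) = D.1 := by
    rintro D ⟨h1, h2, h3⟩
    obtain ⟨m1, m2, m3⟩ := hμ D h1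
    have : ∀ᶠ t : ℝ in 𝓝[>] 0, ∀ s, s ∈ D.1 → 0 < R.wt p s + t * μ D s := eventually_all.2 fun s => by
      by_cases k : s ∈ c.1
      · have t : Tendsto (fun t : ℝ => R.wt p s + t * μ D s) (𝓝[>] 0) (𝓝 (R.wt p s)) :=
          tendsto_nhdsWithin_of_tendsto_nhds (Continuous.tendsto' (by fun_prop) _ _ (by simp))
        exact (t.eventually (lt_mem_nhds ((wt_mem pB).pos (hc.ge k)))).mono fun _ h _ => h
      · exact eventually_nhdsWithin_of_forall fun t ht hs =>
          add_pos_of_nonneg_of_pos ((wt_mem pB).nonneg s) (mul_pos ht (h3 s hs k))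
    refine this.mono fun t ht => ?_
    have sub : support (R.wt p + t • μ D) ⊆ D.1 := (support_add _ _).trans
      (union_subset (hc.le.trans h2) ((support_const_smul_subset _ _).trans m1))
    have w : R.wt p + t • μ D ∈ Wt P := IsWt.mk' D.2.2 (fun s => by
      by_cases k : s ∈ D.1
      · exact (ht s k).le
      · exact (support_subset_iff'.1 sub s k).ge)
      (by simp [Finset.sum_add_distrib, ← Finset.mul_sum, m2, (wt_mem pB).sum]) sub
    rw [← cmb_wt pB, ← m3, ← map_smul, ← map_add, wt_cmb w]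
    exact sub.antisymm fun s hs => (ht s hs).ne'
  refine existsUnique_of_exists_of_unique ?_ fun D D' h h' => ?_
  · obtain ⟨t, ⟨t1, t2⟩, t0⟩ := ((eventually_ray hp u).and self_mem_nhdsWithin).exists
    have t0 : 0 < t := t0
    have k1 : p ∈ R.spx (R.car _ t1).1 := ⟨pB, R.coe_car t1 ▸ t2⟩
    have k2 : p + t • u ∈ R.spx (R.car _ t1).1 := ⟨t1, (R.coe_car t1).ge⟩
    have k3 : (R.car _ t1).1.card = finrank ℝ E + 1 := le_antisymm (R.card_le _) <| not_le.1 fun k =>
      hu _ k ((Submodule.smul_mem_iff _ t0.ne').1 (by simpa using sub_mem_dir k1 k2))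
    obtain ⟨m1, m2, m3⟩ := hμ _ k3
    refine ⟨_, k3, Finset.coe_subset.1 (hc ▸ k1.2), fun s h1 h2 => ?_⟩
    have := congrFun (wt_sub (R.car _ t1).2.2 k1 k2 ((support_const_smul_subset t _).trans m1)
      (by simp [← Finset.mul_sum, m2]) (by simp [m3])) s
    have z : R.wt p s = 0 := not_not.1 fun k => h2 (hc.le k)
    have := (wt_mem t1).pos ((R.coe_car t1).le h1)
    simp_all
  · obtain ⟨t, h1, h2⟩ := ((key D h).and (key D' h')).exists
    exact Ch.ext (Finset.coe_injective (h1.symm.trans h2))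

theorem exists_mu (R : Real P E) (u : E) : ∃ μ : Ch P → P → ℝ, ∀ D : Ch P,
    D.1.card = finrank ℝ E + 1 → support (μ D) ⊆ D.1 ∧ ∑ s, μ D s = 0 ∧ cmb R.x (μ D) = u := by
  have : ∀ D : Ch P, ∃ m : P → ℝ, D.1.card = finrank ℝ E + 1 →
      support m ⊆ D.1 ∧ ∑ s, m s = 0 ∧ cmb R.x m = u := fun D => by
    by_cases h : D.1.card = finrank ℝ E + 1
    · have e : R.dir D = ⊤ := Submodule.eq_top_of_finrank_eq (by have := R.finrank_dir D; omega)
      obtain ⟨m, hm⟩ := R.mem_dir.1 (e.ge (Submodule.mem_top (x := u)))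
      exact ⟨m, fun _ => hm⟩
    · exact ⟨0, fun k => (h k).elim⟩
  exact Classical.axiomOfChoice this

end Real

open Classical in
theorem sum_between {P : Type} [PartialOrder P] [Fintype P] {c D : Ch P} {N : P → Prop} {s : P}
    (h1 : s ∈ D.1) (h2 : s ∉ c.1) (h3 : N s) :
    ∑ e ∈ Finset.univ.filter (fun e : Ch P => c ≤ e ∧ e ≤ D ∧ ∀ t ∈ D.1, t ∉ e.1 → N t), e.sg = 0 := by
  have sub : ∀ e : Ch P, e ≤ D → symmDiff e.1 {s} ⊆ D.1 := fun e he t ht => by
    rcases Finset.mem_symmDiff.1 ht with k | k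
    · exact he k.1
    · exact Finset.mem_singleton.1 k.1 ▸ h1
  have sup : ∀ e : Ch P, c ≤ e → c.1 ⊆ symmDiff e.1 {s} := fun e he t ht =>
    Finset.mem_symmDiff.2 (Or.inl ⟨he ht, fun k => h2 (Finset.mem_singleton.1 k ▸ ht)⟩)
  refine Finset.sum_involution (fun e he => ⟨symmDiff e.1 {s},
    c.2.1.mono (sup e (Finset.mem_filter.1 he).2.1),
    D.2.2.mono (Finset.coe_subset.2 (sub e (Finset.mem_filter.1 he).2.2.1))⟩) (fun e he => ?_)
    (fun e he _ k => ?_) (fun e he => ?_) fun e he => Ch.ext (symmDiff_symmDiff_cancel_right _ _)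
  · simp only [Ch.sg]
    by_cases k : s ∈ e.1
    · rw [symmDiff_of_ge (Finset.singleton_subset_iff.2 k), Finset.sdiff_singleton_eq_erase,
        ← Finset.card_erase_add_one k]
      ring
    · rw [(Finset.disjoint_singleton_right.2 k).symmDiff_eq_sup, Finset.sup_eq_union,
        Finset.card_union_of_disjoint (Finset.disjoint_singleton_right.2 k), Finset.card_singleton]
      ring
  · simpa using congrArg Subtype.val k
  · have := (Finset.mem_filter.1 he).2
    refine Finset.mem_filter.2 ⟨Finset.mem_univ _, sup e this.1, sub e this.2.1, fun t t1 t2 => ?_⟩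
    by_cases k : t = s
    · exact k ▸ h3
    · exact this.2.2 t t1 fun k' => t2 (Finset.mem_symmDiff.2 (Or.inl ⟨k', by simpa using k⟩))

/-- the link conditions hold at the interior points of a realisation -/
theorem mf_of_real {P : Type} [PartialOrder P] [Fintype P] {E : Type*} [NormedAddCommGroup E]
    [NormedSpace ℝ E] [FiniteDimensional ℝ E] (R : Real P E) {d : ℕ} (hd : finrank ℝ E = d)
    (d0 : 0 < d) {A : Set P} (hA : ∀ a ∈ A, R.x a ∈ interior R.B) : Mf d A := by
  classical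
  subst hd
  have I : ∀ c : Ch P, Mt A c → ∃ p ∈ interior R.B, support (R.wt p) = c.1 := fun c ⟨a, h1, h2⟩ =>
    let ⟨p, p1, _, p3⟩ := R.exists_interior c.2.2 h1
      (mem_nhdsWithin_of_mem_nhds (isOpen_interior.mem_nhds (hA a h2))); ⟨p, p1, p3⟩
  obtain ⟨u, hu⟩ := R.exists_generic
  obtain ⟨μ, hμ⟩ := R.exists_mu u
  refine ⟨fun c _ => R.card_le c, fun c hc => ?_, fun c hc hlt c1 h1 c2 h2 => ?_, fun c hc => ?_⟩
  · have nz : ∀ D : Ch P, D.1.card = finrank ℝ E + 1 → ∀ s ∈ D.1, μ D s ≠ 0 := fun D h s hs z => by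
      obtain ⟨m1, m2, m3⟩ := hμ D h
      have k := Finset.card_erase_add_one hs
      refine hu ⟨D.1.erase s, Finset.card_pos.1 (by omega), D.2.2.mono (by simp)⟩ (by simp only; omega)
        (R.mem_dir.2 ⟨_, fun t ht => ?_, m2, m3⟩)
      exact Finset.mem_erase.2 ⟨fun e => ht (e ▸ z), m1 ht⟩
    obtain ⟨p, p1, p2⟩ := I c hc
    obtain ⟨D0, d1, d2⟩ := Real.flow (u := -u) (μ := fun D => -μ D)
      (fun c h k => hu c h (by simpa using k)) (fun D h => by simpa using hμ D h) p1 p2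
    have e1 : ∀ e ∈ Finset.univ.filter (c ≤ ·), e.sg = ∑ D : Ch P, if D.1.card = finrank ℝ E + 1 ∧
        e ≤ D ∧ (∀ s ∈ D.1, s ∉ e.1 → 0 < μ D s) then e.sg else 0 := fun e he => by
      obtain ⟨q, q1, q2⟩ := I e (hc.mono (Finset.mem_filter.1 he).2)
      obtain ⟨D, k1, k2⟩ := Real.flow hu hμ q1 q2
      rw [Finset.sum_eq_single D (fun D' _ n => if_neg fun k => n (k2 D' k)) (by simp), if_pos k1]
    rw [Finset.sum_congr rfl e1, Finset.sum_comm, Finset.sum_eq_single D0 (fun D _ n => ?_) (by simp),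
      Finset.sum_eq_single D0 (fun e he n => if_neg fun k => n ?_) (by simp [d1.2.1]), if_pos
        ⟨d1.1, le_rfl, fun s h k => (k h).elim⟩, Ch.sg, d1.1]
    · refine le_antisymm k.2.1 fun s hs => not_not.1 fun m => ?_
      have a1 := k.2.2 s hs m
      have a2 := d1.2.2 s hs fun m' => m ((Finset.mem_filter.1 he).2 m')
      simp only [Pi.neg_apply] at a2
      linarith
    · by_cases k : D.1.card = finrank ℝ E + 1 ∧ c ≤ D
      · have : ∃ s ∈ D.1, s ∉ c.1 ∧ 0 < μ D s := by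
          by_contra! m
          exact n (d2 D ⟨k.1, k.2, fun s a b => neg_pos.2 ((m s a b).lt_of_ne (nz D k.1 s a))⟩)
        obtain ⟨s, s1, s2, s3⟩ := this
        refine Eq.trans ?_ (sum_between (N := fun t => 0 < μ D t) s1 s2 s3)
        rw [Finset.sum_filter, Finset.sum_filter]
        refine Finset.sum_congr rfl fun e _ => ?_
        by_cases m : c ≤ e <;> simp [k.1, m]
      · exact Finset.sum_eq_zero fun e he => if_neg fun m =>
          k ⟨m.1, (Finset.mem_filter.1 he).2.trans m.2.1⟩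
  · obtain ⟨p, p1, p2⟩ := I c hc
    have pB := interior_subset p1
    have h := R.eventually_support pB
    rw [nhdsWithin_eq_nhds.2 (mem_interior_iff_mem_nhds.1 p1)] at h
    obtain ⟨r, r0, hr⟩ := Metric.eventually_nhds_iff_ball.1
      (((show ∀ᶠ q in 𝓝 p, q ∈ R.B from mem_interior_iff_mem_nhds.1 p1).and h))
    let a : E → ℝ := fun v => min r 1 / (1 + ‖v‖)
    have a0 : ∀ v, 0 < a v := fun v => by positivity
    have a1 : ∀ v, a v ≤ 1 := fun v => (div_le_one (by positivity)).2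
      ((min_le_right _ _).trans (le_add_of_nonneg_right (norm_nonneg _)))
    have hb : ∀ v, p + a v • v ∈ Metric.ball p r := fun v => by
      rw [mem_ball_iff_norm, add_sub_cancel_left, norm_smul, Real.norm_of_nonneg (a0 v).le,
        div_mul_eq_mul_div, div_lt_iff₀ (by positivity)]
      nlinarith [min_le_left r 1, norm_nonneg v]
    have ct : Continuous fun v => p + a v • v := continuous_const.add
      ((continuous_const.div (by fun_prop) fun v => by positivity).smul continuous_id)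
    have T : IsPreconnected ((R.dir c : Set E)ᶜ) := (isConnected_compl_of_one_lt_codim (by
      have := (R.dir c).finrank_quotient_add_finrank
      have := R.finrank_dir c
      rw [← Module.finrank_eq_rank]
      exact_mod_cast (by omega : 1 < finrank ℝ (E ⧸ R.dir c)))).2
    have pc : p ∈ R.spx c.1 := ⟨pB, p2.le⟩
    have ex : ∀ e : Ch P, c < e → ∃ v ∉ R.dir c, support (R.wt (p + a v • v)) = e.1 := fun e he => by
      obtain ⟨y, -, y1, y2⟩ := R.exists_interior e.2.2 e.top_mem univ_mem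
      have pe : p ∈ R.spx e.1 := R.spx_mono he.le pc
      refine ⟨y - p, fun k => ?_, ?_⟩
      · obtain ⟨m, m1, m2, m3⟩ := R.mem_dir.1 k
        have := Real.wt_sub e.2.2 pe ⟨y1, y2.le⟩ (m1.trans he.le) m2 m3
        exact he.not_ge (Finset.coe_subset.1 (y2.ge.trans
          (this ▸ (support_add _ _).trans (union_subset p2.le m1))))
      · have k : p + a (y - p) • (y - p) = (1 - a (y - p)) • p + a (y - p) • y := by module
        rw [k]
        refine (Real.convex_spx e.2.2 pe ⟨y1, y2.le⟩ (sub_nonneg.2 (a1 _)) (a0 _).le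
          (by ring)).2.antisymm fun s hs => ?_
        rw [mem_support, Real.wt_seg e.2.2 pe ⟨y1, y2.le⟩ (sub_nonneg.2 (a1 _)) (a0 _).le (by ring)]
        exact (add_pos_of_nonneg_of_pos (mul_nonneg (sub_nonneg.2 (a1 _)) ((Real.wt_mem pB).nonneg s))
          (mul_pos (a0 _) ((Real.wt_mem y1).pos (y2.ge hs)))).ne'
    obtain ⟨v1, k1, l1⟩ := ex c1 h1
    obtain ⟨v2, k2, l2⟩ := ex c2 h2
    refine rch_gen T (fun v e => support (R.wt (p + a v • v)) = e.1) (fun v hv => ?_) (fun v _ => ?_)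
      k1 k2 h1 h2 l1 l2
    · obtain ⟨b1, b2⟩ := hr _ (hb v)
      refine ⟨R.car _ b1, lt_of_le_of_ne (Finset.coe_subset.1 (p2 ▸ R.coe_car b1 ▸ b2)) fun e => hv ?_,
        (R.coe_car b1).symm⟩
      have := Real.sub_mem_dir pc (q := p + a v • v) ⟨b1, by rw [e, R.coe_car]⟩
      exact (Submodule.smul_mem_iff _ (a0 v).ne').1 (by simpa using this)
    · have t : Tendsto (fun v => p + a v • v) (𝓝 v) (𝓝[R.B] (p + a v • v)) :=
        tendsto_nhdsWithin_iff.2 ⟨ct.tendsto v, Eventually.of_forall fun w => (hr _ (hb w)).1⟩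
      filter_upwards [mem_nhdsWithin_of_mem_nhds (t.eventually (R.eventually_support (hr _ (hb v)).1))]
        with w hw s _ t _ e1 e2
      exact Or.inl (Finset.coe_subset.1 (e1 ▸ e2 ▸ hw))
  · obtain ⟨p, p1, p2⟩ := I c hc
    obtain ⟨D, h, -⟩ := Real.flow hu hμ p1 p2
    exact ⟨D, h.2.1, h.1⟩

end Crest.Agent.X212.Sm10
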