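import Crest.Agent.X212.Sm10.Ang
import Crest.Agent.X212.Sm10.Mf
import Crest.Agent.X212.Sm10.Comb

/-!
# X212 / Sm10 (helper10): proof of the seam IN (`inStmt : InStmt`)
-/

set_option autoImplicit false
set_option linter.unusedSectionVars false

open Set Filter Topology Function
open scoped ContDiff Manifold NNReal Real
open Crest.Agent.X212.Ext52 Crest.Agent.X212.Hp13

noncomputable section

namespace Crest.Agent.X212.Sm10

theorem unif {X Y : Type*} [PseudoMetricSpace X] [PseudoMetricSpace Y] {K : Set X} (hK : IsCompact K)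
    {f : X → Y} (hf : ContinuousOn f K) {ε : ℝ} (h : 0 < ε) :
    ∀ᶠ d in 𝓝[>] (0 : ℝ), ∀ p ∈ K, ∀ q ∈ K, dist p q ≤ d → dist (f p) (f q) ≤ ε := by
  obtain ⟨d, d0, hd⟩ := Metric.uniformContinuousOn_iff_le.1
    (hK.uniformContinuousOn_of_continuous hf) ε h
  filter_upwards [Ioo_mem_nhdsGT d0] with e he p hp q hq k using hd p hp q hq (k.trans he.2.le)

theorem isChain_pair {P : Type*} [PartialOrder P] {s t : P} (h : s ≤ t) :
    IsChain (· ≤ ·) ({s, t} : Set P) := by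
  rintro _ (rfl | rfl) _ (rfl | rfl) _ <;> simp [h]

theorem exists_G0 (k : KD) {η : ℝ≥0} (η0 : 0 < η) (η1 : η ≤ 1 / 64) :
    ∃ N, Nonempty (G0 k η (Fin 3 → Fe N)) := by
  have η1 : (η : ℝ) ≤ 1 / 64 := by exact_mod_cast η1
  have η0' : (0 : ℝ) < η := η0
  have K := isCompact_far k.toTube (r := 1 / 32) (by norm_num)
  obtain ⟨L, L0, hL⟩ := K.isBounded.subset_ball_lt 0 0
  have K1 : IsCompact (rho k.toTube ⁻¹' Icc (1 / 8) (7 / 2)) := K.of_isClosed_subset
    (isClosed_Icc.preimage (continuous_rho _)) fun p h => le_trans (by norm_num) h.1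
  have cθ : ∀ p, 1 / 32 ≤ rho k.toTube p → ContDiffAt ℝ ∞ (fun q => (th k q : ℂ)) p := fun p h =>
    contDiffAt_th k (by linarith)
  obtain ⟨e, e0, he⟩ := exists_om η0'
  obtain ⟨d, ⟨⟨⟨u1, u2⟩, u3⟩, u4⟩, d0, d1⟩ := (((((unif (cube (Fin 3) 1 L0).isCompact_B
    (continuous_rho k.toTube).continuousOn η0').and (unif K (f := th k) (fun p h =>
      (continuousAt_of_coe (cθ p h)).continuousWithinAt) (half_pos (lt_min one_pos e0)))).and
    (unif K1 (f := fderiv ℝ (rho k.toTube)) (fun p h => ((contDiffAt_rho (by linarith [h.1])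
      (by linarith [h.2])).continuousAt_fderiv (by simp)).continuousWithinAt)
      (by positivity : (0 : ℝ) < η / 3))).and (unif K (f := dom (th k)) (fun p h => (continuousAt_dom
      (((continuous_rho _).tendsto p).eventually (lt_mem_nhds (lt_of_lt_of_le (by norm_num) h)) |>.mono
        fun q hq => contDiffAt_th k hq)).continuousWithinAt) (by positivity : (0 : ℝ) < η / 3))).and
    (Ioo_mem_nhdsGT η0')).exists
  obtain ⟨N, hN⟩ := exists_nat_gt (3 * L / d)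
  have N0 : (0 : ℝ) < N := lt_trans (by positivity) hN
  have h0 : 0 < L / N := by positivity
  have NL : (N : ℝ) * (L / N) = L := by field_simp
  let R := cube (Fin 3) N h0
  have mB : ∀ p, p ∈ R.B ↔ ∀ i, |p i| ≤ L := fun p => (mem_cube h0).trans (by simp only [NL])
  have far : ∀ p, 1 / 32 ≤ rho k.toTube p → p ∈ interior R.B := fun p h =>
    interior_maximal (fun q hq => (mB q).2 fun i => (PiLp.norm_apply_le q i).trans
      (mem_ball_zero_iff.1 hq).le) Metric.isOpen_ball (hL h)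
  have M : ∀ c, IsChain (· ≤ ·) c → ∀ p ∈ R.spx c, ∀ q ∈ R.spx c, dist p q ≤ d := fun c hc p hp q hq =>
    (cube_diam h0 hc hp hq).trans (by
      rw [div_lt_iff₀ d0] at hN
      rw [Fintype.card_fin, ← mul_div_assoc, div_le_iff₀ N0]
      push_cast
      linarith)
  have Mρ : ∀ c, IsChain (· ≤ ·) c → ∀ p ∈ R.spx c, ∀ q ∈ R.spx c,
      |rho k.toTube p - rho k.toTube q| ≤ η := fun c hc p hp q hq =>
    u1 p ((mem_cube L0).2 (by simpa using (mB p).1 hp.1)) q
      ((mem_cube L0).2 (by simpa using (mB q).1 hq.1)) (M c hc p hp q hq)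
  let W : Set (Fin 3 → Fe N) := {s | ∀ t ≤ s, 1 / 8 < rho k.toTube (R.x t)}
  have mW : ∀ c, IsChain (· ≤ ·) c → ∀ p ∈ R.spx c, 1 / 4 ≤ rho k.toTube p → c ⊆ W :=
    fun c hc p hp h s hs t ht => by
      have a1 := abs_le.1 (Mρ c hc p hp _ (R.x_mem_spx.2 hs))
      have a2 := abs_le.1 (Mρ _ (isChain_pair ht) _ (R.x_mem_spx.2 (Or.inl rfl)) _
        (R.x_mem_spx.2 (Or.inr rfl)))
      linarith [a1.2, a2.1]
  have fW : ∀ p ∈ R.spx W, 1 / 16 < rho k.toTube p := fun p hp => by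
    obtain ⟨s, hs⟩ := support_nonempty_iff.2 (Real.wt_mem hp.1).ne_zero
    have a1 := abs_le.1 (Mρ _ (Real.wt_mem hp.1).chain p (Real.mem_spx_support hp.1) _
      (R.x_mem_spx.2 hs))
    linarith [a1.1, hp.2 hs s le_rfl]
  have H' : ∀ c ⊆ W, IsChain (· ≤ ·) c → ∀ p ∈ R.spx c, ∀ q ∈ R.spx c,
      dist (th k p) (th k q) < min 1 e := fun c hW hc p hp q hq =>
    (u2 p (le_trans (by norm_num) (fW p (R.spx_mono hW hp)).le) q
      (le_trans (by norm_num) (fW q (R.spx_mono hW hq)).le) (M c hc p hp q hq)).trans_lt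
        (half_lt_self (lt_min one_pos e0))
  have H : ∀ c ⊆ W, IsChain (· ≤ ·) c → ∀ p ∈ R.spx c, ∀ q ∈ R.spx c,
      dist (th k p) (th k q) < 1 := fun c hW hc p hp q hq =>
    (H' c hW hc p hp q hq).trans_le (min_le_left _ _)
  have c3 : (Fintype.card (Fin 3) : ℝ≥0) * (η / 3) = η := by
    rw [Fintype.card_fin]
    push_cast
    ring
  refine ⟨N, ⟨⟨R, L, mB, fun p h => far p (by linarith), fun c hc p hp q hq =>
    ⟨(M c hc p hp q hq).trans d1.le, Mρ c hc p hp q hq⟩, R.pl fun s => rho k.toTube (R.x s),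
    fun p _ => by simp only [Real.pl_x], fun p hp => ?_, fun U h1 h2 => ?_, W,
    fun _ _ e h t ht => h t (ht.trans e), fun p h => ?_, fW, wind (th k) R, coc_wind H, del (th k) R,
    _, cir_wind H, fun p hp => ?_, fun U h1 h2 => ?_⟩⟩⟩
  · have := Real.pl_mem_Icc (f := fun s => rho k.toTube (R.x s)) hp (a := rho k.toTube p - η)
      (b := rho k.toTube p + η) fun s hs => by
        have := abs_le.1 (Mρ _ (Real.wt_mem hp).chain p (Real.mem_spx_support hp) _ (R.x_mem_spx.2 hs))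
        constructor <;> linarith [this.1, this.2]
    exact abs_le.2 ⟨by linarith [this.1], by linarith [this.2]⟩
  · refine R.lip_of_max h1 (fun p hp => interior_subset (far p (le_trans (by norm_num) (h2 hp).1)))
      fun c hc ⟨b, b1, b2⟩ => ?_
    have m : ∀ q ∈ R.spx c, rho k.toTube q ∈ Icc (1 / 8 : ℝ) (7 / 2) := fun q hq => by
      have := abs_le.1 (Mρ c hc.1 b b1 q hq)
      constructor <;> linarith [this.1, this.2, (h2 b2).1, (h2 b2).2]
    rw [← c3]
    exact cube_lip h0 (by exact_mod_cast N0) hc (fun q hq => ((contDiffAt_rho (by linarith [(m q hq).1])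
      (by linarith [(m q hq).2])).differentiableAt (by simp)).hasFDerivAt) fun q hq q' hq' =>
        (dist_eq_norm _ _).symm.trans_le (u3 q (m q hq) q' (m q' hq') (M c hc.1 q hq q' hq'))
  · have hp := interior_subset (far p (by linarith))
    exact ⟨hp, mW _ (Real.wt_mem hp).chain p (Real.mem_spx_support hp) h⟩
  · exact abs_le.2 (Real.pl_mem_Icc hp.1 fun s hs => abs_le.1 (he _ _ ((H' _ hp.2
      (Real.wt_mem hp.1).chain p (Real.mem_spx_support hp.1) _ (R.x_mem_spx.2 hs)).trans_le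
        (min_le_right _ _))))
  · refine R.lip_of_max h1 (fun p hp => interior_subset (far p (le_trans (by norm_num) (h2 hp))))
      fun c hc ⟨b, b1, b2⟩ => ?_
    have cW := mW c hc.1 b b1 (h2 b2)
    have m : ∀ q ∈ R.spx c, 1 / 32 ≤ rho k.toTube q := fun q hq =>
      le_trans (by norm_num) (fW q (R.spx_mono cW hq)).le
    intro p hp q hq
    rw [del_eq H cW hc.1 b1 hp, del_eq H cW hc.1 b1 hq, ← c3]
    exact cube_lip h0 (by exact_mod_cast N0) hc (f := fun q => om (th k b) (th k q)) (ε := η / 3)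
      (fun q hq => hasFDerivAt_om (cθ q (m q hq)) (H c cW hc.1 b b1 q hq)) (fun q hq q' hq' =>
        (dist_eq_norm _ _).symm.trans_le (u4 q (m q hq) q' (m q' hq') (M c hc.1 q hq q' hq'))) hp hq

section slice

variable {P : Type} [PartialOrder P] [Fintype P] {E : Type*} [NormedAddCommGroup E]
  [NormedSpace ℝ E] (R : Real P E)

theorem Real.lt_pl {R : Real P E} {f : P → ℝ} {r : ℝ} {p : E} (hp : p ∈ R.B)
    (h : ∀ s, R.lam s p ≠ 0 → r ≤ f s) {t : P} (ht : R.lam t p ≠ 0) (h' : r < f t) : r < R.pl f p := by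
  rw [← Real.pl_const (R := R) r hp, Real.pl_real, Real.pl_real]
  refine Finset.sum_lt_sum (fun s _ => ?_) ⟨t, Finset.mem_univ _,
    mul_lt_mul_of_pos_left h' ((Real.wt_mem hp).pos ht)⟩
  by_cases e : R.lam s p = 0
  · simp [e]
  · exact mul_le_mul_of_nonneg_left (h s e) ((Real.wt_mem hp).nonneg s)

theorem Real.exists_level {f : P → ℝ} {r : ℝ} {c : Set P} (hc : IsChain (· ≤ ·) c) {a o : P}
    (ha : a ∈ c) (ho : o ∈ c) (h1 : r < f a) (h2 : f o < r) :
    ∃ y ∈ R.B, support (R.wt y) = c ∧ R.pl f y = r := by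
  obtain ⟨p, p1, p2, p3⟩ := R.exists_interior hc ha (V := {p | r < R.pl f p})
    (nhdsWithin_mono _ (fun _ h => h.1) ((R.continuousOn_pl f _ (R.x_mem a)).eventually
      (lt_mem_nhds (by simpa using h1))))
  obtain ⟨q, q1, q2, q3⟩ := R.exists_interior hc ho (V := {p | R.pl f p < r})
    (nhdsWithin_mono _ (fun _ h => h.1) ((R.continuousOn_pl f _ (R.x_mem o)).eventually
      (gt_mem_nhds (by simpa using h2))))
  have d : 0 < R.pl f p - R.pl f q := sub_pos.2 (lt_trans q1 p1)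
  have a0 : 0 < (r - R.pl f q) / (R.pl f p - R.pl f q) := div_pos (sub_pos.2 q1) d
  have b0 : 0 < (R.pl f p - r) / (R.pl f p - R.pl f q) := div_pos (sub_pos.2 p1) d
  have ab : (r - R.pl f q) / (R.pl f p - R.pl f q) + (R.pl f p - r) / (R.pl f p - R.pl f q) = 1 := by
    field_simp
    ring
  have m := Real.convex_spx hc ⟨p2, p3.le⟩ ⟨q2, q3.le⟩ a0.le b0.le ab
  have w := Real.wt_seg hc ⟨p2, p3.le⟩ ⟨q2, q3.le⟩ a0.le b0.le ab
  refine ⟨_, m.1, m.2.antisymm fun s hs => ?_, ?_⟩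
  · rw [mem_support, w]
    exact (add_pos_of_pos_of_nonneg (mul_pos a0 ((Real.wt_mem p2).pos (p3.ge hs)))
      (mul_nonneg b0.le ((Real.wt_mem q2).nonneg s))).ne'
  · rw [Real.pl, w, map_add, map_smul, map_smul]
    show _ * R.pl f p + _ * R.pl f q = r
    field_simp
    ring

/-- slicing along a generic level of a PL function -/
theorem Real.exists_slice (f : P → ℝ) {r : ℝ} (hr : ∀ s, f s ≠ r) :
    ∃ R' : Real (Ch P) E, Der (fun c : Ch P => (c.1 : Set P)) R R' ∧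
      R'.spx {c : Ch P | ↑c.1 ⊆ {s | r < f s}}ᶜ = {p | p ∈ R.B ∧ R.pl f p ≤ r} := by
  have : ∀ c : Ch P, ∃ y ∈ R.B, support (R.wt y) = c.1 ∧ ((∃ s ∈ c.1, r < f s) → r ≤ R.pl f y) ∧
      (↑c.1 ⊆ {s | r < f s} → r < R.pl f y) ∧ (¬ ↑c.1 ⊆ {s | r < f s} → R.pl f y ≤ r) := fun c => by
    by_cases h : ↑c.1 ⊆ {s | r < f s}
    · obtain ⟨y, -, y1, y2⟩ := R.exists_interior c.2.2 c.top_mem univ_mem
      have := Real.lt_pl y1 (fun s hs => (h (y2.le hs)).le) (y2.ge c.top_mem) (h c.top_mem)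
      exact ⟨y, y1, y2, fun _ => this.le, fun _ => this, fun k => (k h).elim⟩
    by_cases h' : ∃ s ∈ c.1, r < f s
    · obtain ⟨a, a1, a2⟩ := h'
      obtain ⟨o, o1, o2⟩ := not_subset.1 h
      obtain ⟨y, y1, y2, y3⟩ := R.exists_level c.2.2 a1 o1 a2 ((not_lt.1 o2).lt_of_ne (hr o))
      exact ⟨y, y1, y2, fun _ => y3.ge, fun k => (h k).elim, fun _ => y3.le⟩
    · obtain ⟨y, -, y1, y2⟩ := R.exists_interior c.2.2 c.top_mem univ_mem
      exact ⟨y, y1, y2, fun k => (h' k).elim, fun k => (h k).elim, fun _ =>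
        Real.pl_mem_convex y1 (convex_Iic r) fun s hs => not_lt.1 fun k => h' ⟨s, y2.le hs, k⟩⟩
  choose y y1 y2 y3 y4 y5 using this
  have D := R.der_der (sd_ch P) y y1 y2
  refine ⟨_, D, Set.ext fun p => and_congr_right fun hp => ?_⟩
  rw [D.pl_eq f hp]
  refine ⟨fun h => Real.pl_mem_convex hp (convex_Iic r) fun c hc => y5 c (h hc),
    fun h c hc k => h.not_gt (Real.lt_pl hp (fun d hd => ?_) hc (y4 c k))⟩
  rcases (Real.wt_mem (R := R.der (sd_ch P) y y1 y2) hp).chain.total hc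
    (show d ∈ support _ from hd) with e | e
  · exact y3 d ⟨_, e c.top_mem, k c.top_mem⟩
  · exact (y4 d ((Finset.coe_subset.2 e).trans k)).le

end slice

theorem geo_of_G0 {k : KD} {η C : ℝ≥0} {P : Type} [PartialOrder P] [Fintype P] (hP : H1 P)
    (hC : ∀ y u : Circle, LipschitzOnWith C (fun s : ℝ => tb k.toTube (y, s * u)) (Icc (1 / 4) 3))
    (h1 : η * C ≤ 1) (h2 : η ≤ 1 / 64) (g : G0 k η P) :
    ∃ s : St, Good s ∧ IsUpperSet s.A ∧ Nonempty (Geo k η s) := by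
  have h2' : (η : ℝ) ≤ 1 / 64 := by exact_mod_cast h2
  obtain ⟨r, r1, r2⟩ := (Ioo_infinite (one_lt_two (α := ℝ))).exists_notMem_finite
    (finite_range fun s => g.ρ (g.R.x s))
  obtain ⟨R1, D1, S1⟩ := g.R.exists_slice (fun s => g.ρ (g.R.x s)) (r := r) fun s e => r2 ⟨s, e⟩
  let g1 := g.tw D1.tw
  obtain ⟨c, hc⟩ : ∃ c : ℝ, ∀ s, Int.fract (g1.a s - c) ≠ 0 := by
    by_contra! h
    refine not_countable_univ ((countable_range fun a : Ch P × ℤ => g1.a a.1 - a.2).mono fun c _ => ?_)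
    obtain ⟨s, hs⟩ := h c
    exact ⟨(s, ⌊g1.a s - c⌋), by linarith [Int.floor_add_fract (g1.a s - c)]⟩
  let g2 := g1.shift fun s => ⌊g1.a s - c⌋
  have a2 : ∀ s, g2.a s - c ∈ Ioo (0 : ℝ) 1 := fun s => by
    have : g2.a s - c = Int.fract (g1.a s - c) := by
      show g1.a s - (⌊g1.a s - c⌋ : ℤ) - c = _
      rw [Int.fract]
      ring
    exact this ▸ ⟨(Int.fract_nonneg _).lt_of_ne' (hc s), Int.fract_lt_one _⟩
  choose ϖ ϖ1 ϖ2 using fun C : Ch (Ch P) => C.1.exists_min_image (fun s => g2.z s C.top) C.2.1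
  obtain ⟨R2, D2, V2⟩ := R1.exists_near (sd_ch (Ch P)) ϖ ϖ1 (fun C => {p | R1.pl
    (fun s => g2.a s - g2.z s C.top) p + g2.z (ϖ C) C.top - c ∈ Ioo (0 : ℝ) 1}) fun C =>
      nhdsWithin_mono _ (fun _ h => h.1) ((((R1.continuousOn_pl _ _ (R1.x_mem _)).add
        continuousWithinAt_const).sub continuousWithinAt_const).eventually
          (isOpen_Ioo.mem_nhds (by simpa using a2 (ϖ C))))
  let g3 := (g2.tw D2.tw).shift fun C => -g2.z (ϖ C) C.top
  let A : Set (Ch (Ch P)) := {C | Mt {c : Ch P | ↑c.1 ⊆ {s | r < g.ρ (g.R.x s)}} C}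
  have B2 : R2.B = g.R.B := D2.B_eq.trans D1.B_eq
  have O : R2.spx Aᶜ = {p | p ∈ R2.B ∧ g.ρ p ≤ r} := by
    rw [B2, show {p | p ∈ g.R.B ∧ g.ρ p ≤ r} = {p | p ∈ g.R.B ∧ g.R.pl (fun s => g.ρ (g.R.x s)) p ≤ r}
      from Set.ext fun p => and_congr_right fun hp => by rw [← g.ρ_pl p hp], ← S1, ← D2.spx_eq]
    congr 1
    ext C
    exact ⟨fun h x hx k => h ⟨x, hx, k⟩, fun h ⟨x, hx, k⟩ => h hx k⟩
  have mA : ∀ x, x ∈ A ↔ r < g.ρ (R2.x x) := fun x => by
    rw [← not_iff_not, not_lt]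
    exact (R2.x_mem_spx (c := Aᶜ)).symm.trans (by rw [O]; exact and_iff_right (R2.x_mem x))
  have st : ∀ a ∈ A, ∀ x, Cm a x → 1 / 2 ≤ rho k.toTube (R2.x x) := fun a ha x hx => by
    have e1 := abs_le.1 (g3.ρ_near _ (R2.x_mem a))
    have e2 := abs_le.1 (g3.mesh {a, x} (hx.elim isChain_pair fun h => pair_comm x a ▸ isChain_pair h) _
      (R2.x_mem_spx.2 (Or.inl rfl)) _ (R2.x_mem_spx.2 (Or.inr rfl))).2
    have e3 : r < g3.ρ (R2.x a) := (mA a).1 ha
    linarith [e1.2, e2.2, r1.1]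
  have T := preconnected_shell k.toTube hC h1 (h2.trans (by rw [← NNReal.coe_le_coe]; norm_num))
    (fun p hp => g.ρ_near p (interior_subset (g.far p (by linarith)))) g.ρ_lip r1
  have TB : {p | 1 / 2 ≤ rho k.toTube p ∧ g.ρ p ≤ r} ⊆ R2.B := fun p hp =>
    B2 ▸ interior_subset (g.far p (by linarith [hp.1]))
  have bd := bnd_upper hP.ch.ch (upper_mt _) (A := A) fun x x1 y y1 ⟨a, a1, a3⟩ ⟨b, b1, b3⟩ =>
    R2.rch_of_preconnected T TB (fun q hq => (support_nonempty_iff.2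
      (Real.wt_mem (TB hq)).ne_zero).elim fun s hs => ⟨s, (O.ge ⟨TB hq, hq.2⟩).2 hs, hs⟩)
      ⟨st a a1 x (Or.inr a3), not_lt.1 (mt (mA x).2 x1)⟩ ⟨st b b1 y (Or.inr b3), not_lt.1 (mt (mA y).2 y1)⟩
      x1 y1 (by simp [R2.lam_x_self]) (by simp [R2.lam_x_self])
  refine ⟨⟨Ch (Ch P), A⟩, ⟨(upper_mt _).ordConnected, mf_of_real R2 (by simp) (by norm_num)
    fun a ha => g3.far _ (by linarith [st a ha a (Or.inl le_rfl)]), nice_slice _, bd _, bd _⟩,
    upper_mt _, ⟨⟨R2, g3.L, g3.mem_B, g3.far, g3.mesh, g.ρ, r, r1, g3.ρ_pl, g3.ρ_near, g3.ρ_lip, mA, O,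
      g3.W, g3.low, g3.mem_W, g3.W_far, fun a ha x hx => R2.x_mem_spx.1 (g3.mem_W _
        (by linarith [st a ha x hx])), g3.z, g3.coc, fun x hx y hy e => ?_, g3.δ, c,
      fun x => g3.a x - c, fun x _ => by
        convert V2 x using 1
        simp [g3, G0.shift, G0.tw]
        rfl,
      g3.cir.congr (fun _ _ _ _ _ => rfl) fun _ _ => by ring, g3.δ_near, g3.δ_lip⟩⟩⟩
  have := ϖ2 y (ϖ x) (e (ϖ1 x))
  have k := g2.coc (ϖ x) (g2.low (Ch.le_top (ϖ1 x)) hx) _ hx _ hy (Ch.le_top (ϖ1 x)) (Ch.top_mono e)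
  show 0 ≤ g2.z x.top y.top + (-g2.z (ϖ y) y.top - -g2.z (ϖ x) x.top)
  omega

theorem inStmt : InStmt := by
  intro k η η0
  obtain ⟨C, hC⟩ := exists_speed k.toTube
  have p : 0 < min η (min (1 / 64) (C + 1)⁻¹) := by positivity
  obtain ⟨N, ⟨g⟩⟩ := exists_G0 k p ((min_le_right _ _).trans (min_le_left _ _))
  obtain ⟨s, h1, h2, ⟨g'⟩⟩ := geo_of_G0 (fun G _ z hz => by
    obtain ⟨u, hu⟩ := cube_exact z fun x y w => hz x trivial y trivial w trivial
    exact ⟨u, fun x _ y _ => hu x y⟩) hC (by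
      refine (mul_le_mul' ((min_le_right _ _).trans (min_le_right _ _)) (le_self_add (b := 1))).trans ?_
      rw [inv_mul_cancel₀ (by positivity)]) ((min_le_right _ _).trans (min_le_left _ _)) g
  exact ⟨s, h1, h2, ⟨g'.weaken (min_le_left _ _)⟩⟩

end Crest.Agent.X212.Sm10
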