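import Crest.Agent.X212.Sm10.Nat0
import Crest.Agent.X212.Sm10.Dg2
import Crest.Agent.X212.Flo2.Lev

/-!
# Row 212, LV-NAT (helper10), part 1: isomorphic pieces have the same solutions
-/

set_option autoImplicit false
set_option linter.unusedSectionVars false
noncomputable section
open scoped Manifold ContDiff Topology InnerProductSpace
open MeasureTheory Set Function Filter

namespace Crest.Agent.X212.Sm10.Nt
open An Sw Sob92 Cyf70 Sw.En3
open Wz78 (SA)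
open Pb50 (LA th cB Gl src gau_fst)
open Nd18 (Jv Dp)
open Flo2 (BcI TI0 SameS NatStmt)
open M (Mf pm)

variable {κ lam ν : Type} [Fintype κ] [Fintype lam] [Fintype ν] [DecidableEq ν]
  {X X' : Mf 4} {nc nc' : ℕ} {φ : OpenPartialHomeomorph X.M X'.M}
  {U : X.M → Option κ → Option κ → ℝ} {u : X.M → En ν} {α : Option κ → X.M → ℝ} {x : X.M}
  {c : Cfg X.M κ ν} {c' : Cfg X'.M κ ν}

theorem sum_rel {A A' V : Type} [Fintype A] [Fintype A'] [AddCommMonoid V] {r : A → A' → Prop}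
    {f : A → V} {f' : A' → V} (inj : ∀ i i' j j', r i i' → r j j' → (i = j ↔ i' = j'))
    (l : ∀ i, f i = 0 ∨ ∃ i', r i i') (l' : ∀ i', f' i' = 0 ∨ ∃ i, r i i')
    (e : ∀ i i', r i i' → f' i' = f i) : ∑ i', f' i' = ∑ i, f i := by
  classical
  have k : ∀ {A A' : Type} [Fintype A] [Fintype A'] (r : A → A' → Prop) (g : A → V),
      (∀ i i' j', r i i' → r i j' → j' = i') → (∀ i, g i = 0 ∨ ∃ i', r i i') →
      ∑ i, g i = ∑ i, ∑ i', if r i i' then g i else 0 := fun r g h1 h2 =>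
    Finset.sum_congr rfl fun i _ => by
      rcases h2 i with h | ⟨i', h⟩
      · simp [h]
      · rw [Finset.sum_eq_single i' (fun j' _ hj => if_neg fun k => hj (h1 i i' j' h k)) (by simp),
          if_pos h]
  rw [k r f (fun i i' j' a b => (inj _ _ _ _ b a).1 rfl) l,
    k (fun i' i => r i i') f' (fun i' i j a b => (inj _ _ _ _ b a).2 rfl) l', Finset.sum_comm]
  exact Finset.sum_congr rfl fun i _ => Finset.sum_congr rfl fun i' _ => by
    split_ifs with h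
    exacts [e i i' h, rfl]

section nk
variable {e : En3 κ lam ν} {b : Bg X.I X.M κ lam ν nc} {b' : Bg X'.I X'.M κ lam ν nc'}
  {K : Nk e b} {K' : Nk e b'} {γ : e.Y.M → ℂ} {δ t : ℝ} {z : e.Y.M × ℝ} {s : Bool} {v : e.YC}

theorem fz_act (hγ : Gau e.Y.I γ) (v : e.YC) :
    fz (v.act γ) = e.cyl.act (fun x => γ x.1) (fz v) :=
  Pb50.sl_act (fz v) fun y => (gau_fst hγ).1 (y, 0)

theorem gl_sh_iff {N : Type} [NormedAddCommGroup N] [NormedSpace ℝ N] {f : e.Y.M × ℝ → N} (δ : ℝ) :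
    Gl e.D.F.toPre s f ↔ Gl e.D.F.toPre s fun x => f (x.1, x.2 + δ) :=
  ⟨fun h => Dg.gl_sh h δ, fun h => by simpa using Dg.gl_sh h (-δ)⟩

theorem gl_congr {N : Type} [NormedAddCommGroup N] [NormedSpace ℝ N] {f g : e.Y.M × ℝ → N}
    (h : f =ᶠ[Pb50.nd e.Y.M s] g) : Gl e.D.F.toPre s f ↔ Gl e.D.F.toPre s g :=
  ⟨fun k => k.congr h.symm, fun k => k.congr h⟩

theorem tg_ext (hb : b.OK) (K : Nk e b) {f : e.Y.M → F2 κ} (hf : ∀ y, e.cyl.p2 (y, 0) (f y) = f y)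
    (r : ℝ) (x : X.M) : Tg b x (r • K.ext f x) := by
  by_cases hx : x ∈ K.ψ.target
  · obtain ⟨z, hz, rfl⟩ := K.ψ.surjOn hx
    refine tg_of hb ?_
    have := Cut71.p2_φ (Cut71.sH_lit (e := e) z.2) (x := (z.1, 0)) trivial
    simp only [Homeomorph.toOpenPartialHomeomorph_apply, Cut71.sH_apply, zero_add] at this
    rw [K.ext_ψ _ hz, map_smul, map_smul, Pb50.p2_ψ K hz, this, hf]
  · rw [K.ext_zero _ (Pb50.off K hx), smul_zero, Tg, map_zero]

variable (K K' φ U u γ δ) in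
/-- matched necks -/
structure Nm : Prop where
  cor : K.Cor K' φ δ
  gau : Gau e.Y.I γ
  U : ∀ z ∈ K.ψ.source, ∀ a a', U (K.ψ z) a a' = b.B.P a a' (K.ψ z)
  u : ∀ z ∈ K.ψ.source, ∀ v, u (K.ψ z) v = cs b.m.J (γ z.1) (b.m.p (K.ψ z) v)

namespace Nm
variable (n : Nm φ U u K K' γ δ)
include n

theorem J : t + δ ∈ K'.J ↔ t ∈ K.J := by
  rw [Nd18.Nk.J, Nd18.Nk.J, n.cor.1, n.cor.2.1]
  cases K.p <;> cases K.q <;> simp [Jv]

theorem cut : K'.cut 1 (t + δ) = K.cut 1 t := by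
  rw [Nd18.Nk.cut, Nd18.Nk.cut, n.cor.1, n.cor.2.1]
  cases K.p <;> cases K.q <;> simp [Nd18.ct, add_sub_add_right_eq_sub]

theorem inf : K'.Inf s ↔ K.Inf s := by
  cases s <;> simp [Nk.Inf, n.cor.1, n.cor.2.1]

theorem src' (hz : z ∈ K.ψ.source) : (z.1, z.2 + δ) ∈ K'.ψ.source :=
  K'.mem_src.2 (n.J.2 (K.mem_src.1 hz))

theorem tgt (hx : x ∈ φ.source) (h : φ x ∈ K'.ψ.target) : x ∈ K.ψ.target := by
  obtain ⟨z, hz, e'⟩ := K'.ψ.surjOn h
  have h1 : (z.1, z.2 - δ) ∈ K.ψ.source :=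
    K.mem_src.2 (n.J.1 (by rw [sub_add_cancel]; exact K'.mem_src.1 hz))
  obtain ⟨h2, h3⟩ := n.cor.2.2 _ h1
  rw [sub_add_cancel] at h3
  exact φ.injOn h2 hx (h3.symm.trans e') ▸ K.ψ.map_source h1

theorem asyG (hs : K.Inf s) {g : X'.M → ℂ} (hg : Sm X'.I g) (hg' : Sm X.I fun x => g (φ x)) :
    K'.AsyG s g ↔ K.AsyG s fun x => g (φ x) := by
  rw [Pb50.asyG_iff K' (n.inf.2 hs) hg, Pb50.asyG_iff K hs hg', gl_sh_iff δ]
  exact gl_congr ((Pb50.ev_ψ K hs).mono fun z hz => by simp only [(n.cor.2.2 z hz).2])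

variable (h : b.Iso b' φ U u α) (hb : b.OK) (he : e.OK)
include h hb he

theorem al (hz : z ∈ K.ψ.source) (a : Option κ) :
    α a (K.ψ z) = th e.D.Z.toPre (fun x => γ x.1) a z := by
  obtain ⟨h1, h2⟩ := n.cor.2.2 z hz
  have hg := Pb50.LG.of_gau (gau_fst n.gau) z
  have e1 : ∀ y ∈ K.ψ.source, u (K.ψ y) = cB e.m.J (γ y.1) * e.cyl.m.p y := fun y hy =>
    ContinuousLinearMap.ext fun v => by rw [n.u y hy, K.hJ, K.hp y hy]; rfl
  have e2 : ∑ j, U (K.ψ z) j a • b'.A j (φ (K.ψ z)) = e.cyl.A a z := by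
    rw [← K.hA a z hz, ← hb.cc.proj a]
    refine Finset.sum_congr rfl fun j _ => ?_
    rw [n.U z hz, (hb.B.pr _).symm j a, ← h2, K'.hA j _ (n.src' hz), K.hA j z hz]
    cases j <;> rfl
  have e3 : b.F.D a u (K.ψ z) = th e.D.Z.toPre (fun x => γ x.1) a z • (cB e.m.J (Complex.I * γ z.1) *
      e.cyl.m.p z) + cB e.m.J (γ z.1) * (e.cyl.m.p z * e.cyl.A a z - e.cyl.A a z * e.cyl.m.p z) := by
    have s1 : SA (IC e.Y.I) (fun y : e.Y.M × ℝ => cB e.m.J (γ y.1)) z := hg.sm.clm _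
    rw [Pb50.D_ψ K hz, Pre.D_def, dv_congr ((Pb50.ev_src K hz).mono e1),
      Wz78.dv_mul s1 (he.cyl.cc.sp z), dv_clm (cB e.m.J) hg.sm.md, ← Pre.D_def, hg.D, map_smul,
      smul_mul_assoc, ← neg_sub (e.cyl.A a z * _)]
    exact congrArg (_ + _ * ·) (eq_neg_of_add_eq_zero_left (he.cyl.cc.par a z))
  have e4 := h.A _ h1 a
  have e5 : e.cyl.A a z * cB e.m.J (γ z.1) = cB e.m.J (γ z.1) * e.cyl.A a z :=
    ContinuousLinearMap.ext fun v => Pb50.cs_comm (he.cyl.AJ a z) _ v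
  have e6 : cB e.m.J (γ z.1) * e.cyl.m.p z * e.cyl.jp z =
      cB e.m.J (Complex.I * γ z.1) * e.cyl.m.p z := by
    rw [Bg.jp, mul_assoc, ← mul_assoc (e.cyl.m.p z), ← Pb50.Jp he.cyl, mul_assoc,
      he.cyl.m.pidem z trivial, mul_comm Complex.I]
    exact ContinuousLinearMap.ext fun v => .trans (congrArg (cs _ _) (by simp [cs]))
      (Eqv71.cs_mul he.cyl.m.Jsq _ Complex.I _)
  rw [e3, e2, e1 z hz, K.hA a z hz, Pb50.jp_ψ K hz, ← mul_assoc (e.cyl.A a z), e5, mul_add,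
    mul_smul_comm, e6] at e4
  obtain ⟨v, hv⟩ : ∃ v, e.cyl.m.p z v ≠ 0 := by
    by_contra! k
    have := he.cyl.m.prk z trivial
    rw [show e.cyl.m.p z = 0 from ContinuousLinearMap.ext k] at this
    simp at this
  have e7 : (th e.D.Z.toPre (fun x => γ x.1) a z - α a (K.ψ z)) •
      (cB e.m.J (Complex.I * γ z.1) * e.cyl.m.p z) = 0 := by
    rw [← e4]
    simp only [sub_smul, mul_sub, mul_assoc]
    abel
  refine (sub_eq_zero.1 ((smul_eq_zero.1 e7).resolve_right fun k => hv (norm_eq_zero.1 ?_))).symm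
  rw [← Pb50.norm_cs he.cyl.m.Jsq he.cyl.m.Jsk (z := Complex.I * γ z.1) (by simp [n.gau.2])]
  exact norm_eq_zero.2 (congrArg (· v) k)

variable (t' : ∀ y ∈ φ.source, Tr φ U u α c c' y) (hc : b.Adm c)
include t' hc

theorem pb (hz : z ∈ K.ψ.source) : Cut71.At (fun x => (x.1, x.2 + δ))
    (e.cyl.act (fun x => γ x.1) (K.pb c)) (K'.pb c') z := by
  obtain ⟨h1, h2⟩ := n.cor.2.2 z hz
  refine ⟨fun j => ?_, ?_⟩
  · show c.a j (K.ψ z) - th e.D.Z.toPre (fun x => γ x.1) j z = c'.a j (K'.ψ _)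
    simp only [h2, (t' _ h1).1, n.U z hz, mul_sub, Finset.sum_sub_distrib, hc.pa, h.pα _ h1]
    rw [n.al h hb he hz]
  · show cs e.m.J (γ z.1) (c.Φ (K.ψ z)) = c'.Φ (K'.ψ _)
    rw [h2, (t' _ h1).2, n.u z hz, (LA.of_adm hc _).pΦ' hb, K.hJ]

theorem eqv (ht : t ∈ K.J) : e.cyl.Adm (fz (sl (K.pb c) t)) ∧
    Eqv (sl (K.pb c) t) (sl (K'.pb c') (t + δ)) :=
  ⟨Pb50.sl_adm fun y => Pb50.la_ψ K (src K ht y) (.of_adm hc _),
    (YC.ext (funext fun k => funext fun y => (n.pb h hb he t' hc (src K ht y)).1 (some k))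
      (funext fun y => (n.pb h hb he t' hc (src K ht y)).2) :
        sl (e.cyl.act (fun x => γ x.1) (K.pb c)) t = sl (K'.pb c') (t + δ)) ▸
      Pb50.eqv_sl _ fun y => .of_gau (gau_fst n.gau) (y, t)⟩

theorem terms (hx : x ∈ φ.source) : K'.rad c' (φ x) = u x (K.rad c x) ∧
    K'.hl c' (φ x) = R2 (U x) (K.hl c x) ∧ ∀ T, K'.ms T c' (φ x) = R2 (U x) (K.ms T c x) := by
  by_cases k : x ∈ K.ψ.target
  · obtain ⟨⟨y, t⟩, hz, rfl⟩ := K.ψ.surjOn k
    have s' := n.src' hz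
    have r : ∀ f, Tg b (K.ψ (y, t)) f → R2 (U (K.ψ (y, t))) f = f := fun f hf => by
      rwa [funext₂ (n.U _ hz)]
    simp only [r (K.hl c _) (tg_ext hb K he.pζ _ _), fun T => r (K.ms T c _) (tg_ext hb K T.pf _ _)]
    rw [← (n.cor.2.2 _ hz).2]
    simp only [Nk.rad, Nk.hl, Nk.ms, Nd18.Nk.χ, K.tm_ψ _ hz, K'.tm_ψ _ s', K.ext_ψ _ hz,
      K'.ext_ψ _ s', K'.hρ _ _ s', n.cut]
    by_cases k : t ∈ Dp K.p K.q 1
    · have k1 := n.eqv h hb he t' hc (K.mem_src.1 hz)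
      refine ⟨?_, by rw [he.per _ _ k1.1 k1.2], fun T => ?_⟩
      · rw [Pb50.Eqv.nm he k1.2, map_smul, n.u _ hz, ← mul_apply_eq_comp, (hb.m.cl _ trivial).pl,
          ← Pb50.cs_comm (Pb50.Jρ hb none _), K.hρ _ _ hz, K.hJ]
        exact congrArg (_ • e.m.ρ none y ·) (n.pb h hb he t' hc hz).2.symm
      · rw [← Cut71.lb_shf, Pb50.lb_congr (c := K.pb c) fun s hs =>
          let k2 := n.eqv h hb he t' hc (Pb50.half_J K k hs); T.inv _ _ k2.1 k2.2]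
    · simp only [show K.cut 1 t = 0 from Nd18.ct_zero k, zero_mul, zero_smul, smul_zero, map_zero,
        implies_true, and_self]
  · have k1 := Pb50.off K k
    have k2 := Pb50.off K' fun k' => k (n.tgt hx k')
    simp only [Nk.rad, Nk.hl, Nk.ms, K.χ_zero k1, K'.χ_zero k2, K.ext_zero _ k1, K'.ext_zero _ k2,
      zero_mul, zero_smul, smul_zero, map_zero, implies_true, and_self]

theorem asy (hc' : b'.Adm c') (hs : K.Inf s) (hv : e.cyl.Adm (fz v)) :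
    K'.Asy s (v.act γ) c' ↔ K.Asy s v c := by
  have hv' : e.cyl.Adm (fz (v.act γ)) := Pb50.Eqv.adm he hv ⟨γ, n.gau, fz_act n.gau v⟩
  have ev := (Pb50.ev_ψ K hs).mono fun z hz => n.pb h hb he t' hc hz
  rw [Pb50.asy_iff K' (n.inf.2 hs) hc' hv', Pb50.asy_iff K hs hc hv]
  refine and_congr (forall_congr' fun i => (gl_sh_iff δ).trans (gl_congr (ev.mono fun z hz => ?_)))
    (((gl_sh_iff δ).trans (gl_congr (g := fun z => cB e.m.J (γ z.1) ((K.pb c).Φ z - v.Φ z.1))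
      (ev.mono fun z hz => ?_))).trans ⟨fun k => ?_, fun k => k.bil _ (Pb50.gb_fst n.gau.1)⟩)
  · have := (Pb50.fz_a (v.act γ) i (z.1, z.2 + δ)).trans (Pb50.fz_a (v.act γ) i z).symm
    simp only [← hz.1 i, this]
    simp only [fz_act n.gau, Pb50.act_a, sub_sub_sub_cancel_right]
  · simp only [← hz.2, map_sub]
    rfl
  · refine (k.bil (cB e.m.J) (Pb50.gb_fst (φ := fun y => star (γ y))
      fun y => Pb50.sa_star (n.gau.1 y))).congr (.of_forall fun z => ?_)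
    simp only [Pb50.cB_apply, Eqv71.cs_mul (J := e.m.J) he.cyl.m.Jsq,
      Pb50.star_mul_one (n.gau.2 _), Eqv71.cs_one]

end Nm
end nk

variable {d : Dt κ lam ν} [Fintype d.𝓔] {Sl : Type} [Fintype Sl] {P : PcS d Sl X nc}
  {P' : PcS d Sl X' nc} {r : d.𝓔 × Sl → d.𝓔 × Sl → Prop}
  {γ : ∀ i : d.𝓔 × Sl, (d.e i.1).Y.M → ℂ} {q : d.W →₀ ℝ}

theorem p_D (hP : P.OK) (q : d.W →₀ ℝ) (c : Cfg X.M κ ν) (x : X.M) :
    P.bg.m.p x ((P.pt q).D c x) = (P.pt q).D c x := by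
  refine (map_sum _ _ _).trans (Finset.sum_congr rfl fun i _ => ?_)
  cases P.nk i with
  | none => exact map_zero _
  | some K => rw [Option.elim_some, Nk.rad, map_smul, ← mul_apply_eq_comp, (hP.bg.m.cl _ trivial).pl]

theorem tg_C (hP : P.OK) (q : d.W →₀ ℝ) (c : Cfg X.M κ ν) (x : X.M) : Tg P.bg x ((P.pt q).C c x) := by
  refine (map_add _ _ _).trans (congrArg₂ (· + ·) ((map_sum _ _ _).trans
    (Finset.sum_congr rfl fun i _ => ?_)) ((map_finsuppSum _ _ _).trans (Finsupp.sum_congr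
      fun w _ => (map_smul _ _ _).trans (congrArg _ ((map_add _ _ _).trans (congrArg₂ (· + ·)
        (tg_of hP.bg (hP.pf w x)) ((map_sum _ _ _).trans (Finset.sum_congr rfl fun i _ => ?_))))))))
  · cases P.nk i with
    | none => exact map_zero _
    | some K => exact tg_ext hP.bg K (hP.en i).pζ _ _
  · cases P.nk i with
    | none => exact map_zero _
    | some K =>
      cases d.yt w i.1 with
      | none => exact map_zero _
      | some T => exact tg_ext hP.bg K T.pf _ _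

variable (B : BIso (en := d.e) (ty := Prod.fst) (ty' := Prod.fst) P.toPz P'.toPz φ r γ U u α)
  (hr : ∀ i i', r i i' → i.1 = i'.1)
include B

theorem mem_src (x : X.M) : x ∈ φ.source := B.src ▸ trivial

theorem all_φ {p : X'.M → Prop} : (∀ y, p y) ↔ ∀ x, p (φ x) :=
  ⟨fun h _ => h _, fun h y => φ.right_inv (B.tgt ▸ trivial : y ∈ φ.target) ▸ h _⟩

theorem nm_of {ε : d.𝓔} {s s' : Sl} (h : r (ε, s) (ε, s')) : P.Off (ε, s) ∧ P'.Off (ε, s') ∨
    ∃ δ, ∃ K ∈ P.nk (ε, s), ∃ K' ∈ P'.nk (ε, s'), Nm φ U u K K' (γ (ε, s)) δ := by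
  obtain ⟨δ, k | ⟨_, K, hK, K', hK', k⟩⟩ := B.nc _ _ h
  · exact .inl k
  change K.Cor K' φ δ at k
  by_cases o : P.Off (ε, s)
  · refine .inl ⟨o, fun K₁ h1 => ?_⟩
    obtain rfl := Option.mem_unique hK' h1
    obtain ⟨a, h2, h3⟩ := o K hK
    exact ⟨a + δ, by rw [k.1, h2]; rfl, by rw [k.2.1, h3, add_right_comm]; rfl⟩
  · exact .inr ⟨δ, K, hK, K', hK', k, B.gau _, B.U _ o K hK, B.u _ o K hK⟩

include hr

theorem sum_u {V V' : Type} [NormedAddCommGroup V] [NormedSpace ℝ V] [NormedAddCommGroup V']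
    [NormedSpace ℝ V'] (L : V →L[ℝ] V') {f : ∀ i : d.𝓔 × Sl, Nk (d.e i.1) P.bg → V}
    {f' : ∀ i : d.𝓔 × Sl, Nk (d.e i.1) P'.bg → V'} (hf : ∀ i K, K.χ x = 0 → f i K = 0)
    (hf' : ∀ i K, K.χ (φ x) = 0 → f' i K = 0) (e : ∀ ε s s' K K' δ, Nm φ U u K K' (γ (ε, s)) δ →
      f' (ε, s') K' = L (f (ε, s) K)) :
    ∑ i, (P'.nk i).elim 0 (f' i) = L (∑ i, (P.nk i).elim 0 (f i)) := by
  have o : ∀ i, P.Off i → L ((P.nk i).elim 0 (f i)) = 0 := fun i h => by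
    rw [Pb50.elim_zero fun K hK => hf i K (Cut71.χ_zero' K (Cut71.off_deep K le_rfl (h K hK) _)),
      map_zero]
  have o' : ∀ i, P'.Off i → (P'.nk i).elim 0 (f' i) = 0 := fun i h =>
    Pb50.elim_zero fun K hK => hf' i K (Cut71.χ_zero' K (Cut71.off_deep K le_rfl (h K hK) _))
  rw [map_sum]
  refine sum_rel B.inj (fun i => (B.l i).imp_left (o i)) (fun i => (B.r' i).imp_left (o' i)) ?_
  rintro ⟨ε, s⟩ ⟨ε', s'⟩ h
  obtain rfl : ε = ε' := hr _ _ h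
  rcases nm_of B h with k | ⟨δ, K, hK, K', hK', n⟩
  · rw [o _ k.1, o' _ k.2]
  · rw [Option.mem_def.1 hK, Option.mem_def.1 hK']
    exact e ε s s' K K' δ n

theorem ends {p : ∀ i : d.𝓔 × Sl, Bool → Nk (d.e i.1) P.bg → Prop}
    {p' : ∀ i : d.𝓔 × Sl, Bool → Nk (d.e i.1) P'.bg → Prop}
    (e : ∀ ε s s' b K K' δ, r (ε, s) (ε, s') → K ∈ P.nk (ε, s) → K.Inf b →
      Nm φ U u K K' (γ (ε, s)) δ → (p' (ε, s') b K' ↔ p (ε, s) b K)) :
    (∀ i b, ∀ K ∈ P'.nk i, K.Inf b → p' i b K) ↔ ∀ i b, ∀ K ∈ P.nk i, K.Inf b → p i b K := by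
  refine ⟨fun k ⟨ε, s⟩ b K hK hb => ?_, fun k ⟨ε', s'⟩ b K' hK' hb => ?_⟩
  · have o := Dg.not_off hK hb
    obtain ⟨⟨ε', s'⟩, h⟩ := (B.l _).resolve_left o
    obtain rfl : ε = ε' := hr _ _ h
    obtain ⟨δ, K₀, h0, K', hK', n⟩ := (nm_of B h).resolve_left fun k => o k.1
    obtain rfl := Option.mem_unique hK h0
    exact (e _ _ _ _ _ _ _ h hK hb n).1 (k _ b K' hK' (n.inf.2 hb))
  · have o := Dg.not_off hK' hb
    obtain ⟨⟨ε, s⟩, h⟩ := (B.r' _).resolve_left o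
    obtain rfl : ε = ε' := hr _ _ h
    obtain ⟨δ, K, hK, K₀, h0, n⟩ := (nm_of B h).resolve_left fun k => o k.2
    obtain rfl := Option.mem_unique hK' h0
    exact (e _ _ _ _ _ _ _ h hK (n.inf.1 hb) n).2 (k _ b K hK (n.inf.1 hb))

variable (hP : P.OK) (hP' : P'.OK)
include hP hP'

theorem al_iff (g : X'.M → ℂ) : P'.Al g ↔ P.Al fun x => g (φ x) := by
  obtain ⟨_, G⟩ := B.iso.g
  have h1 : Sm X'.I g ↔ Sm X.I fun x => g (φ x) :=
    ⟨fun h => h.comp (contMDiffOn_univ.1 (B.src ▸ G.sm)), fun h => by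
      have := h.comp (contMDiffOn_univ.1 (B.tgt ▸ G.sm'))
      rwa [show (fun x => g (φ x)) ∘ φ.symm = g from funext fun y =>
        congrArg g (φ.right_inv (B.tgt ▸ trivial))] at this⟩
  exact (and_congr_right fun k => ends B hr fun _ _ _ _ _ _ _ _ _ hb n =>
    n.asyG hb k.1 (h1.1 k.1)).trans (and_congr_left' (and_congr h1 (all_φ B)))

variable (t : ∀ y ∈ φ.source, Tr φ U u α c c' y) (hc : P.bg.Adm c) (hc' : P'.bg.Adm c')
include t hc hc'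

theorem as_iff {β β' : Sw.BC d Sl} (hβ : P.Cr β) (e : BcI P.toPz r γ β β') :
    P'.As β' c' ↔ P.As β c :=
  and_congr (iff_of_true hc' hc) (ends B hr fun ε s s' b K _ _ h hK hb n => by
    rw [e ε s s' b h ⟨K, hK, hb⟩]
    exact n.asy B.iso hP.bg (hP.en _) t hc hc' hb (hβ _ b ⟨K, hK, hb⟩).1)

theorem sol_iff (hT : ∀ w, TI0 P.bg φ U u α (P.fo w) (P.η w) (P'.fo w) (P'.η w)) :
    P'.bg.Sol (P'.pt q) c' ↔ P.bg.Sol (P.pt q) c := by
  have s := mem_src B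
  have n := fun (x : X.M) (ε : d.𝓔) (a : Sl) (K : Nk (d.e ε) P.bg) (K' : Nk (d.e ε) P'.bg) δ
    (n : Nm φ U u K K' (γ (ε, a)) δ) => n.terms B.iso hP.bg (hP.en (ε, a)) t hc (s x)
  have h1 : ∀ x, (P'.pt q).D c' (φ x) = u x ((P.pt q).D c x) := fun x =>
    sum_u B hr (u x) (fun _ K k => by rw [Nk.rad, k, zero_mul, zero_smul])
      (fun _ K k => by rw [Nk.rad, k, zero_mul, zero_smul]) fun ε a _ K K' δ k => (n x ε a K K' δ k).1
  have z : ∀ {Y : Mf 4} {b : Bg Y.I Y.M κ lam ν nc} {ε} (K : Nk (d.e ε) b) y (r : ℝ) (f : _ → F2 κ),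
      K.χ y = 0 → r • K.ext f y = 0 := fun K y r f k => by
    rw [Nd18.Nk.ext, k, zero_smul, smul_zero]
  have h0 : ∀ w x, P'.tm w c' (φ x) = R2 (U x) (P.tm w c x) := fun w x => by
    refine (congrArg₂ (· + ·) (PiLp.ext fun s => ((hT w).1 x s).trans (R2_apply _ _ _).symm)
      (sum_u B hr (R2 (U x)) (fun _ K k => Pb50.elim_zero fun T _ => z K _ _ _ k)
        (fun _ K k => Pb50.elim_zero fun T _ => z K _ _ _ k) fun ε a _ K K' δ k => ?_)).trans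
      (map_add _ _ _).symm
    cases d.yt w ε with
    | none => exact (map_zero _).symm
    | some T => exact (n x ε a K K' δ k).2.2 T
  have h2 : ∀ x, (P'.pt q).C c' (φ x) = R2 (U x) ((P.pt q).C c x) := fun x => by
    simp only [Pc.pt, map_add, map_finsuppSum, map_smul, h0]
    exact congrArg (· + _) (sum_u B hr (R2 (U x)) (f := fun _ K => K.hl c x)
      (f' := fun _ K => K.hl c' (φ x)) (fun _ K => z K _ _ _) (fun _ K => z K _ _ _)
      fun ε a _ K K' δ k => (n x ε a K K' δ k).2.1)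
  have h3 : ∀ j η η', P.bg.TI u α j η η' → P'.bg.lη j η' c' = P.bg.lη j η c := fun j _ _ k =>
    lη_u B.iso hP.bg hP'.bg t hc hc' (fun _ => s _) (B.Ξ j) (B.ρ j) k
  have h4 : P'.bg.EqOn (P'.pt q) c' univ ↔ P.bg.EqOn (P.pt q) c univ := by
    simp only [Bg.EqOn, mem_univ, true_imp_iff]
    refine (all_φ B).trans (forall_congr' fun x => ?_)
    rw [h1, h2, eD_u B.iso hP.bg hP'.bg (s x) t hc hc', eC_u B.iso hP.bg hP'.bg (s x) t hc hc',
      u_inj B.iso hP.bg hP'.bg (s x) (p_eD hP.bg c x) (p_D hP q c x),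
      R2_inj B.iso hP.bg hP'.bg (s x) (tg_eC hP.bg c x) (tg_C hP q c x)]
  have h5 : ∀ j, P'.bg.l j c' = (P'.pt q).S c' j ↔ P.bg.l j c = (P.pt q).S c j := fun j => by
    simp only [Pc.pt, h3 j _ _ (B.η j), fun w => h3 j _ _ ((hT w).2 j)]
  exact ⟨fun k => ⟨hc, h4.1 k.eq, fun j => (h5 j).1 (k.l j)⟩,
    fun k => ⟨hc', h4.2 k.eq, fun j => (h5 j).2 (k.l j)⟩⟩

theorem eqv_iff {c₁ : Cfg X.M κ ν} {c₁' : Cfg X'.M κ ν} (t₁ : ∀ y ∈ φ.source, Tr φ U u α c₁ c₁' y)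
    (hc₁ : P.bg.Adm c₁) : P.Eqv c c₁ ↔ P'.Eqv c' c₁' := by
  have s := mem_src B
  have k : ∀ g, P'.Al g → ∀ x, Tr φ U u α (P.bg.act (fun x => g (φ x)) c) (P'.bg.act g c') x :=
    fun g hg x => (t x (s x)).act B.iso hP.bg hP'.bg (s x) (hg.1.1 _)
  refine ⟨fun ⟨g, hg, e⟩ => ?_, fun ⟨g, hg, e⟩ => ⟨_, (al_iff B hr hP hP' g).1 hg, ?_⟩⟩
  · have e1 : g = fun x => g (φ.symm (φ x)) := funext fun x => by rw [φ.left_inv (s x)]
    have h1 := (al_iff B hr hP hP' fun y => g (φ.symm y)).2 (e1 ▸ hg)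
    have h2 := k _ h1
    rw [← e1, ← e] at h2
    exact ⟨_, h1, Cfg.ext (funext fun j => funext ((all_φ B).2 fun x => ((t₁ x (s x)).1 j).trans
      ((h2 x).1 j).symm)) (funext ((all_φ B).2 fun x => (t₁ x (s x)).2.trans (h2 x).2.symm))⟩
  · have := fun x => (t₁ x (s x)).uq B.iso hP.bg hP'.bg (s x) (e ▸ k g hg x) (.of_adm hc₁ x)
      ((LA.of_adm hc x).act hP.bg (((al_iff B hr hP hP' g).1 hg).1.1 x))
    exact Cfg.ext (funext₂ fun a x => (this x).1 a) (funext fun x => (this x).2)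

omit B hr hP hP' t hc hc' in
variable (d Sl) in
/-- **LV-NAT** -/
theorem nat : NatStmt d Sl := by
  intro X X' nc P P' hP hP' φ r γ U u α B hr hT β β' hβ e
  have s := mem_src B
  have a1 : ∀ c, P.bg.Adm c → P'.bg.Adm (psh φ U u α c) := fun c hc => Pb50.adm_of
    ((all_φ B).2 fun x => la_psh B.iso hP.bg hP'.bg (s x) (.of_adm hc x))
  have a2 : ∀ c, P'.bg.Adm c → P.bg.Adm (pul φ U u α c) := fun c hc => Pb50.adm_of
    fun x => la_pul B.iso hP.bg hP'.bg (s x) (.of_adm hc _)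
  have t2 : ∀ c, P'.bg.Adm c → ∀ y ∈ φ.source, Tr φ U u α (pul φ U u α c) c y := fun c hc y hy =>
    tr_pul B.iso hP.bg hP'.bg hy (.of_adm hc _)
  refine ⟨⟨fun c => ⟨psh φ U u α c.1, (as_iff B hr hP hP' (fun _ hy => tr_psh hy _) c.2.1
      (a1 _ c.2.1) hβ e).2 c.2⟩, fun c => ⟨pul φ U u α c.1, (as_iff B hr hP hP' (t2 _ c.2.1)
      (a2 _ c.2.1) c.2.1 hβ e).1 c.2⟩, fun c => Subtype.ext ?_, fun c => Subtype.ext ?_⟩,
    fun q c => and_congr (and_congr (iff_of_true c.2 ((as_iff B hr hP hP' (fun _ hy => tr_psh hy _)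
      c.2.1 (a1 _ c.2.1) hβ e).2 c.2)) ?_) (sol_iff B hr hP hP' (fun _ hy => tr_psh hy _) c.2.1
      (a1 _ c.2.1) hT).symm, fun c c₁ => eqv_iff B hr hP hP' (fun _ hy => tr_psh hy _) c.2.1
      (a1 _ c.2.1) (fun _ hy => tr_psh hy _) c₁.2.1⟩
  · have := fun x => (t2 _ (a1 _ c.2.1) x (s x)).uq B.iso hP.bg hP'.bg (s x) (tr_psh (s x) c.1)
      (.of_adm (a2 _ (a1 _ c.2.1)) x) (.of_adm c.2.1 x)
    exact Cfg.ext (funext₂ fun a x => (this x).1 a) (funext fun x => (this x).2)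
  · exact Cfg.ext (funext fun j => funext ((all_φ B).2 fun x => ((tr_psh (s x) _).1 j).trans
      ((t2 _ c.2.1 x (s x)).1 j).symm)) (funext ((all_φ B).2 fun x => (tr_psh (s x) _).2.trans
      (t2 _ c.2.1 x (s x)).2.symm))
  · refine not_forall_not.symm.trans (.trans (not_congr ?_) not_forall_not)
    refine .symm ((all_φ B).trans (forall_congr' fun x => not_congr (not_congr ?_)))
    show (psh φ U u α c.1).Φ (φ x) = 0 ↔ _
    rw [(tr_psh (s x) c.1).2, ← u_inj B.iso hP.bg hP'.bg (s x) ((LA.of_adm c.2.1 x).pΦ' hP.bg)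
      (map_zero _), map_zero]

end Crest.Agent.X212.Sm10.Nt
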