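import Crest.Agent.X212.Sw87.MoL
import Crest.Agent.X212.Sm10.Nat1

/-!
# Row 212, E-ISO (helper10): isomorphisms of models give isomorphic families
-/

set_option autoImplicit false
set_option linter.unusedSectionVars false
noncomputable section
open scoped Manifold ContDiff Topology InnerProductSpace
open MeasureTheory Set Function Filter

namespace Crest.Agent.X212.Sm10.Mi
open An Cyf70 Sw Flo2 Geo28 Met55 Sw87.Mo
open Lab56 (C8 M8 CI)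
open Int54 (oc volF)
open Line51 (iL rl)
open Dr59 (pm mf)
open Gm56 (alp MI0)
open M (Mf)

section cast
variable {κ lam ν : Type} [Fintype κ] [Fintype lam] [Fintype ν] [DecidableEq ν]
  {X X' : Mf 4} {n n' : ℕ} {N N' : Type} [Fintype N] [Fintype N'] {𝓔 : Type*} {en : 𝓔 → En3 κ lam ν}
  {ty : N → 𝓔} {ty' : N' → 𝓔}

theorem biso_cast (h : n' = n) {P : Pz X n fun i => en (ty i)} {P' : Pz X' n' fun i => en (ty' i)}
    {φ : OpenPartialHomeomorph X.M X'.M} {r : N → N' → Prop} {g : ∀ i, (en (ty i)).Y.M → ℂ}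
    {U : X.M → Option κ → Option κ → ℝ} {u : X.M → En ν} {α : Option κ → X.M → ℝ}
    (src : φ.source = univ) (tgt : φ.target = univ) (iso : P.bg.Iso P'.bg φ U u α)
    (Ξ : ∀ j y, (P'.bg.ct (j.cast h.symm)).Ξ y = φ ((P.bg.ct j).Ξ y))
    (ρ : ∀ j, (P'.bg.ct (j.cast h.symm)).ρ = (P.bg.ct j).ρ)
    (η : ∀ j, P.bg.TI u α j (P.bg.ct j).η (P'.bg.ct (j.cast h.symm)).η)
    (nc : ∀ i i', r i i' → ∃ δ, NC P P' φ i i' δ)
    (inj : ∀ i i' j j', r i i' → r j j' → (i = j ↔ i' = j'))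
    (l : ∀ i, P.Off i ∨ ∃ i', r i i') (r' : ∀ i', P'.Off i' ∨ ∃ i, r i i')
    (gau : ∀ i, Gau (en (ty i)).Y.I (g i))
    (hU : ∀ i, ¬P.Off i → ∀ K ∈ P.nk i, ∀ x ∈ K.ψ.source, ∀ a a',
      U (K.ψ x) a a' = P.bg.B.P a a' (K.ψ x))
    (hu : ∀ i, ¬P.Off i → ∀ K ∈ P.nk i, ∀ x ∈ K.ψ.source, ∀ v,
      u (K.ψ x) v = cs P.bg.m.J (g i x.1) (P.bg.m.p (K.ψ x) v)) :
    BIso P (h ▸ P') φ r g U u α := by
  subst h
  exact ⟨src, tgt, iso, Ξ, ρ, η, nc, inj, l, r', gau, hU, hu⟩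

end cast

variable {κ : Type} [Fintype κ] [DecidableEq κ] {μ : Type} [Fintype μ] [DecidableEq μ]
  {X X' : M4} {k k' : ℕ} {τ : MT κ X} {τ' : MT κ X'} {β' : MB τ' k'} {β : MB τ k} {φ : M4.Dif X' X}
  {r : τ'.N → τ.N → Prop} {t' : Tk k'} {t : Tk k}

theorem trn_one : trn (1 : En L0) = 1 := by
  ext1 v; exact ext_inner_left ℝ fun w => Eqv71.inner_trn' _ _ _

theorem ld (φ : M4.Dif X' X) (x : X'.M) : IsLocalDiffeomorphAt X'.I X.I ∞ φ.φ x :=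
  φ.φ.isLocalDiffeomorph x

theorem B_P (β : MB τ k) (t : Tk k) (a b : Option κ) (x : X.M) : β.B.P a b x = fP (β.e t) x a b := by
  rw [β.P t x]; rfl

theorem B_o (β : MB τ k) (t : Tk k) : β.B.o = oc (β.e t) (volF X.o (β.e t)) := (β.o t).symm

/-- the geometries are equivalent -/
theorem geq (co : ∀ x, Co (fun a => mf X'.I X.I φ.φ x (β'.e t' a x)) (atx (β.e t) (φ.φ x))) :
    GEq β'.B (β'.G t') β.B (β.G t) (oph φ)
      (fun x => Sw87.Mo.rotU φ.φ (β'.e t') (β.e t) x) fun _ => 1 := by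
  have h1 : ContMDiffOn X'.I X.I ∞ (oph φ) (oph φ).source := φ.φ.contMDiff.contMDiffOn
  have h2 : ContMDiffOn X.I X'.I ∞ (oph φ).symm (oph φ).target := φ.φ.symm.contMDiff.contMDiffOn
  have e : Met55.rotU (β'.F t').toPre (β.F t).toPre (oph φ) =
      fun x => Sw87.Mo.rotU φ.φ (β'.e t') (β.e t) x := funext fun x => funext fun b => funext fun a =>
    fM_apply _ _ _ _ _
  obtain ⟨a1, a2, a3, a4, a5⟩ := rot_spec (F := β'.F t') (F' := β.F t) (rFr_vol _ _) (rFr_vol _ _) h1 h2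
    fun x _ => co x
  rw [e] at a1 a2 a3 a4
  have s1 : Int54.SameOn X.o (volF X.o (β.e t)) univ := X.ori.sameOn_volF (β.sp t) univ
  have s2 : Int54.SameOn X'.o (volF X'.o (β'.e t')) univ := X'.ori.sameOn_volF (β'.sp t') univ
  have s : Int54.SameOn (volF X'.o (β'.e t')) (pm X'.I X.I φ.φ (volF X.o (β.e t))) univ :=
    Int54.SameOn.symm ((φ.pos.right (fun y _ => ld φ y) (mapsTo_univ _ _) s1.symm).left s2)
  have o := (Int54.geq_mu_o (F := β.F t) (F' := β'.F t') X.X.dim X'.X.dim (rFr_vol _ _) (rFr_vol _ _)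
    (X.ori.unit_vol (β.F t).toPre) (X'.ori.unit_vol (β'.F t').toPre) h1 s a2 a4).2
  refine ⟨h1, h2, a1, contMDiffOn_const, fun x hx a b => (a2 x hx a b).trans (B_P β' t' a b x).symm,
    fun x hx a b => (a3 x hx a b).trans (B_P β t a b _).symm, a4, a5, fun x hx => ?_,
    fun x _ => ?_, fun x _ => ?_, fun _ _ => rfl, fun x _ a => ?_⟩
  · rw [B_o β t, B_o β' t']; exact o x hx
  · rw [trn_one]; rfl
  · rw [trn_one]; rfl
  · simp [MB.G, Pre.D_def]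

theorem cmp_rot {e' : Option κ → VF X'.I X'.M} {e : Option κ → VF X.I X.M} (f : X.Fm) {x : X'.M}
    {U : Option κ → Option κ → ℝ}
    (he : ∀ b, mfderiv X'.I X.I φ.φ x (∑ a, U b a • e' a x) = e b (φ.φ x)) :
    cmp e f (φ.φ x) = Nt.R2 U (cmp e' (pm X'.I X.I φ.φ f) x) := by
  ext s
  have h : ∀ (n : ℕ) (g : (Fin (n + 1) → Option κ) → ℝ), ∑ Φ, g Φ = ∑ a, ∑ Φ, g (Matrix.vecCons a Φ) :=
    fun n g => by rw [← (Fin.consEquiv fun _ => Option κ).sum_comp, Fintype.sum_prod_type]; rfl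
  have k := Int54.evA_mix 2 (pm X'.I X.I φ.φ f x) (Int54.fv e' x) fun i => U (![s.1, s.2] i)
  simp only [h, Fintype.sum_unique, Fin.prod_univ_two] at k
  rw [Nt.R2_apply]
  refine Eq.trans ?_ k
  rw [Dr59.pm_apply, R208.F.evA_pb]
  exact congrArg (R208.F.evA _ 2 _) (funext fun i => (he _).symm)

theorem nk_mem {c : MC μ β} {n : ℕ} {ct : Fin n → Cut X.M κ (μ ⊕ μ)} {v : τ.N → ℝ} {i : τ.N} {K}
    (h : K ∈ (c.pz t v ct).nk i) : 3 / 2 < v i ∧ K.ng = (τ.nb i).ng (v i) := by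
  simp only [MC.pz] at h
  split_ifs at h with k
  · cases h
    exact ⟨k.1, k.2.choose_spec⟩
  · cases h

theorem ng_eq {b : NB κ X} {ec : EC (μ ⊕ μ) b.e.eg} {cl : ec.L} {n : ℕ}
    {g : Bg X.I X.M κ L0 (μ ⊕ μ) n} {K : Nk (X := X.X) (Ty.en ⟨⟨b.e.eg, ec⟩, cl⟩) g} {v : ℝ}
    (h : K.ng = b.ng v) : K.p = pa b.s ∧ K.q = qa v b.s ∧ K.ψ = b.ψ v :=
  ⟨congrArg (·.1) h, congrArg (·.2.1) h, congrArg (·.2.2.1) h⟩

theorem off_of {c : MC μ β} {n : ℕ} {ct : Fin n → Cut X.M κ (μ ⊕ μ)} {v : τ.N → ℝ} {i : τ.N}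
    (h : ¬3 / 2 < v i) : (c.pz t v ct).Off i := fun _ hK => (h (nk_mem hK).1).elim

section band
variable {b' : NB κ X'} {b : NB κ X}

theorem cor_e (cor : b'.Cor b φ.φ) {e' : Option κ → VF X'.I X'.M} {e : Option κ → VF X.I X.M} {v : ℝ}
    (h' : b'.Rl e' v (1 / 2)) (h : b.Rl e v (1 / 2)) {x} (hx : x ∈ b'.V (1 / 2)) (a : Option κ) :
    mfderiv X'.I X.I φ.φ (b'.k x) (e' a (b'.k x)) = e a (φ.φ (b'.k x)) := by
  obtain ⟨n', rfl, hn⟩ := cor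
  have e1 : (NB.mk b'.e b'.s n').k =ᶠ[𝓝 x] φ.φ ∘ b'.k :=
    eventually_of_mem ((b'.V_open _).mem_nhds hx) fun z hz => hn z.1 z.2 hz.2
  have s := b'.V_sub (by norm_num) hx
  have k := h a x hx
  rw [e1.mfderiv_eq, mfderiv_comp x ((φ.φ.contMDiff _).mdifferentiableAt (by simp))
    (((b'.sm _ s).contMDiffAt (b'.k.open_source.mem_nhds s)).mdifferentiableAt (by simp)),
    e1.eq_of_nhds] at k
  exact (congrArg _ (h' a x hx)).symm.trans k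

theorem cor_ext (cor : b'.Cor b φ.φ) {ec' : EC (μ ⊕ μ) b'.e.eg} {cl' : ec'.L} {ec : EC (μ ⊕ μ) b.e.eg}
    {cl : ec.L} (h : (⟨⟨b'.e.eg, ec'⟩, cl'⟩ : Ty κ L0 (μ ⊕ μ)) = ⟨⟨b.e.eg, ec⟩, cl⟩) (x : X'.M) :
    b.ext (fun y => (Ty.en ⟨⟨b.e.eg, ec⟩, cl⟩).cyl.ms (y, 0)) (φ.φ x) =
      b'.ext (fun y => (Ty.en ⟨⟨b'.e.eg, ec'⟩, cl'⟩).cyl.ms (y, 0)) x := by
  obtain ⟨n', rfl, hn⟩ := cor
  cases h
  have q : ∀ z ∈ b'.V (1 / 4), (NB.mk b'.e b'.s n').k z = φ.φ (b'.k z) := fun z hz =>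
    hn z.1 z.2 (jm_mono _ (by norm_num) hz.2)
  have o : (1 / 4 : ℝ) ≤ 1 := by norm_num
  by_cases hx : x ∈ b'.U (1 / 4)
  · have hz := NB.symm_mem o hx
    rw [← b'.k.right_inv (b'.U_sub o hx), ← q _ hz, NB.ext_k _ (b'.V_sub o hz),
      NB.ext_k _ ((NB.mk b'.e b'.s n').V_sub o hz)]
  · rw [NB.ext_zero _ hx, NB.ext_zero]
    intro k
    have hz := NB.symm_mem o k
    refine hx ?_
    rw [φ.φ.injective (((NB.mk b'.e b'.s n').k.right_inv (NB.U_sub _ o k)).symm.trans (q _ hz))]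
    exact NB.k_mem o hz

theorem cor_nk (cor : b'.Cor b φ.φ) {ec' : EC (μ ⊕ μ) b'.e.eg} {cl' : ec'.L} {ec : EC (μ ⊕ μ) b.e.eg}
    {cl : ec.L} (h : (⟨⟨b.e.eg, ec⟩, cl⟩ : Ty κ L0 (μ ⊕ μ)) = ⟨⟨b'.e.eg, ec'⟩, cl'⟩) {n n' : ℕ}
    {g' : Bg X'.I X'.M κ L0 (μ ⊕ μ) n'} {g : Bg X.I X.M κ L0 (μ ⊕ μ) n}
    {K' : Nk (X := X'.X) (Ty.en ⟨⟨b'.e.eg, ec'⟩, cl'⟩) g'} {K : Nk (X := X.X) (Ty.en ⟨⟨b.e.eg, ec⟩, cl⟩) g}
    {v : ℝ} (h' : K'.ng = b'.ng v) (h1 : K.ng = b.ng v) :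
    K'.Cor (h ▸ K : Nk (X := X.X) (Ty.en ⟨⟨b'.e.eg, ec'⟩, cl'⟩) g) (oph φ) 0 := by
  obtain ⟨n', rfl, hn⟩ := cor
  cases h
  have a := ng_eq h'
  have a1 := ng_eq h1
  refine ⟨by simp [a.1, a1.1], by simp [a.2.1, a1.2.1], fun x hx => ⟨trivial, ?_⟩⟩
  rw [a.2.2, NB.ψ_src] at hx
  rw [a.2.2, a1.2.2, add_zero]
  exact hn _ _ (jm_mono _ (by norm_num) (NB.cy_mem hx.2).2)

end band

theorem comm_p {n : ℕ} {b : Bg X.I X.M κ L0 (μ ⊕ μ) n} (hb : b.OK) {x : X.M} {T : En (μ ⊕ μ)}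
    (h : b.pm x * T * b.pp x = T) : T * b.m.p x = b.m.p x * T := by
  have P := Gm56.p8_of hb x
  have h1 : b.m.p x * b.pm x = b.pm x := P.p_pm
  have h2 : b.pp x * b.m.p x = b.pp x := by
    simp only [Bg.pp, Bg.vol, smul_mul_assoc, sub_mul, Finset.sum_mul, mul_assoc,
      hb.m.pidem x trivial, (hb.m.cl x trivial).pr]
  rw [← h, mul_assoc, h2, ← mul_assoc, ← mul_assoc, h1]

variable {c' : MC μ β'} {c : MC μ β} {γ : ∀ i, (τ'.nb i).e.A.Y.M → ℂ} {w : X'.M → Matrix μ μ ℂ}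

theorem ms_eq (h : MI β' β φ r t' t) (ht : ∀ i' i, r i' i → c'.ty i' = c.ty i) (x : X'.M) :
    c.ms (β.v t) (φ.φ x) = c'.ms (β'.v t') x :=
  Nt.sum_rel h.inj (fun i => (le_or_gt _ 1).imp (fun k => by rw [wt_lo k, zero_smul]) (h.l i))
    (fun i => (le_or_gt _ 1).imp (fun k => by rw [wt_lo k, zero_smul]) (h.r' i))
    fun i' i k => by rw [(h.cor i' i k).2, cor_ext (h.cor i' i k).1 (ht i' i k)]

theorem ms_w (hb : (c'.P t').bg.OK) (W : MW c' c φ t' t γ w) (x : X'.M) :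
    c'.ms (β'.v t') x * rl (w x) = rl (w x) * c'.ms (β'.v t') x := by
  by_cases k : ∃ i, 1 < β'.v t' i ∧ x ∈ (τ'.nb i).U (1 / 4)
  · obtain ⟨i, k1, k2⟩ := k
    have o : (1 / 4 : ℝ) ≤ 1 := by norm_num
    have e := W.nk i k1 _ (NB.symm_mem o k2)
    rw [(τ'.nb i).k.right_inv (NB.U_sub _ o k2)] at e
    have h1 : iL μ * c'.ms (β'.v t') x = c'.ms (β'.v t') x * iL μ := by
      have := hb.msJ x
      change iL μ * (_ + _) = (_ + _) * iL μ at this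
      rwa [mul_add, add_mul, c'.mJ, add_left_inj] at this
    have h2 : c'.ms (β'.v t') x * rl (c'.m.p x) = rl (c'.m.p x) * c'.ms (β'.v t') x := by
      have := comm_p hb (hb.msp x)
      change (_ + _) * rl (c'.m.p x) = rl (c'.m.p x) * (_ + _) at this
      rwa [mul_add, add_mul, show c'.mc t' x * rl (c'.m.p x) = rl (c'.m.p x) * c'.mc t' x from
        comm_p hb (c'.mp t' x), add_left_inj] at this
    ext1 v
    rw [e, mul_apply_eq_comp, mul_apply_eq_comp, Gm56.rl_smul, Gm56.rl_smul,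
      Eqv71.map_cs h1.symm]
    exact congrArg _ (congrArg (· v) h2)
  · have : c'.ms (β'.v t') x = 0 := Finset.sum_eq_zero fun i _ => by
      rcases le_or_gt (β'.v t' i) 1 with k1 | k1
      · rw [wt_lo k1, zero_smul]
      · rw [NB.ext_zero _ fun k2 => k ⟨i, k1, k2⟩, smul_zero]
    rw [this, zero_mul, mul_zero]

theorem iso (hb' : (c'.P t').bg.OK) (hb : (c.P t).bg.OK) (h : MI β' β φ r t' t)
    (ht : ∀ i' i, r i' i → c'.ty i' = c.ty i) (hf : pm X'.I X.I φ.φ (c.fo t) = c'.fo t')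
    (W : MW c' c φ t' t γ w) (hm : ∀ x, c.mc t (φ.φ x) * rl (w x) = rl (w x) * c'.mc t' x) :
    (c'.P t').bg.Iso (c.P t).bg (oph φ) (fun x => Sw87.Mo.rotU φ.φ (β'.e t') (β.e t) x)
      (fun x => rl (w x)) (alp (c'.P t').bg (c.P t).bg (oph φ)
        (fun x => Sw87.Mo.rotU φ.φ (β'.e t') (β.e t) x) fun x => rl (w x)) := by
  have g := geq h.co
  refine (Gm56.mi0_of_ci (b := (c'.P t').bg) (b' := (c.P t).bg) g hb.m rfl rfl W.ci).iso hb' hb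
    (fun x _ => ?_) (fun x hx s => ?_) rfl
  · change (c.ms (β.v t) (φ.φ x) + c.mc t (φ.φ x)) * _ = _ * (c'.ms (β'.v t') x + c'.mc t' x)
    rw [add_mul, mul_add, hm, ms_eq h ht, ms_w hb' W]
  · have L := Eqv71.lg_of_geq g hb'.B hb'.G hb.B hb.G (oph φ).open_source Subset.rfl
    refine Eq.trans (congrArg (fun f : F2 κ => f s) ?_) (Nt.R2_apply _ _ s)
    change idx (β.B.sd (φ.φ x)) _ (cmp (β.e t) (c.fo t) (φ.φ x)) =
      Nt.R2 _ (idx (β'.B.sd x) _ (cmp (β'.e t') (c'.fo t') x))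
    rw [cmp_rot (e := β.e t) (e' := β'.e t') _ (g.e x hx), hf]
    simp only [Nt.R2, Wz78.idx_idx]
    exact congrArg (idx · _ _) (funext fun a => funext fun b => (L.be x hx).sd hb'.B hb.B a b)

/-- **E-ISO** -/
theorem isoStmt (hz : PzStmt κ μ) : IsoStmt κ μ := by
  intro X X' τ τ' k k' β' β c' c φ r D ι n h hι ht hw h1 h2 h3 H ens ens' C C'
  refine ⟨hι, h, r, ht, hw, h1, h2, h3, fun t htD => ?_⟩
  obtain ⟨m, hf, γ, w, W, d, hγ⟩ := H t htD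
  have hb' := (hz.ok c' (t ∘ ι)).1.bg
  have hb := (hz.ok c t).1.bg
  have nk : ∀ i, ∀ K ∈ (c'.P (t ∘ ι)).nk i, ∀ x ∈ K.ψ.source, 1 < β'.v (t ∘ ι) i ∧
      ∃ z ∈ (τ'.nb i).V 0, z.1 = x.1 ∧ K.ψ x = (τ'.nb i).k z := fun i K hK x hx => by
    have a := nk_mem hK
    have e := (ng_eq a.2).2.2
    rw [e, NB.ψ_src] at hx
    exact ⟨by linarith [a.1], _, NB.cy_mem hx.2, rfl, by rw [e]; rfl⟩
  refine ⟨γ, _, _, _, fun i hi => ?_, biso_cast h rfl rfl (iso hb' hb m ht hf W d.mc)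
    (fun j y => m.bx j y) (fun _ => rfl) d.η (fun i' i k => ⟨0, ?_⟩) m.inj
    (fun i => (em' _).imp off_of fun k => m.l i (by linarith))
    (fun i => (em' _).imp off_of fun k => m.r' i (by linarith)) W.gau
    (fun i _ K hK x hx a a' => ?_) fun i _ K hK x hx v => ?_⟩
  · obtain ⟨K, hK⟩ := Option.ne_none_iff_exists'.1 hi
    refine hγ i fun e => ?_
    have := (nk_mem (c := c') hK).1
    simp only [MB.v, MT.sw, e, if_true, Pi.zero_apply, ite_self, Finset.sum_const_zero] at this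
    norm_num at this
  · have e := m.cor i' i k
    by_cases o : 3 / 2 < β.v t i
    · obtain ⟨K', a', b'⟩ := hz.nk c' (t ∘ ι) (c'.ct (t ∘ ι)) i' (e.2 ▸ o)
      obtain ⟨K, a, b⟩ := hz.nk c t (c.ct t) i o
      exact .inr ⟨(ht i' i k).symm, K', a', K, a, cor_nk e.1 _ (e.2 ▸ b') b⟩
    · exact .inl ⟨off_of (e.2 ▸ o), off_of o⟩
  · obtain ⟨o, z, hz, -, e⟩ := nk i K hK x hx
    obtain ⟨j, k⟩ := m.l i o
    have q := m.cor i j k
    have hz' : z ∈ (τ'.nb i).V (1 / 2) := ⟨trivial, jm_mono _ (by norm_num) hz.2⟩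
    have s := cor_e q.1 (β'.lit _ i o) (by
      rw [show τ'.sw β'.wl (t ∘ ι) i = τ.sw β.wl t j from q.2]; exact β.lit t j (o.trans_eq q.2)) hz' a
    have s' : pbv X'.I X.I φ.φ (β.e t a) ((τ'.nb i).k z) = β'.e (t ∘ ι) a ((τ'.nb i).k z) :=
      (ld_bij (ld φ _)).1 ((pbv_rel (ld φ _) _).trans s.symm)
    rw [e]
    refine Eq.trans ?_ ((B_P β' (t ∘ ι) a' a _).symm.trans ((β'.F 0).P_symm a' a _))
    exact (congrArg (th (Module.finBasis ℝ X'.X.E) (atx (β'.e (t ∘ ι)) ((τ'.nb i).k z)) · a') s').trans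
      (th_self _ _)
  · obtain ⟨o, z, hz, e1, e⟩ := nk i K hK x hx
    rw [e, ← e1, W.nk i o z ⟨trivial, jm_mono _ (by norm_num) hz.2⟩]
    exact Gm56.rl_smul _ _ _

end Crest.Agent.X212.Sm10.Mi
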