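import Crest.Agent.X212.Nr51.Core
import Crest.Agent.X212.Clo39.Bas

/-!
# Row 212, GEO engine (helper10): a reducible solution forces a non-positive square
-/

set_option autoImplicit false
set_option linter.unusedSectionVars false
noncomputable section
open scoped Manifold ContDiff Topology InnerProductSpace
open MeasureTheory Set Filter

namespace Crest.Agent.X212.Sm10.Mn
open An Wz78 Sob92 Sw88 Cyf70 Nr51
open Mp86.En hiding k2
open Sw (Bg F2 En3 Nk Pz)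
open Sw.En3
open M (Mf)
open Crest.Agent.R208.F (Ext)
open Dr59 (Cs ip)
open Num57 (vol)
open Bor5.T (Cur)
open Rad94 (Two Rd0 S1 vc Fo)

variable {κ lam : Type} [Fintype κ] [DecidableEq κ] [Fintype lam] {l : Type} [Fintype l] [DecidableEq l]
  {X : Mf 4} {nc : ℕ}

theorem flat0 {e : En3 κ lam (l ⊕ l)} (he : Rd0 e) (ho : e.om = 0) (y : e.Y.M) (t : ℝ) :
    e.cyl.fc ⟨0, 0⟩ (y, t) = 0 := by
  have z : fz (⟨0, 0⟩ : e.YC) = ⟨0, 0⟩ := Sw.Cfg.ext (funext fun i => by cases i <;> rfl) rfl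
  have hv : e.cyl.Adm (fz ⟨0, 0⟩) :=
    z ▸ ⟨fun _ => contMDiff_const, contMDiff_const, fun _ _ => by simp, fun _ => map_zero _⟩
  rw [← z]
  exact (fc_t he.ok hv y t).trans (zero_sp he.ok (a2_fix (T := fun i j => e.cyl.fc (fz ⟨0, 0⟩)
    (y, 0) (i, j)) (fc_swap he.ok.cyl hv) (he.ok.cyl.G.P ▸ fc_proj he.ok.cyl hv))
    (fun i => (fc_none i _).1) fun k => by
      have := he.red (y, 0)
      simp only [Bg.eC, cyl_om, ho, Pi.zero_apply, qd0 (X := e.Z), smul_zero, sub_zero] at this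
      rw [z, this]; rfl)

variable {e : Bool → En3 κ lam (l ⊕ l)} {Z : Pz X nc e} (z : Two Z)

theorem flat1 (he : ∀ s, Rd0 (e s)) (ho : ∀ s, (e s).om = 0) {s : Bool} {x : X.M}
    (hx : -1 < z.gm.ht s x) : Z.bg.fc ⟨0, 0⟩ x = 0 := by
  obtain ⟨y, hy⟩ := Ulc97.exists_pt hx
  rw [← hy]
  exact (Pb50.fc_ψ (z.K s) (Ulc97.mem_src (g := z.gm) hx y) _).trans (flat0 (he s) (ho s) _ _)

theorem rw_le {b : Bg X.I X.M κ lam (l ⊕ l) nc} {θ : X.M → ℝ} {a : Fo X κ} {x : X.M} {C δ : ℝ}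
    (h : ∀ i, |b.F.D i θ x| ≤ C) (ha : ‖vc a x‖ ≤ δ) :
    ‖Rw b θ a x‖ ^ 2 ≤ Fintype.card (Option κ × Option κ) * (2 * (C * δ)) ^ 2 := by
  rw [PiLp.norm_sq_eq_of_L2, ← nsmul_eq_mul, ← Finset.card_univ]
  refine Finset.sum_le_card_nsmul _ _ _ fun s _ => pow_le_pow_left₀ (norm_nonneg _) ?_ 2
  have k : ∀ i j, |b.F.D i θ x * a j x| ≤ C * δ := fun i j => (abs_mul _ _).trans_le
    (mul_le_mul (h i) ((PiLp.norm_apply_le (vc a x) j).trans ha) (abs_nonneg _) ((abs_nonneg _).trans (h i)))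
  exact (abs_sub _ _).trans (by linarith [k s.1 s.2, k s.2 s.1])

/-- **the square is not positive** -/
theorem neg (hz : Z.OK) (he : ∀ s, Rd0 (e s)) (ho : ∀ s, (e s).om = 0) {m d}
    (hm : Z.bg.m = Lab56.C8.re m) (hd : Gm56.Rp Z.bg.F.e m d) {f c₀ : X.M → Ext X.E}
    (hf : Cs X.I 2 univ f) (f0 : ∀ s x, -1 < z.gm.ht s x → f x = 0) {a : Fo X κ} (ha : S1 Z.bg a)
    (hq : ∀ x, Z.bg.p2 x (Z.bg.fc ⟨a, 0⟩ x) = Z.bg.p2 x (kv Z.bg x (f x)))
    (dec : ∀ s, ∀ δ > 0, ∃ T, ∀ τ ≥ T, ∀ y, ‖vc a (z.gm.pt s τ y)‖ ≤ δ)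
    (k0 : Cs X.I 2 univ c₀) (k1 : Cur d c₀) :
    ip X.I (vol Z.bg.F Z.bg.B.o) ((1 / 2 : ℝ) • c₀ - f) ((1 / 2 : ℝ) • c₀ - f) ≤ 0 := by
  have hb := hz.bg
  have hg := Clo39.gm_ok z hz
  obtain ⟨C, C0, hC⟩ := Clo39.exists_ct hg
  obtain ⟨V, V0, hV⟩ := Clo39.exists_vol z.gm
  set n := (Fintype.card (Option κ × Option κ) : ℝ)
  suffices H : ∀ δ > 0, ip X.I (vol Z.bg.F Z.bg.B.o) ((1 / 2 : ℝ) • c₀ - f) ((1 / 2 : ℝ) • c₀ - f) ≤
      n * (2 * (C * δ)) ^ 2 * V by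
    have : Tendsto (fun δ : ℝ => n * (2 * (C * δ)) ^ 2 * V) (𝓝[>] 0) (𝓝 (n * (2 * (C * 0)) ^ 2 * V)) :=
      tendsto_nhdsWithin_of_tendsto_nhds (Continuous.tendsto (by fun_prop) 0)
    simpa using ge_of_tendsto this (eventually_nhdsWithin_of_forall H)
  intro δ hδ
  choose T₀ hT using fun s => dec s δ hδ
  set T := max 0 (max (T₀ false) (T₀ true))
  have T0 : 0 ≤ T := le_max_left _ _
  have T1 : ∀ s, T₀ s ≤ T := fun s => le_max_of_le_right (by cases s; exacts [le_max_left _ _, le_max_right _ _])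
  obtain ⟨θ, hθ⟩ := hC T T0
  have out : ∀ {x}, x ∉ z.gm.cor T → ∃ s, T < z.gm.ht s x := fun hx =>
    (not_forall.1 hx).imp fun _ => not_le.1
  have ev : ∀ {x}, x ∉ z.gm.cor (T + 2) → θ =ᶠ[𝓝 x] fun _ => 0 := fun hx =>
    ((Ulc97.isClosed_cor _ _).isOpen_compl.eventually_mem hx).mono hθ.zero
  obtain ⟨g, g1, g2⟩ := Gm56.cur_fc hb hm hd (c := ⟨fun i y => (0 : Fo X κ) i y + θ y * (a i y - (0 : Fo X κ) i y), 0⟩)
    (fun i x => contMDiffAt_const.add (SA.mul (hθ.sm x) ((ha.1 i x).sub contMDiffAt_const)))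
    fun i x => by simp [mul_left_comm _ (θ x), ← Finset.mul_sum, ha.2]
  have g3 : ∀ x, kv Z.bg x (g x) = (2 : ℝ) • (θ x • Z.bg.fc ⟨a, 0⟩ x + Rw Z.bg θ a x) := fun x => by
    have := fc_mix (x := x) hb (c := ⟨a, 0⟩) (c' := ⟨0, 0⟩) (θ := θ) (ha.1 · x)
      (fun _ => contMDiffAt_const) (hθ.sm x)
    have h0 : (1 - θ x) • Z.bg.fc ⟨0, 0⟩ x = 0 := by
      by_cases hx : x ∈ z.gm.cor T
      · rw [(hθ.one x hx).self_of_nhds, Pi.one_apply, sub_self, zero_smul]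
      · obtain ⟨s, hs⟩ := out hx
        rw [flat1 z he ho (s := s) (by linarith), smul_zero]
    rw [h0, add_zero] at this
    simp only [Pi.zero_apply, sub_zero] at this g2
    ext s
    exact (g2 x s).trans (congrArg (fun v : F2 κ => 2 * v s) this)
  have r0 : ∀ {x} {r : ℝ}, (θ =ᶠ[𝓝 x] fun _ => r) → Rw Z.bg θ a x = 0 := fun h => by
    ext s; simp [Rw, Pre.D_def, dv_congr h, dv_const]
  have gc := Nvg56.cur_cl g1
  have gs : Cs X.I 2 univ g := ⟨gc, .intro (hg.cpt (T + 2)) fun x hx => kv_inj gc.dg (by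
    rw [g3, r0 (ev hx), hθ.zero x hx, zero_smul, add_zero, smul_zero]), subset_univ _⟩
  have cG := (gs.smul (1 / 2)).sub' hf
  have := scs (I := X.I) (M := X.M)
  obtain ⟨α, a1, -, a2⟩ := Gm56.cur_ex k1 g1
  rw [← ip_sq (ok hb).ori cG ((k0.smul _).sub' hf)
    (((Dr59.ex_dM a1).smul (1 / 2)).congr fun x _ => by simp [a2])]
  have p : ∀ x, Z.bg.p2 x (kv Z.bg x (((1 / 2 : ℝ) • g - f) x)) = Z.bg.p2 x (Rw Z.bg θ a x) := fun x => by
    have h0 : (θ x - 1) • Z.bg.p2 x (kv Z.bg x (f x)) = 0 := by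
      by_cases hx : x ∈ z.gm.cor T
      · rw [(hθ.one x hx).self_of_nhds, Pi.one_apply, sub_self, zero_smul]
      · obtain ⟨s, hs⟩ := out hx
        rw [f0 s x (by linarith), map_zero, map_zero, smul_zero]
    simp only [Pi.sub_apply, Pi.smul_apply, map_sub, map_smul, g3, map_add, hq]
    linear_combination (norm := module) h0
  have fin : Z.bg.F.μ (Clo39.sh z.gm T) ≠ ⊤ :=
    ((measure_mono sdiff_subset).trans_lt (hg.cpt (T + 2)).measure_lt_top).ne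
  refine (ENNReal.ofReal_le_ofReal_iff (by positivity)).1 ((ip_le hb cG).trans ?_)
  rw [ENNReal.ofReal_mul (by positivity)]
  refine (lintegral_mono (g := (Clo39.sh z.gm T).indicator fun _ =>
    ENNReal.ofReal (n * (2 * (C * δ)) ^ 2)) fun x => ?_).trans ?_
  · beta_reduce
    rw [p]
    by_cases hx : x ∈ Clo39.sh z.gm T
    · obtain ⟨s, hs⟩ := out hx.2
      obtain ⟨y, hy⟩ := Ulc97.exists_pt (g := z.gm) (s := s) (x := x) (by linarith)
      rw [indicator_of_mem hx, ← ofReal_norm, ← ENNReal.ofReal_pow (norm_nonneg _)]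
      refine ENNReal.ofReal_le_ofReal ((pow_le_pow_left₀ (norm_nonneg _) (norm_p2 hb _) 2).trans
        (rw_le (fun i => ?_) (hy ▸ hT s _ ((T1 s).trans hs.le) y)))
      exact (Qab60.c1_df (F := Z.bg.F) θ x i ▸ PiLp.norm_apply_le _ i).trans (hθ.d x)
    · have : Rw Z.bg θ a x = 0 := by
        by_cases h : x ∈ z.gm.cor T
        exacts [r0 (hθ.one x h), r0 (ev fun h' => hx ⟨h', h⟩)]
      simp [this]
  · rw [lintegral_indicator_const (Clo39.ms_sh T), ← ENNReal.ofReal_toReal fin]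
    exact mul_le_mul_right (ENNReal.ofReal_le_ofReal (hV T T0)) _

end Crest.Agent.X212.Sm10.Mn
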