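import Crest.Agent.X212.Sw87.MoL
import Crest.Agent.X212.Met55.Trf
import Crest.Agent.X212.Wz78.Par

/-!
# Row 212, E-RES, E-CST, E-MIX, E-PB (helper10): operations on models
-/

set_option autoImplicit false
set_option linter.unusedSectionVars false
noncomputable section
open scoped Manifold ContDiff Topology InnerProductSpace
open MeasureTheory Set Function Filter

namespace Crest.Agent.X212.Sm10.Rs
open An Cyf70 Sw Flo2 Geo28 Met55 Sw87.Mo
open Lab56 (C8 M8 CI)
open Prm93 (JS JAt)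
open Pj41 (FSm)
open Int54 (oc volF)
open Line51 (iL rl)
open Dr59 (pm mf Cs)

variable {κ : Type} [Fintype κ] [DecidableEq κ] {μ : Type} [Fintype μ] [DecidableEq μ]
  {X X' : M4} {k k' : ℕ} {τ : MT κ X} {τ' : MT κ X'}

/-! ### components of forms -/

theorem cmp_pm {φ : X'.M → X.M} {e' : Option κ → VF X'.I X'.M} {e : Option κ → VF X.I X.M} (f : X.Fm)
    {x : X'.M} {U : Option κ → Option κ → ℝ}
    (he : ∀ a, mfderiv X'.I X.I φ x (e' a x) = ∑ b, U a b • e b (φ x)) (s : Option κ × Option κ) :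
    cmp e' (pm X'.I X.I φ f) x s = ∑ a, ∑ b, U s.1 a * U s.2 b * cmp e f (φ x) (a, b) := by
  have h : ∀ (n : ℕ) (g : (Fin (n + 1) → Option κ) → ℝ), ∑ Φ, g Φ = ∑ a, ∑ Φ, g (Matrix.vecCons a Φ) :=
    fun n g => by rw [← (Fin.consEquiv fun _ => Option κ).sum_comp, Fintype.sum_prod_type]; rfl
  have k := Int54.evA_mix 2 (f (φ x)) (Int54.fv e (φ x)) fun i => U (![s.1, s.2] i)
  simp only [h, Fintype.sum_unique, Fin.prod_univ_two] at k
  refine Eq.trans ?_ k
  exact (R208.F.evA_pb 2 _ _ _).trans (congrArg (R208.F.evA _ 2 _) (funext fun i => he _))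

theorem cmp_comb (e : Option κ → VF X.I X.M) (a b : ℝ) (f g : X.Fm) (x : X.M) :
    cmp e (a • f + b • g) x = a • cmp e f x + b • cmp e g x := by
  ext s
  simp [Sw87.Mo.cmp, Int54.cf]

theorem sm_cmp {e : Option κ → VF X.I X.M} (he : ∀ x, FAt e x) {f : X.Fm} (hf : Cs X.I 2 univ f)
    (x : X.M) : FSm X.I (cmp e f) x :=
  Wz78.SA.toLp fun _ => Int54.contMDiffAt_cf le_rfl (he x).sm (hf.cl.sm x trivial) _

/-- change of the frame and pull-back -/
theorem js_pm {T : Type} [NormedAddCommGroup T] [NormedSpace ℝ T] {φ : X'.M → X.M}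
    (hφ : ∀ x, IsLocalDiffeomorphAt X'.I X.I ∞ φ x) {e' : Option κ → VF X'.I X'.M}
    {e : Option κ → VF X.I X.M} (he' : ∀ x, FAt e' x) (he : ∀ x, FAt e x) {f : T → X.Fm}
    (h : JS X.I univ fun t => cmp e (f t)) : JS X'.I univ fun t => cmp e' (pm X'.I X.I φ (f t)) := by
  intro t _ x
  have p := fun y => (he _).pbv (hφ y)
  have q : ∀ y a, mfderiv X'.I X.I φ y (e' a y) =
      ∑ b, fT (fun a => pbv X'.I X.I φ (e a)) (e' a) y b • e b (φ y) := fun y a => by
    conv_lhs => rw [← sum_fT (p y).sp (e' a)]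
    simp only [map_sum, map_smul, pbv_rel (hφ y)]
  have u : ∀ a b, JAt X'.I (fun (_ : T) y => fT (fun a => pbv X'.I X.I φ (e a)) (e' a) y b) t x :=
    fun a b => JAt.of_fixed (sm_fT (p x).sm (p x).sp ((he' x).sm a) b)
  refine ContMDiffAt.congr_of_eventuallyEq (Wz78.SA.toLp fun s : Option κ × Option κ => FSm.sum' (s := Finset.univ) fun a _ =>
    FSm.sum' (s := Finset.univ) fun b _ =>
    ((u s.1 a).mul (u s.2 b)).mul ((EuclideanSpace.proj (a, b)).contDiff.contDiffAt.comp_contMDiffAt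
      (jAt_comp (hφ x).contMDiffAt (h t trivial _)))) (.of_forall fun z => ?_)
  ext s
  exact cmp_pm _ (q _) s

theorem js_fr {T : Type} [NormedAddCommGroup T] [NormedSpace ℝ T] {e' e : Option κ → VF X.I X.M}
    (he' : ∀ x, FAt e' x) (he : ∀ x, FAt e x) {f : T → X.Fm}
    (h : JS X.I univ fun t => cmp e (f t)) : JS X.I univ fun t => cmp e' (f t) := by
  simpa only [Dr59.pm_id] using js_pm (φ := id) (Diffeomorph.refl X.I X.M ∞).isLocalDiffeomorph he' he h

theorem js_comb {T N : Type} [NormedAddCommGroup T] [NormedSpace ℝ T] [NormedAddCommGroup N]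
    [NormedSpace ℝ N] {s : T → ℝ} (hs : ContDiff ℝ ∞ s) {f g : T → X.M → N} (hf : JS X.I univ f)
    (hg : JS X.I univ g) : JS X.I univ fun t x => (1 - s t) • f t x + s t • g t x := fun t _ x =>
  ((JAt.of_par (contDiff_const.sub hs).contDiffAt).smul (hf t trivial x)).add
    ((JAt.of_par hs.contDiffAt).smul (hg t trivial x))

theorem jc_comb {T ν : Type} [NormedAddCommGroup T] [NormedSpace ℝ T] [Fintype ν] {s : T → ℝ}
    (hs : ContDiff ℝ ∞ s) {f g : T → R4 → Eu ν} (hf : JC univ f) (hg : JC univ g) :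
    JC univ fun t => (1 - s t) • f t + s t • g t := by
  obtain ⟨h1, K, hK, h2⟩ := hf
  obtain ⟨h3, K', hK', h4⟩ := hg
  refine ⟨(((contDiff_const.sub hs).comp contDiff_fst).contDiffOn.smul h1).add
    ((hs.comp contDiff_fst).contDiffOn.smul h3), _, hK.union hK', fun t ht y hy => ?_⟩
  simp [h2 t ht y fun k => hy (.inl k), h4 t ht y fun k => hy (.inr k)]

theorem tst_comb {n : ℕ} {b : Bg X.I X.M κ L0 (μ ⊕ μ) n} {Ξ : R4 → X.M} {f g : R4 → Eu (μ ⊕ μ)}
    (hf : b.Tst Ξ f) (hg : b.Tst Ξ g) (r r' : ℝ) : b.Tst Ξ (r • f + r' • g) :=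
  ⟨(hf.sm.const_smul r).add (hg.sm.const_smul r'),
    (hf.cpt.smul_left (f := fun _ => r)).add (hg.cpt.smul_left (f := fun _ => r')),
    fun y => by simp [hf.pos, hg.pos]⟩

theorem pm_pp {β : MB τ k} {β' : MB τ k'} (h : β'.B.o = β.B.o) (m : C8 X.M (Option κ) μ) :
    (β'.bg0 m).pm = (β.bg0 m).pm ∧ (β'.bg0 m).pp = (β.bg0 m).pp := by
  have : (β'.bg0 m).vol = (β.bg0 m).vol := funext fun x => by simp only [Bg.vol, MB.bg0, h]
  exact ⟨funext fun x => by rw [Bg.pm, Bg.pm, this]; rfl, funext fun x => by rw [Bg.pp, Bg.pp, this]; rfl⟩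

theorem act_of {β : MB τ k} {t : Tk k} {i : τ.N} (h : 1 < β.v t i) : β.Act i := by
  by_contra k
  simp only [MB.Act, not_or, not_not, not_exists] at k
  simp only [MB.v, MT.sw, k.1, k.2, if_true, if_false, Finset.sum_const_zero] at h
  norm_num at h

/-- **E-CST** -/
theorem cstStmt : CstStmt κ μ := fun β M f hm hf h0 =>
  ⟨{ toMM := M, mon := hm, fo := fun _ => f, cs := fun _ => hf
     sf := fun _ _ x => JAt.of_fixed (sm_cmp (β.fr 0) hf x)
     f0 := fun _ i h => h0 i (act_of h), mc := 0, smc := fun _ _ _ => contMDiffAt_const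
     mJ := fun _ _ => by simp, mp := fun _ _ => by simp, m0 := fun _ _ _ _ _ => rfl, η := 0
     jc := fun _ => ⟨contDiffOn_const, ∅, isCompact_empty, fun _ _ _ _ => rfl⟩
     tst := fun _ _ => ⟨contDiff_const, HasCompactSupport.zero, fun _ => map_zero _⟩ },
    rfl, fun _ => rfl, rfl, rfl⟩

/-- **E-MIX** -/
theorem mixStmt : MixStmt κ μ := by
  intro X τ k β c₀ c₁ s h hs
  have e : c₁.m = c₀.m := congrArg MM.m h
  exact ⟨{
    toMM := c₀.toMM, mon := c₀.mon, fo := fun t => (1 - s t) • c₀.fo t + s t • c₁.fo t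
    cs := fun t => ((c₀.cs t).smul _).add ((c₁.cs t).smul _)
    sf := fun t _ x => (js_comb hs c₀.sf c₁.sf t trivial x).congr (.of_forall fun z => cmp_comb _ _ _ _ _ _)
    f0 := fun t i a x b => by simp [c₀.f0 t i a x b, c₁.f0 t i a x b]
    mc := fun t => (1 - s t) • c₀.mc t + s t • c₁.mc t
    smc := js_comb hs c₀.smc c₁.smc
    mJ := fun t x => by simp [mul_add, add_mul, c₀.mJ, c₁.mJ]
    mp := fun t x => by simp [mul_add, add_mul, c₀.mp, e ▸ c₁.mp t x]
    m0 := fun t i a x b => by simp [c₀.m0 t i a x b, c₁.m0 t i a x b]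
    η := fun t => (1 - s t) • c₀.η t + s t • c₁.η t
    jc := fun j => jc_comb hs (c₀.jc j) (c₁.jc j)
    tst := fun t j => tst_comb (c₀.tst t j) (e ▸ c₁.tst t j) _ _ }, rfl, fun _ => ⟨rfl, rfl, rfl⟩⟩

/-- **E-PB** -/
theorem pbStmt : PbStmt κ μ := by
  refine ⟨fun β φ => ⟨fun a t x => VJ.pbv (φ.φ.isLocalDiffeomorph x) (β.sm a t _),
    fun t x => ((β.fr t _).pbv (φ.φ.isLocalDiffeomorph x)).sp⟩, fun c φ e he => ⟨fun t =>
      ⟨(c.cs t).cl.pm ⟨fun y _ => φ.φ.contMDiff y, mapsTo_univ _ _⟩, ?_, subset_univ _⟩,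
      js_pm φ.φ.isLocalDiffeomorph he (MB.fr _ 0) c.sf⟩⟩
  refine ((c.cs t).hc.comp_homeomorph φ.φ.toHomeomorph).mono fun x hx h => hx ?_
  rw [Dr59.pm_apply, show c.fo t (φ.φ x) = 0 from h, map_zero]

/-! ### substitution -/

section res
variable {β : MB τ k} {π : Fin k → Fin k' ⊕ ℝ} {wl : Fin k' → Option τ.N}
  (h1 : ∀ c c', π c = .inl c' → wl c' = β.wl c) (h2 : ∀ c', wl c' ≠ none → ∃ c, π c = .inl c')
  (h3 : ∀ c a, π c = .inr a → (β.wl c ≠ none → a = 0) ∧ a ∈ Icc (0 : ℝ) 1)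

theorem sb_sm (π : Fin k → Fin k' ⊕ ℝ) : ContDiff ℝ ∞ (sb π) := contDiff_pi.2 fun c => by
  unfold sb
  rcases π c with c' | a
  exacts [contDiff_apply _ _ c', contDiff_const]

include h1 h2

theorem wl_ex {c' : Fin k'} {i : τ.N} (h : wl c' = some i) : ∃ c, π c = .inl c' ∧ β.wl c = some i :=
  let ⟨c, e⟩ := h2 c' (by simp [h]); ⟨c, e, (h1 c c' e).symm.trans h⟩

theorem wl_inj (c c' : Fin k') (i : τ.N) (a : wl c = some i) (b : wl c' = some i) : c = c' := by
  obtain ⟨d, e, f⟩ := wl_ex h1 h2 a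
  obtain ⟨d', e', f'⟩ := wl_ex h1 h2 b
  rw [β.inj _ _ _ f f', e'] at e
  exact (Sum.inl.inj e).symm

include h3 in
theorem sw_sb (t : Tk k') (i : τ.N) : τ.sw wl t i = β.v (sb π t) i := by
  refine congrArg (ite _ · _) ?_
  by_cases o : ∃ c', wl c' = some i
  · obtain ⟨c', a⟩ := o
    obtain ⟨c, e, b⟩ := wl_ex h1 h2 a
    rw [Finset.sum_eq_single c' (fun d _ hd => if_neg fun q => hd (wl_inj h1 h2 _ _ _ q a)) (by simp),
      Finset.sum_eq_single c (fun d _ hd => if_neg fun q => hd (β.inj _ _ _ q b)) (by simp),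
      if_pos a, if_pos b, sb, e]
    rfl
  · rw [Finset.sum_eq_zero fun d _ => if_neg fun q => o ⟨d, q⟩, Finset.sum_eq_zero fun d _ => ?_]
    split_ifs with q
    · unfold sb
      rcases e : π d with c' | a
      · exact (o ⟨c', (h1 d c' e).trans q⟩).elim
      · exact (h3 d a e).1 (by simp [q])
    · rfl

/-- the substituted frames -/
def resB : MB τ k' where
  e t := β.e (sb π t)
  wl := wl
  sm a t x := VJ.reparam (X := fun s => β.e s a) (sb_sm π).contDiffAt (β.sm a _ x)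
  sp t x := β.sp _ x
  P t x := (β.P _ x).trans (β.P _ x).symm
  o t := (β.o _).trans (β.o _).symm
  inj := wl_inj h1 h2
  fin c i a := let ⟨d, _, b⟩ := wl_ex h1 h2 a; β.fin d i b
  lit t i a := by rw [sw_sb h1 h2 h3] at a ⊢; exact β.lit _ i a
  loc c' i a t v p q x hx j := by
    obtain ⟨c, e, b⟩ := wl_ex h1 h2 a
    have : sb π (update t c' v) = update (sb π t) c v := funext fun d => by
      rcases eq_or_ne d c with rfl | o
      · simp [sb, e]
      · rw [update_of_ne o]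
        unfold sb
        rcases f : π d with d' | r
        · exact update_of_ne (fun g => o (β.inj _ _ i ((h1 d d' f).symm.trans ((congrArg wl g).trans a)) b)) _ _
        · rfl
    rw [this]
    exact β.loc c i b _ v (by rw [sb, e]; exact p) q x hx j
  ret t := by
    rw [β.ret, β.ret (sb π (clp wl t))]
    congr 1
    funext c
    rcases e : π c with c' | a
    · simp only [clp, sb, e, Sum.elim_inl, h1 c c' e]
      rcases β.wl c with _ | i
      · simp only [Option.elim]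
        rw [min_eq_right (max_le zero_le_one (min_le_left _ _)), ← max_assoc, max_self]
      · simp only [Option.elim]
        rw [← max_assoc, max_self]
    · simp only [clp, sb, e, Sum.elim_inr]

end res

/-- **E-RES** -/
theorem resStmt : ResStmt κ μ := by
  intro X τ k k' β π wl h1 h2 h3
  refine ⟨resB h1 h2 h3, rfl, fun _ => rfl, fun c => ?_⟩
  have : SigmaCompactSpace X.M := Int54.sigmaCompact (I := X.I) _
  have p := pm_pp (β := β) (β' := resB h1 h2 h3) (β.o _) c.m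
  have r : ∀ {N : Type} [NormedAddCommGroup N] [NormedSpace ℝ N] {f : Tk k → X.M → N},
      JS X.I univ f → JS X.I univ fun t => f (sb π t) := fun h t _ x =>
    JAt.reparam (sb_sm π).contDiffAt (h _ trivial x)
  exact ⟨{
    toMM := c.toMM, mon := c.mon.congr fun x _ => β.P _ x, fo := fun t => c.fo (sb π t)
    cs := fun _ => c.cs _
    sf := r (js_fr (β.fr _) (β.fr 0) c.sf)
    f0 := fun t i a => c.f0 _ i (sw_sb h1 h2 h3 t i ▸ a)
    mc := fun t => c.mc (sb π t)
    smc := r c.smc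
    mJ := fun _ => c.mJ _
    mp := fun t x => by rw [p.1, p.2]; exact c.mp _ x
    m0 := fun t i a => c.m0 _ i (sw_sb h1 h2 h3 t i ▸ a)
    η := fun t => c.η (sb π t)
    jc := fun j => ⟨(c.jc j).1.comp ((sb_sm π).prodMap contDiff_id).contDiffOn fun _ _ => ⟨trivial, trivial⟩,
      (c.jc j).2.imp fun _ h => ⟨h.1, fun _ _ => h.2 _ trivial⟩⟩
    tst := fun t j => ⟨(c.tst _ j).sm, (c.tst _ j).cpt, fun y => by rw [p.2]; exact (c.tst _ j).pos y⟩ },
    rfl, fun d h => Gm56.Rp.fam (e := β.e) β.sm β.sp β.P h, fun _ => ⟨rfl, rfl, rfl⟩⟩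

end Crest.Agent.X212.Sm10.Rs
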