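import Crest.Agent.X212.Sm10.Mh1
import Crest.Agent.X212.Sm10.Mh2
import Crest.Agent.X212.Sm10.Res
import Crest.Agent.X212.Rob53.Mb

/-!
# Row 212, GEO engine (helper10): the marks M-HI and M-WC
-/

set_option autoImplicit false
set_option linter.unusedSectionVars false
noncomputable section
open scoped Manifold ContDiff Topology InnerProductSpace
open MeasureTheory Set Function Filter

namespace Crest.Agent.X212.Sm10.Mw
open An Cyf70 Sw Sw.En3 Flo2 Geo28 Met55 Sw87.Mo Rob53.Pz Rob53.Mb Mh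
open Rad94 (Two Rd0 Dat Fo sft mas Ref HdgOK Hi1 KerStmt HdgStmt Cc wd S1 d1)
open Dr59 (Cs)
open Bor5.T (Cur)

/-- **M-HI** -/
theorem mhi (hK : KerStmt κ0 L0 ν0) (hH : HdgStmt κ0 L0 ν0) (e₀ : En3 κ0 L0 ν0) :
    MhiStmt (Top0.mk0 e₀) := by
  intro X τ β c d h hn hd hb
  obtain ⟨ι, P, hk⟩ := po_of h
  have R := rd0_of h P hk
  obtain ⟨r, a₀, h1, h2⟩ := base0 P hH c 0 (fun _ => rfl) (fun s => (R s).1)
    (h1_ex (ad_bg c _ _ _) h.h1) fun η hη => neg0 (ad_bg c _ _ _) hb hη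
  obtain ⟨m, hm, h3⟩ := hi1 c P (fun _ => rfl) hK (c₀ := c) (fun _ => rfl) rfl (fun a => a.elim0) hn
    (fun s => (R s).2) (fun t _ => h2 t) h1
  exact ⟨β, am hm, fun _ => rfl, hd, h3⟩

/-! ### quadratic forms -/

section ip
variable {X : M4} {u v : X.Fm}

theorem ip_comb (hu : Cs X.I 2 univ u) (hv : Cs X.I 2 univ v) (a b : ℝ) :
    X.ip (a • u + b • v) (a • u + b • v) =
      a ^ 2 * X.ip u u + 2 * a * b * X.ip u v + b ^ 2 * X.ip v v := by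
  have k := (hu.smul a).add (hv.smul b)
  rw [M4.ip, Dr59.ip_add_right (hu.smul a) (hv.smul b) X.ori k.cl.sm, Dr59.ip_smul_right,
    Dr59.ip_smul_right, hu.ip_add X.ori (hu.smul a).cl.sm (hv.smul b).cl.sm,
    hv.ip_add X.ori (hu.smul a).cl.sm (hv.smul b).cl.sm]
  simp only [Dr59.ip_smul]
  rw [Dr59.ip_comm hv.cl.dg (e := u)]
  ring

end ip

variable {κ : Type} [Fintype κ] [DecidableEq κ] {μ : Type} [Fintype μ] [DecidableEq μ]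
  {X : M4} {k : ℕ} {τ : MT κ X} {β : MB τ k} {ι : Bool → τ.N}

theorem v_eq (hw : ∀ a, β.wl a = none) (t t' : Tk k) : β.v t = β.v t' := funext fun i => by
  simp [MB.v, MT.sw, hw]

variable (c : MC μ β) (hw : ∀ a, β.wl a = none) (t₀ t₁ : Tk k)

/-- the line through two forms -/
abbrev lin (r : Tk k → ℝ) (hr : ContDiff ℝ ∞ r) : MC μ β :=
  { c with
    fo := fun t => (1 - r t) • c.fo t₀ + r t • c.fo t₁
    cs := fun _ => ((c.cs t₀).smul _).add ((c.cs t₁).smul _)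
    sf := by
      simp only [funext (Rs.cmp_comb (β.e 0) _ _ _ _)]
      exact Rs.js_comb hr (fun _ _ x => .of_fixed (Rs.sm_cmp (β.fr 0) (c.cs t₀) x))
        fun _ _ x => .of_fixed (Rs.sm_cmp (β.fr 0) (c.cs t₁) x)
    f0 := fun t i h x hx => by
      simp [c.f0 t₀ i (v_eq hw t t₀ ▸ h) x hx, c.f0 t₁ i (v_eq hw t t₁ ▸ h) x hx]
    mc := 0
    smc := fun _ _ _ => .of_fixed contMDiffAt_const
    mJ := fun _ _ => (mul_zero _).trans (zero_mul _).symm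
    mp := fun _ _ => by simp
    m0 := fun _ _ _ _ _ => rfl }

theorem lin_bg (hn : τ.nc = 0) {t : Tk k} (he : β.e t = β.e 0) {r r' : Tk k → ℝ} (hr : ContDiff ℝ ∞ r)
    (hr' : ContDiff ℝ ∞ r') : ((lin c hw t₀ t₁ r hr).P t).bg = sft ((lin c hw t₀ t₁ r' hr').P 0).bg
      (fun x => (r t - r' 0) • (β.bg0 c.m).p2 x (cmp (β.e 0) (c.fo t₁ - c.fo t₀) x)) 1 := by
  have e : ∀ e (h : ∀ x, FAt e x), e = β.e 0 → rFr e h = β.F 0 := by rintro _ _ rfl; rfl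
  have e1 : β.F t = β.F 0 := e _ _ he
  show MC.bg _ _ _ _ = _
  simp only [MC.bg, MC.pz, sft, MB.G, e1, he, v_eq hw t 0]
  congr 1
  · funext x
    rw [← map_smul, ← map_add]
    congr 1
    rw [show c.fo t₁ - c.fo t₀ = (1 : ℝ) • c.fo t₁ + (-1 : ℝ) • c.fo t₀ by module]
    simp only [Rs.cmp_comb]
    module
  · exact funext fun j => (j.cast hn).elim0

theorem kv_cmp {n : ℕ} (t v) (ct : Fin n → Cut X.M κ (μ ⊕ μ)) (f : X.Fm) (x : X.M) :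
    Nr51.kv (X := X.X) (c.bg t v ct) x (f x) = cmp (β.e t) f x := by
  ext s
  refine congrArg (R208.F.evA X.X.E 2 (f x)) (funext fun i => ?_)
  fin_cases i <;> rfl

theorem ip_vol {n : ℕ} (t v) (ct : Fin n → Cut X.M κ (μ ⊕ μ)) (h : (c.bg t v ct).OK) {f : X.Fm}
    (hf : Cs X.I 2 univ f) (g : X.Fm) :
    X.ip g f = Dr59.ip X.I (Num57.vol (c.bg t v ct).F (c.bg t v ct).B.o) g f :=
  hf.ip_ori X.ori (Nr51.ok (X := X.X) h).ori ((X.ori.sameOn_volF (Int54.pre_sp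
    (β.F t).toPre) univ).trans (β.o t ▸ Num57.sameOn_vol_oc (β.F t) X.X.dim (X.ori.unit_vol _)).symm)

theorem sec_p2 {n : ℕ} (t v) (ct : Fin n → Cut X.M κ (μ ⊕ μ)) (h : (c.bg t v ct).OK) {f : X.Fm}
    (hf : Cs X.I 2 univ f) :
    (fun x => (c.bg t v ct).p2 x (cmp (β.e t) f x)) ∈ Sec X.I (c.bg t v ct).p2 :=
  ⟨fun x => Mp86.En.sm_p2 h (Rs.sm_cmp (β.fr t) hf x),
    hf.hc.mono fun x hx e => hx (by simp only [cmp_zero e, map_zero]),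
    fun _ => Sw88.p2_p2 h _⟩

theorem wc (hK : KerStmt κ L0 (μ ⊕ μ)) (hH : HdgStmt κ L0 (μ ⊕ μ)) {β : MB τ 1} (c : MC μ β)
    {d η η'} (P : Po τ ι) (R : ∀ s, Rd0 (c.ty (ι s)).en ∧ Rad94.Smp (c.ty (ι s)).en)
    (h1 : Dr59.HZ X.I 1 (univ : Set X.M)) (hn : τ.nc = 0) (hd : c.Cl d) (hb : X.Bp 1) (hc : X.Crs d η η')
    (hw0 : β.wl 0 = none) (he : ∀ t, β.e t = β.e 0) (f0 : c.fo 0 = (1 / 2 : ℝ) • η)
    (f1 : c.fo 1 = (1 / 2 : ℝ) • η') : ∃ c' : MC μ β, c'.toMM = c.toMM ∧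
    X.Seg d η ((2 : ℝ) • c'.fo 0) ∧ X.Seg d η' ((2 : ℝ) • c'.fo 1) ∧
    (∀ t ∈ dom β.wl, c'.fo t ∈ segment ℝ (c'.fo 0) (c'.fo 1)) ∧ ∀ ens C, Hi1 (c'.gc ens C) := by
  obtain ⟨c₀, k0, k1, p0, p1, p2⟩ := hc
  have hw : ∀ a, β.wl a = none := fun a => Subsingleton.elim 0 a ▸ hw0
  have e0 : η = (2 : ℝ) • c.fo 0 := by rw [f0, smul_smul]; norm_num
  have e1 : η' = (2 : ℝ) • c.fo 1 := by rw [f1, smul_smul]; norm_num
  have A0 : Cs X.I 2 univ (η - c₀) := (e0 ▸ (c.cs 0).smul 2).sub' k0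
  have A1 : Cs X.I 2 univ (η' - c₀) := (e1 ▸ (c.cs 1).smul 2).sub' k0
  have U := (c.cs 1).sub' (c.cs 0)
  have s0 : ∀ r : ℝ, ContDiff ℝ ∞ fun _ : Tk 1 => r := fun _ => contDiff_const
  have ok := fun r => bg_ok (lin c hw 0 1 _ (s0 r)) (ct_ok (t := 0) _ (β.v 0) ((lin c hw 0 1 _ (s0 r)).ct 0))
  have ad := ad_bg (lin c hw 0 1 _ (s0 0)) 0 (β.v 0) ((lin c hw 0 1 _ (s0 0)).ct 0)
  have cc := cc_cmp ad U
  have u0 : ∀ s, ∀ x ∈ (τ.nb (ι s)).U 0, (c.fo 1 - c.fo 0) x = 0 := fun s x hx => by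
    have : ∀ t, c.fo t x = 0 := fun t => c.f0 t _ (by linarith [v_end' (β := β) (t := t) (P.ne s)]) x hx
    simp [this]
  have zo := fun r => two_ok (lin c hw 0 1 _ (s0 r)) P 0 (fun _ => rfl)
    (ϖ := fun (_ : Fin 1) x => (β.bg0 c.m).p2 x (cmp (β.e 0) (c.fo 1 - c.fo 0) x)) (fun s => (R s).1)
    fun _ => ⟨(sec_p2 _ _ _ _ (ok r) U :), fun s x hx => (congrArg _ (cmp_zero (u0 s x hx))).trans (map_zero _)⟩
  have up : 0 < wd (X := X.X) ((lin c hw 0 1 _ (s0 0)).P 0).bg (cmp (β.e 0) (c.fo 1 - c.fo 0))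
      (cmp (β.e 0) (c.fo 1 - c.fo 0)) := by
    refine ((wd_cmp ad U.cl.dg _).trans ?_).ge.trans_lt' (show 0 < 2 * ((-1 / 2) ^ 2 * X.ip (η - c₀) (η - c₀) +
      2 * (-1 / 2) * (1 / 2) * X.ip (η - c₀) (η' - c₀) + (1 / 2) ^ 2 * X.ip (η' - c₀) (η' - c₀)) by linarith)
    rw [← ip_comb A0 A1, f0, f1]
    congr 2 <;> module
  obtain ⟨h2, s, a₀, h3⟩ := hH _ _ 1 _ _ (two (lin c hw 0 1 _ (s0 0)) P 0 fun _ => rfl)
    (fun _ => cmp (β.e 0) (c.fo 1 - c.fo 0)) (zo 0) (fun _ => cc) (h1_ex ad h1) (fun s hs => by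
      have : s 0 ≠ 0 := fun e => hs (funext fun a => Subsingleton.elim 0 a ▸ e)
      refine lt_of_lt_of_eq (mul_pos (mul_self_pos.2 this) up) ?_
      simp only [Fin.sum_univ_one, wd, Pi.smul_apply, map_smul, real_inner_smul_left, real_inner_smul_right,
        integral_const_mul, mul_assoc]
      rfl) fun v hv h0 => neg1 ad hb cc hv up (h0 0)
  have hs : sft (X := X.X) _ _ _ = _ := (lin_bg c hw 0 1 hn rfl (s0 (s 0)) (s0 0)).symm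
  simp only [Fin.sum_univ_one] at h3
  rw [sub_zero] at hs
  replace h3 : Ref (X := X.X) ((lin c hw 0 1 _ (s0 (s 0))).P 0).bg
    (two (lin c hw 0 1 _ (s0 (s 0))) P 0 fun _ => rfl).gm a₀ := hs ▸ h3
  have cs := (lin c hw 0 1 _ (s0 (s 0))).cs 0
  have q := Mn.neg (two (lin c hw 0 1 _ (s0 (s 0))) P 0 fun _ => rfl) (zo _).ok (fun s => (R s).1)
    (fun s => (c.std _).om) rfl hd cs (fun s' x hx => (lin c hw 0 1 _ (s0 (s 0))).f0 0 _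
      (by linarith [v_end' (β := β) (t := 0) (P.ne s')]) x ((ht_U _ P 0 _).1 hx)) h3.a1.1 (fun x => by
      have := h3.eq x
      simp only [Bg.eC, Pi.zero_apply, Nr51.qd0 (X := X.X), smul_zero, sub_zero, sub_eq_zero] at this
      exact this.trans (congrArg ((β.bg0 c.m).p2 x) (kv_cmp (lin c hw 0 1 _ (s0 (s 0))) 0 _ _ _ x).symm)) h3.dec k0 k1
  replace q := (ip_vol _ _ _ _ (ok (s 0)) ((k0.smul _).sub' cs) _).trans_le q
  rw [show (1 / 2 : ℝ) • c₀ - (lin c hw 0 1 _ (s0 (s 0))).fo 0 = (-(1 - s 0) / 2) • (η - c₀) +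
    (-s 0 / 2) • (η' - c₀) by
      show _ - ((1 - s 0) • c.fo 0 + s 0 • c.fo 1) = _
      rw [f0, f1]; module, ip_comb A0 A1] at q
  have s1 : ∀ a, s a ∈ Ioo (0 : ℝ) 1 := fun a => by
    rw [← Subsingleton.elim 0 a]
    generalize s 0 = σ at q
    refine ⟨not_le.1 fun n => ?_, not_le.1 fun n => ?_⟩
    · nlinarith [mul_nonneg (sq_nonneg σ) p1.le, mul_pos (pow_pos (show 0 < 1 - σ by linarith) 2) p0,
        mul_nonneg (mul_nonneg (neg_nonneg.2 n) (show 0 ≤ 1 - σ by linarith)) (neg_nonneg.2 p2.le)]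
    · nlinarith [mul_nonneg (sq_nonneg (1 - σ)) p0.le, mul_pos (pow_pos (show 0 < σ by linarith) 2) p1,
        mul_nonneg (mul_nonneg (sub_nonneg.2 n) (show 0 ≤ σ by linarith)) (neg_nonneg.2 p2.le)]
  obtain ⟨r, hr⟩ := par β.wl s1
  obtain ⟨h4, ε₀, h5, G, S, h6⟩ := h2
  have sr : ContDiff ℝ ∞ fun t : Tk 1 => t 0 := contDiff_apply ℝ ℝ 0
  obtain ⟨m, hm, h7⟩ := hi1 (lin c hw 0 1 _ sr) P (fun _ => rfl) hK (c₀ := lin c hw 0 1 _ (s0 (s 0)))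
    (fun _ => rfl) rfl hw hn (fun s => (R s).2) (fun t _ => by
      simpa only [Fin.sum_univ_one, Pi.sub_apply] using lin_bg c hw 0 1 hn (he t) sr (s0 (s 0)))
    ⟨zo _, hr, h3, h4, ε₀, h5, G, S, fun e he =>
      ⟨(h6 e he).a1, (h6 e he).eq, (h6 e he).sub, (h6 e he).wt, (h6 e he).ul⟩⟩
  have g0 : (am hm).fo 0 = c.fo 0 := by
    show (1 - (0 : ℝ)) • c.fo 0 + (0 : ℝ) • c.fo 1 = _
    module
  have g1 : (am hm).fo 1 = c.fo 1 := by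
    show (1 - (1 : ℝ)) • c.fo 0 + (1 : ℝ) • c.fo 1 = _
    module
  refine ⟨am hm, rfl, fun σ _ => ⟨c₀, k0, k1, ?_⟩, fun σ _ => ⟨c₀, k0, k1, ?_⟩, fun t ht => ?_, h7⟩
  · rwa [g0, ← e0, ← add_smul, sub_add_cancel, one_smul]
  · rwa [g1, ← e1, ← add_smul, sub_add_cancel, one_smul]
  · rw [g0, g1]
    exact ⟨1 - t 0, t 0, sub_nonneg.2 ((ht 0).2 hw0), (ht 0).1, sub_add_cancel _ _, rfl⟩

/-- **M-WC** -/
theorem mwc (hK : KerStmt κ0 L0 ν0) (hH : HdgStmt κ0 L0 ν0) (e₀ : En3 κ0 L0 ν0) :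
    MwcStmt (Top0.mk0 e₀) := fun c _ _ _ h hn hd hb hc hw he f0 f1 =>
  let ⟨_, P, hk⟩ := po_of h
  wc hK hH c P (rd0_of h P hk) h.h1 hn hd hb hc hw he f0 f1

end Crest.Agent.X212.Sm10.Mw
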