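import Crest.Agent.X212.Sm10.Defs

/-!
# X212 / Sm10 (helper10): moving the big weights between types

`mv ty δ a ν` changes the total weight of the type `i` by `a i`, moving only weights `> δ`.
-/

set_option autoImplicit false
set_option linter.unusedSectionVars false

open Set Filter Topology Function

noncomputable section

namespace Crest.Agent.X212.Sm10

section mv

variable {P ι : Type} [Fintype P] [DecidableEq ι] (ty : P → ι) (δ : ℝ)

/-- the total weight of the type `i` -/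
def tw (i : ι) (ν : P → ℝ) : ℝ := ∑ s, if ty s = i then ν s else 0

/-- truncated weights -/
def trc (ν : P → ℝ) (s : P) : ℝ := max (ν s - δ) 0

/-- total truncated weight -/
def nn (ν : P → ℝ) (i : ι) : ℝ := tw ty i (trc δ ν)

/-- the move -/
def mv (a : ι → ℝ) (ν : P → ℝ) : P → ℝ := fun s => ν s + a (ty s) / nn ty δ ν (ty s) * trc δ ν s

/-- admissible moves -/
def OK (a : ι → ℝ) (ν : P → ℝ) : Prop :=
  ∀ i, a i = 0 ∨ (0 < nn ty δ ν i ∧ 0 < nn ty δ ν i + a i)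

theorem tw_add (i : ι) (ν μ : P → ℝ) : tw ty i (ν + μ) = tw ty i ν + tw ty i μ := by
  simp only [tw, ← Finset.sum_add_distrib, Pi.add_apply]
  exact Finset.sum_congr rfl fun s _ => by split_ifs <;> simp

theorem tw_smul (i : ι) (r : ℝ) (ν : P → ℝ) : tw ty i (r • ν) = r * tw ty i ν := by
  simp only [tw, Finset.mul_sum, Pi.smul_apply, smul_eq_mul]
  exact Finset.sum_congr rfl fun s _ => by split_ifs <;> simp

/-- `tw` as a continuous linear form -/
def twL (i : ι) : (P → ℝ) →L[ℝ] ℝ :=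
  LinearMap.toContinuousLinearMap
    { toFun := tw ty i, map_add' := tw_add ty i, map_smul' := tw_smul ty i }

@[simp] theorem twL_apply (i : ι) (ν : P → ℝ) : twL ty i ν = tw ty i ν := rfl

theorem continuous_tw (i : ι) : Continuous (tw ty i) := (twL ty i).continuous

theorem tw_sub (i : ι) (ν μ : P → ℝ) : tw ty i (ν - μ) = tw ty i ν - tw ty i μ :=
  (twL ty i).map_sub ν μ

theorem sum_tw [Fintype ι] (ν : P → ℝ) : ∑ i, tw ty i ν = ∑ s, ν s := by
  simp only [tw]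
  rw [Finset.sum_comm]
  simp

theorem tw_nonneg (i : ι) {ν : P → ℝ} (h : ∀ s, 0 ≤ ν s) : 0 ≤ tw ty i ν :=
  Finset.sum_nonneg fun s _ => by split_ifs; exacts [h s, le_rfl]

theorem le_tw {ν : P → ℝ} (h : ∀ s, 0 ≤ ν s) (s : P) : ν s ≤ tw ty (ty s) ν := by
  have := Finset.single_le_sum (f := fun t => if ty t = ty s then ν t else 0)
    (fun t _ => by split_ifs; exacts [h t, le_rfl]) (Finset.mem_univ s)
  rwa [if_pos rfl] at this

theorem tw_eq_zero {i : ι} {ν : P → ℝ} (h : ∀ s, ty s = i → ν s = 0) : tw ty i ν = 0 :=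
  Finset.sum_eq_zero fun s _ => by split_ifs with k; exacts [h s k, rfl]

theorem exists_of_tw_ne {i : ι} {ν : P → ℝ} (h : tw ty i ν ≠ 0) : ∃ s, ty s = i ∧ ν s ≠ 0 := by
  by_contra hn
  push Not at hn
  exact h (tw_eq_zero ty hn)

theorem tw_congr {i : ι} {ν μ : P → ℝ} (h : ∀ s, ty s = i → ν s = μ s) : tw ty i ν = tw ty i μ :=
  Finset.sum_congr rfl fun s _ => by split_ifs with k; exacts [h s k, rfl]

theorem abs_tw_le (i : ι) {ν : P → ℝ} {r : ℝ} (hr : 0 ≤ r) (h : ∀ s, |ν s| ≤ r) :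
    |tw ty i ν| ≤ Fintype.card P * r := by
  refine (Finset.abs_sum_le_sum_abs _ _).trans ?_
  rw [← nsmul_eq_mul, ← Finset.card_univ]
  refine Finset.sum_le_card_nsmul _ _ _ fun s _ => ?_
  split_ifs
  exacts [h s, by simpa using hr]

theorem trc_nonneg (ν : P → ℝ) (s : P) : 0 ≤ trc δ ν s := le_max_right _ _

theorem continuous_trc : Continuous (trc δ : (P → ℝ) → P → ℝ) :=
  continuous_pi fun s => ((continuous_apply s).sub continuous_const).max continuous_const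

theorem continuous_nn (i : ι) : Continuous fun ν => nn ty δ ν i :=
  (continuous_tw ty i).comp (continuous_trc δ)

variable {δ}

theorem le_nn (hδ : 0 ≤ δ) (ν : P → ℝ) (i : ι) :
    tw ty i ν - Fintype.card P * δ ≤ nn ty δ ν i := by
  have : tw ty i ν ≤ nn ty δ ν i + tw ty i fun _ => δ := by
    rw [nn, ← tw_add]
    refine Finset.sum_le_sum fun s _ => ?_
    split_ifs
    · have := le_max_left (ν s - δ) 0
      simp only [Pi.add_apply, trc]
      linarith
    · exact le_rfl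
  have h2 := (le_abs_self _).trans (abs_tw_le ty i hδ (ν := fun _ => δ) fun _ => (abs_of_nonneg hδ).le)
  linarith

variable {ty} {a b : ι → ℝ} {ν : P → ℝ}

theorem OK.fac (h : OK ty δ a ν) (i : ι) : 0 < 1 + a i / nn ty δ ν i := by
  rcases h i with h | ⟨h1, h2⟩
  · simp [h]
  · rw [one_add_div h1.ne']
    exact div_pos h2 h1

theorem mv_small {s : P} (h : ν s ≤ δ) : mv ty δ a ν s = ν s := by
  simp [mv, trc, max_eq_right (sub_nonpos.2 h)]

theorem mv_sub {s : P} (h : δ ≤ ν s) :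
    mv ty δ a ν s - δ = (1 + a (ty s) / nn ty δ ν (ty s)) * (ν s - δ) := by
  simp only [mv, trc, max_eq_left (sub_nonneg.2 h)]
  ring

theorem OK.big (h : OK ty δ a ν) {s : P} : δ < mv ty δ a ν s ↔ δ < ν s := by
  refine ⟨fun k => by_contra fun n => ?_, fun k => ?_⟩
  · rw [mv_small (not_lt.1 n)] at k
    exact n k
  · have := mul_pos (h.fac (ty s)) (sub_pos.2 k)
    rw [← mv_sub k.le] at this
    exact sub_pos.1 this

theorem OK.trc_mv (h : OK ty δ a ν) (s : P) :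
    trc δ (mv ty δ a ν) s = (1 + a (ty s) / nn ty δ ν (ty s)) * trc δ ν s := by
  rcases le_or_gt (ν s) δ with k | k
  · simp [trc, mv_small k, max_eq_right (sub_nonpos.2 k)]
  · rw [trc, trc, max_eq_left (sub_pos.2 (h.big.2 k)).le, max_eq_left (sub_pos.2 k).le, mv_sub k.le]

theorem OK.aux (h : OK ty δ a ν) (i : ι) :
    tw ty i (fun s => a (ty s) / nn ty δ ν (ty s) * trc δ ν s) = a i := by
  rw [tw_congr ty (μ := (a i / nn ty δ ν i) • trc δ ν) fun s hs => by simp [hs], tw_smul]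
  rcases h i with h | ⟨h1, -⟩
  · simp [h]
  · exact div_mul_cancel₀ _ h1.ne'

theorem OK.tw_mv (h : OK ty δ a ν) (i : ι) : tw ty i (mv ty δ a ν) = tw ty i ν + a i := by
  rw [← h.aux i, ← tw_add]
  rfl

theorem OK.nn_mv (h : OK ty δ a ν) (i : ι) : nn ty δ (mv ty δ a ν) i = nn ty δ ν i + a i := by
  rw [← h.aux i, nn, nn, ← tw_add]
  exact tw_congr ty fun s _ => by rw [h.trc_mv, Pi.add_apply]; ring

theorem OK.mv_mv (h : OK ty δ a ν) (b : ι → ℝ) :
    mv ty δ b (mv ty δ a ν) = mv ty δ (a + b) ν := by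
  funext s
  rw [mv, h.nn_mv, h.trc_mv, mv, mv, Pi.add_apply]
  rcases h (ty s) with h | ⟨h1, h2⟩
  · simp [h]
  · field_simp
    ring

theorem mv_zero (ν : P → ℝ) : mv ty δ 0 ν = ν := by
  funext s
  simp [mv]

theorem OK.mv_neg (h : OK ty δ a ν) : mv ty δ (-a) (mv ty δ a ν) = ν := by
  rw [h.mv_mv, add_neg_cancel, mv_zero]

theorem OK.smul (h : OK ty δ a ν) {t : ℝ} (ht : t ∈ Icc (0 : ℝ) 1) : OK ty δ (t • a) ν := fun i =>
  (h i).imp (fun k => by simp [k]) fun ⟨h1, h2⟩ => ⟨h1, by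
    have := mul_nonneg ht.1 h2.le
    rw [Pi.smul_apply, smul_eq_mul]
    rcases ht.2.eq_or_lt with e | e
    · rw [e, one_mul]; exact h2
    · have := mul_pos (sub_pos.2 e) h1
      nlinarith⟩

theorem mv_smul (t : ℝ) : mv ty δ (t • a) ν = ν + t • (mv ty δ a ν - ν) := by
  funext s
  simp only [mv, Pi.add_apply, Pi.smul_apply, Pi.sub_apply, smul_eq_mul]
  ring

theorem OK.ne (h : OK ty δ a ν) (hδ : 0 ≤ δ) {s : P} : mv ty δ a ν s ≠ 0 ↔ ν s ≠ 0 := by
  rcases le_or_gt (ν s) δ with k | k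
  · rw [mv_small k]
  · exact iff_of_true (hδ.trans_lt (h.big.2 k)).ne' (hδ.trans_lt k).ne'

theorem big_of_mv_ne {s : P} (h : (mv ty δ a ν - ν) s ≠ 0) : δ < ν s :=
  not_le.1 fun k => h (by rw [Pi.sub_apply, mv_small k, sub_self])

theorem OK.sum_mv [Fintype ι] (h : OK ty δ a ν) (ha : ∑ i, a i = 0) :
    ∑ s, mv ty δ a ν s = ∑ s, ν s := by
  rw [← sum_tw ty, ← sum_tw ty]
  simp only [h.tw_mv, Finset.sum_add_distrib, ha, add_zero]

theorem OK.isWt [Fintype ι] [PartialOrder P] (h : OK ty δ a ν) (hδ : 0 ≤ δ) (ha : ∑ i, a i = 0)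
    (hν : IsWt ν) : IsWt (mv ty δ a ν) where
  nonneg s := by
    rcases le_or_gt (ν s) δ with k | k
    · rw [mv_small k]; exact hν.nonneg s
    · exact (hδ.trans_lt (h.big.2 k)).le
  chain := hν.chain.mono fun _ hs => (h.ne hδ).1 hs
  sum := (h.sum_mv ha).trans hν.sum

theorem continuousOn_mv {X : Type*} [TopologicalSpace X] {S : Set X} {f : X → ι → ℝ}
    {g : X → P → ℝ} (hg : ContinuousOn g S) (hf : ∀ i, ContinuousOn (fun x => f x i) S)
    (h : ∀ x ∈ S, ∀ i, nn ty δ (g x) i ≠ 0 ∨ ∀ᶠ y in 𝓝[S] x, f y i = 0) :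
    ContinuousOn (fun x => mv ty δ (f x) (g x)) S := by
  refine continuousOn_pi.2 fun s => ?_
  refine ((continuous_apply s).comp_continuousOn hg).add (ContinuousOn.mul (fun x hx => ?_)
    (((continuous_apply s).comp (continuous_trc δ)).comp_continuousOn hg))
  rcases h x hx (ty s) with k | k
  · exact (hf _ x hx).div (((continuous_nn ty δ (ty s)).comp_continuousOn hg) x hx) k
  · refine (continuousWithinAt_const (b := (0 : ℝ))).congr_of_eventuallyEq
      (k.mono fun y hy => by simp [hy]) ?_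
    simp [k.self_of_nhdsWithin hx]

end mv

section cmp

variable {P : Type} [Fintype P] [PartialOrder P] (ty : P → Fin 4)

/-- a move between the types `0, 1, 2` -/
def vec (a b : ℝ) : Fin 4 → ℝ := ![-(a + b), a, b, 0]

theorem sum_vec (a b : ℝ) : ∑ i, vec a b i = 0 := by simp [vec, Fin.sum_univ_four]

theorem neg_vec (a b : ℝ) : vec (-a) (-b) = -vec a b := by
  funext i
  fin_cases i <;> simp [vec]
  ring

theorem smul_vec (t a b : ℝ) : t • vec a b = vec (t * a) (t * b) := by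
  funext i
  fin_cases i <;> simp [vec]
  ring

/-- the region -/
def S0 : Set (P → ℝ) := {ν | IsWt ν ∧ tw ty 3 ν = 0 ∧ tw ty 1 ν + tw ty 2 ν ≤ 1 / 6}

/-- the PL disc -/
def Dc (c : ℝ) : Set (P → ℝ) := {ν | IsWt ν ∧ tw ty 3 ν = 0 ∧ tw ty 1 ν = c ∧ tw ty 2 ν ≤ c}

/-- its boundary -/
def dDc (c : ℝ) : Set (P → ℝ) := {ν | ν ∈ Dc ty c ∧ tw ty 2 ν = c}

variable {ty}

theorem tw_zero {ν : P → ℝ} (h : IsWt ν) :
    tw ty 0 ν = 1 - tw ty 1 ν - tw ty 2 ν - tw ty 3 ν := by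
  have := sum_tw ty ν
  rw [h.sum, Fin.sum_univ_four] at this
  linarith

theorem ok_vec {δ η a b : ℝ} (hδ : 0 ≤ δ) (hη : Fintype.card P * δ ≤ η) (h1 : η < 1 / 100)
    {ν : P → ℝ} (hν : ν ∈ S0 ty) (ha : |a| ≤ η) (hb : |b| ≤ η) (k1 : 2 * η < tw ty 1 ν)
    (k2 : b = 0 ∨ 2 * η < tw ty 2 ν) : OK ty δ (vec a b) ν := by
  have e0 := tw_zero (ty := ty) hν.1
  have e1 := hν.2.1
  have e2 := hν.2.2
  have l := le_nn ty hδ ν
  have h0 := (abs_nonneg a).trans ha
  rw [abs_le] at ha hb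
  intro i
  fin_cases i
  · have := l 0
    exact Or.inr ⟨by simp only [Fin.zero_eta]; linarith, by
      simp only [Fin.zero_eta, vec, Matrix.cons_val_zero]; linarith⟩
  · have := l 1
    exact Or.inr ⟨by simp only [Fin.mk_one]; linarith, by
      simp only [Fin.mk_one, vec, Matrix.cons_val_one, Matrix.cons_val_zero]; linarith⟩
  · have := l 2
    exact k2.imp (fun k => k) fun k => ⟨by show 0 < nn ty δ ν 2; linarith, by
      show 0 < nn ty δ ν 2 + b; linarith⟩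
  · exact Or.inl rfl

/-- cut off -/
def cut (c x : ℝ) : ℝ := max 0 (min 1 (4 * x / c - 2))

theorem cut_mem (c x : ℝ) : 0 ≤ cut c x ∧ cut c x ≤ 1 :=
  ⟨le_max_left _ _, max_le zero_le_one (min_le_left _ _)⟩

theorem cut_zero {c x : ℝ} (hc : 0 < c) (h : x ≤ c / 2) : cut c x = 0 :=
  max_eq_left ((min_le_right _ _).trans (by rw [sub_nonpos, div_le_iff₀ hc]; linarith))

theorem cut_one {c x : ℝ} (hc : 0 < c) (h : 3 * c / 4 ≤ x) : cut c x = 1 := by
  rw [cut, min_eq_left (by rw [le_sub_iff_add_le, le_div_iff₀ hc]; linarith), max_eq_right zero_le_one]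

theorem continuous_cut (c : ℝ) : Continuous (cut c) := by unfold cut; fun_prop

theorem cut_lip {c : ℝ} (hc : 0 < c) (x y : ℝ) : |cut c x - cut c y| ≤ 4 / c * |x - y| := by
  refine (abs_max_sub_max_le_max _ _ _ _).trans (max_le (by simpa using by positivity)
    ((abs_min_sub_min_le_max _ _ _ _).trans (max_le (by simpa using by positivity) (le_of_eq ?_))))
  rw [show 4 * x / c - 2 - (4 * y / c - 2) = 4 / c * (x - y) by ring, abs_mul,
    abs_of_pos (by positivity)]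

theorem cut_inj {c κ x y : ℝ} (hc : 0 < c) (hκ : 8 * |κ| < c)
    (h : x - cut c x * κ = y - cut c y * κ) : x = y := by
  by_contra hn
  have h1 : 0 < |x - y| := abs_pos.2 (sub_ne_zero.2 hn)
  have h2 : |x - y| = |cut c x - cut c y| * |κ| := by
    rw [← abs_mul]; congr 1; linarith
  have h3 := mul_le_mul_of_nonneg_right (cut_lip hc x y) (abs_nonneg κ)
  have h4 : 4 / c * |κ| < 1 := by
    rw [div_mul_eq_mul_div, div_lt_one hc]; linarith [abs_nonneg κ]
  nlinarith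

theorem abs_cut_mul (c x κ : ℝ) : |cut c x * κ| ≤ |κ| := by
  rw [abs_mul, abs_of_nonneg (cut_mem c x).1]
  exact mul_le_of_le_one_left (abs_nonneg _) (cut_mem c x).2

/-- **comparison of the PL disc with a perturbed one** -/
theorem exists_cmp {δ η c : ℝ} (hδ : 0 ≤ δ) (hη : Fintype.card P * δ ≤ η) (h8 : 8 * η < c)
    (hc : c ≤ 1 / 14) {k1 k2 : (P → ℝ) → ℝ} (c1 : ContinuousOn k1 (S0 ty))
    (c2 : ContinuousOn k2 (S0 ty)) (b1 : ∀ ν ∈ S0 ty, |k1 ν| ≤ η) (b2 : ∀ ν ∈ S0 ty, |k2 ν| ≤ η)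
    (inv : ∀ ν ∈ S0 ty, ∀ a b, OK ty δ (vec a b) ν → mv ty δ (vec a b) ν ∈ S0 ty →
      k1 (mv ty δ (vec a b) ν) = k1 ν ∧ k2 (mv ty δ (vec a b) ν) = k2 ν) :
    ∃ G : (P → ℝ) → P → ℝ, ContinuousOn G (Dc ty c) ∧ InjOn G (Dc ty c) ∧
      G '' Dc ty c = {ν | ν ∈ S0 ty ∧ tw ty 1 ν + k1 ν = c ∧ tw ty 2 ν + k2 ν ≤ c} ∧
      ∀ ν ∈ Dc ty c, tw ty 2 (G ν) + k2 (G ν) = c ↔ tw ty 2 ν = c := by
  have η0 : 0 ≤ η := (mul_nonneg (Nat.cast_nonneg _) hδ).trans hη
  have c0 : 0 < c := by linarith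
  have h1 : η < 1 / 100 := by linarith
  have sub : Dc ty c ⊆ S0 ty := fun ν h => ⟨h.1, h.2.1, by linarith [h.2.2.1, h.2.2.2]⟩
  let f : (P → ℝ) → Fin 4 → ℝ := fun ν => vec (-k1 ν) (-(cut c (tw ty 2 ν) * k2 ν))
  have ok : ∀ ν ∈ Dc ty c, OK ty δ (f ν) ν := fun ν h =>
    ok_vec hδ hη h1 (sub h) (by rw [abs_neg]; exact b1 ν (sub h))
      (by rw [abs_neg]; exact (abs_cut_mul _ _ _).trans (b2 ν (sub h))) (by linarith [h.2.2.1])
      ((le_or_gt (tw ty 2 ν) (c / 2)).imp (fun k => by simp [cut_zero c0 k]) fun k => by linarith)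
  have t1 : ∀ ν ∈ Dc ty c, tw ty 1 (mv ty δ (f ν) ν) = c - k1 ν := fun ν h => by
    rw [(ok ν h).tw_mv, h.2.2.1]; rfl
  have t2 : ∀ ν ∈ Dc ty c, tw ty 2 (mv ty δ (f ν) ν) = tw ty 2 ν - cut c (tw ty 2 ν) * k2 ν :=
    fun ν h => by rw [(ok ν h).tw_mv]; rfl
  have m0 : ∀ ν ∈ Dc ty c, mv ty δ (f ν) ν ∈ S0 ty := fun ν h =>
    ⟨(ok ν h).isWt hδ (sum_vec _ _) h.1, by rw [(ok ν h).tw_mv, h.2.1]; exact add_zero _, by
      have a1 := abs_le.1 (b1 ν (sub h))
      have a2 := abs_le.1 ((abs_cut_mul c (tw ty 2 ν) _).trans (b2 ν (sub h)))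
      rw [t1 ν h, t2 ν h]
      linarith [h.2.2.2, a1.1, a2.1]⟩
  have iv := fun ν h => inv ν (sub h) _ _ (ok ν h) (m0 ν h)
  have key : ∀ x κ : ℝ, |κ| ≤ η → (3 * c / 4 ≤ x ∧ x - cut c x * κ + κ = x) ∨
      (x < c ∧ x - cut c x * κ + κ < c) := fun x κ hκ => by
    rcases le_or_gt (3 * c / 4) x with k | k
    · exact Or.inl ⟨k, by rw [cut_one c0 k]; ring⟩
    · have := abs_le.1 ((abs_cut_mul c x κ).trans hκ)
      have := abs_le.1 hκ
      exact Or.inr ⟨by linarith, by linarith⟩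
  refine ⟨fun ν => mv ty δ (f ν) ν, ?_, fun ν h ν' h' e => ?_, Subset.antisymm ?_ fun μ h => ?_,
    fun ν h => ?_⟩
  · have d2 : ContinuousOn (fun ν => -(cut c (tw ty 2 ν) * k2 ν)) (Dc ty c) :=
      (((continuous_cut c).comp (continuous_tw ty 2)).continuousOn.mul (c2.mono sub)).neg
    refine continuousOn_mv continuousOn_id (fun i => ?_) fun ν h i => ?_
    · fin_cases i
      exacts [((c1.mono sub).neg.add d2).neg, (c1.mono sub).neg, d2, continuousOn_const]
    · have l := le_nn ty hδ ν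
      have e0 := tw_zero (ty := ty) h.1
      fin_cases i
      · exact Or.inl (ne_of_gt (show 0 < nn ty δ ν 0 by linarith [l 0, h.2.1, h.2.2.1, h.2.2.2]))
      · exact Or.inl (ne_of_gt (show 0 < nn ty δ ν 1 by linarith [l 1, h.2.2.1]))
      · rcases lt_or_ge (tw ty 2 ν) (c / 2) with k | k
        · refine Or.inr (mem_nhdsWithin_of_mem_nhds
            (((continuous_tw ty 2).continuousAt.eventually_lt continuousAt_const k).mono
              fun μ hμ => ?_))
          show -(cut c (tw ty 2 μ) * k2 μ) = 0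
          simp [cut_zero c0 hμ.le]
        · exact Or.inl (ne_of_gt (show 0 < nn ty δ ν 2 by linarith [l 2]))
      · exact Or.inr (Eventually.of_forall fun _ => rfl)
  · have e' : mv ty δ (f ν) ν = mv ty δ (f ν') ν' := e
    have q1 : k1 ν = k1 ν' := by rw [← (iv ν h).1, ← (iv ν' h').1]; exact congrArg k1 e'
    have q2 : k2 ν = k2 ν' := by rw [← (iv ν h).2, ← (iv ν' h').2]; exact congrArg k2 e'
    have q3 : tw ty 2 ν = tw ty 2 ν' := cut_inj (κ := k2 ν) c0 (by linarith [b2 ν (sub h)]) (by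
      rw [← t2 ν h, e', t2 ν' h', q2])
    have q : f ν = f ν' := by simp only [f, q1, q2, q3]
    rw [← (ok ν h).mv_neg, e', q, (ok ν' h').mv_neg]
  · rintro _ ⟨ν, h, rfl⟩
    refine ⟨m0 ν h, by rw [t1 ν h, (iv ν h).1]; ring, ?_⟩
    rw [t2 ν h, (iv ν h).2]
    rcases key _ _ (b2 ν (sub h)) with k | k
    exacts [k.2.le.trans h.2.2.2, k.2.le]
  · obtain ⟨h0, e1, e2⟩ := h
    have a1 := abs_le.1 (b1 μ h0)
    have a2 := abs_le.1 (b2 μ h0)
    have a3 := fun x => (abs_cut_mul c x _).trans (b2 μ h0)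
    obtain ⟨x, hx, ex⟩ : tw ty 2 μ ∈ (fun x => x - cut c x * k2 μ) ''
        Icc (tw ty 2 μ - η) (tw ty 2 μ + η) :=
      intermediate_value_Icc (f := fun x => x - cut c x * k2 μ) (by linarith)
        (continuous_id.sub ((continuous_cut c).mul continuous_const)).continuousOn
        ⟨by linarith [(abs_le.1 (a3 (tw ty 2 μ - η))).1], by linarith [(abs_le.1 (a3 (tw ty 2 μ + η))).2]⟩
    have ex' : x - cut c x * k2 μ = tw ty 2 μ := ex
    have o : OK ty δ (vec (k1 μ) (cut c x * k2 μ)) μ :=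
      ok_vec hδ hη h1 h0 (b1 μ h0) (a3 x) (by linarith)
        ((le_or_gt x (c / 2)).imp (fun k => by simp [cut_zero c0 k]) fun k => by linarith [hx.2])
    have u1 : tw ty 1 (mv ty δ (vec (k1 μ) (cut c x * k2 μ)) μ) = c := by rw [o.tw_mv]; exact e1
    have u2 : tw ty 2 (mv ty δ (vec (k1 μ) (cut c x * k2 μ)) μ) = x := by
      rw [o.tw_mv, ← ex']; exact sub_add_cancel _ _
    have hD : mv ty δ (vec (k1 μ) (cut c x * k2 μ)) μ ∈ Dc ty c :=
      ⟨o.isWt hδ (sum_vec _ _) h0.1, by rw [o.tw_mv, h0.2.1]; exact add_zero _, u1, by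
        rw [u2]
        rcases key x _ (b2 μ h0) with k | k
        · rw [← k.2, ex']; exact e2
        · exact k.1.le⟩
    obtain ⟨i1, i2⟩ := inv μ h0 _ _ o (sub hD)
    refine ⟨_, hD, ?_⟩
    simp only [f, i1, i2, u2, neg_vec]
    exact o.mv_neg
  · rw [t2 ν h, (iv ν h).2]
    rcases key (tw ty 2 ν) _ (b2 ν (sub h)) with k | k
    · rw [k.2]
    · exact iff_of_false k.2.ne k.1.ne

end cmp

end Crest.Agent.X212.Sm10
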