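import Crest.Agent.X212.Sm10.Mv3a

/-!
# X212 / Sm10 (helper10): KH-MV3, `Mv3Stmt`
-/

set_option autoImplicit false
set_option linter.unusedSectionVars false

open Finset Classical

noncomputable section

namespace Crest.Agent.X212.Sm10.Mv

open Hp13 hiding sub_cl cl_low om_low cl_mono exOn_pb exOn_add exOn_neg exOn_congr dp_iff coc_iff
open Hk
open Alg36 (Om Esc mix Clo)
open Kh11 (WS CE)
open Cut21 (bt le_bt)

variable {P R : Type} [PartialOrder P] [Fintype P] [PartialOrder R]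
  {X Y G H K A B D Z N X' U V : Set P} {w u : P → P → ℤ} {car : P → R} {t t' : St}

/-- it is enough to look at discs that miss a given disc of `G` -/
theorem inc_of_flat (sl : SlStmt) (hs : Sub Y X) (hG : Bd X G) (hD : IsLowerSet D) (s : D ⊆ G)
    (c : Ctr D) (h : ∀ t f, Tw P t f → ∀ w, TD (f ⁻¹' X) w → On (f ⁻¹' X) (f ⁻¹' G) w →
      Flat (f ⁻¹' D) w → Ines (f ⁻¹' G) w) : INC X G := fun t f tw w td on => by
  rcases sl _ _ _ _ (f ⁻¹' D) w (tw_sub tw hs) (tw_bd tw hG) (hD.preimage (tw_mono tw))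
    (Set.preimage_mono s) (cmp_ctr (tw_ctr tw c)) td on with k | ⟨t', g, w', tr, fl⟩
  · exact k
  · have o := tr_on tr (tw_rg tw hs.toRg).up (tw_bd tw hG)
      (Set.disjoint_left.2 fun _ a b => a.2 (s b)) on
    exact tr.ines _ (tw_bd tw hG) on (h t' (f ∘ g) (tw_trans tw tr.tw) w' tr.td o fl)

theorem d_sub (h : Opn X G N) : mvD X N ⊆ t2 ⁻¹' N := fun _ ⟨⟨a, x, b, k⟩, _⟩ =>
  h.up x k _ a (le_t2 b)

theorem g_sub (h : Opn X G N) : mvG X G N ⊆ t2 ⁻¹' (X ∪ G) := fun _ a =>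
  a.elim (fun a => Or.inr a.1) fun a => h.sub (d_sub h a)

theorem h_d (hG : Bd X G) {c : Ch (Ch P)} (a : c ∈ mvH G N) (b : ∃ x ∈ c.bot.1, x ∉ N) :
    c ∈ mvD X N := ⟨⟨hG.sub_cl a.1, a.2⟩, b⟩

/-- exchange of `mvH` and `mvD` -/
theorem dx_lv (dx : DxStmt) (m2 : Mv2Stmt) (hX : Rg X) (hG : Bd X G) (hN : Bl X G N)
    {φ : t.P → Ch (Ch P)} (T : Tw (Ch (Ch P)) t φ) {w₁ w₂ : t.P → t.P → ℤ}
    (e : EqE (φ ⁻¹' mvK G N) w₁ w₂) (h1 : Flat (φ ⁻¹' mvH G N) w₁) (h2 : Flat (φ ⁻¹' mvD X N) w₂)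
    (h : Ines ((t2 ∘ φ) ⁻¹' G) w₁) : Ines (φ ⁻¹' mvG X G N) w₂ := by
  obtain ⟨cD, cH, ee, cn, ne, -⟩ := (m2 P X G N hX hG).1 hN
  have m := tw_mono T
  refine dx _ (φ ⁻¹' mvK G N) (φ ⁻¹' mvH G N) (φ ⁻¹' mvD X N) w₁ w₂ ((mvK_low hG.low).preimage m)
    ((mvH_low hG.low).preimage m) (mvD_low.preimage m) (tw_ctr T cH) (tw_ctr T cD)
    (congrArg (φ ⁻¹' ·) ee.symm) (tw_conn T cn :) (tw_ne T ne :) e h1 h2 ?_
  rwa [← Set.preimage_union, mvK_union_mvH]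

theorem inc1 (sl : SlStmt) (ex : ExtStmt) (dx : DxStmt) (m1 : Mv1Stmt) (m2 : Mv2Stmt)
    (hs : Sub Y X) (hG : Bd X G) (hN : Bl X G N) (h : INC X G) : INC (mvX X N) (mvG X G N) := by
  obtain ⟨r1, b1, c1, o1, -⟩ := m1 P X G N hs.toRg hG hN.toOpn
  refine inc_of_flat (Y := t2 ⁻¹' Y) sl ⟨r1, tw_amb tw2 hs.amb, fun c a => hs.sub a.1⟩ b1 mvD_low
    (fun _ => Or.inr) ((m2 P X G N hs.toRg hG).1 hN).1 fun t φ T w td on fl => ?_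
  have m := tw_mono T
  have c2 : cl (φ ⁻¹' mvX X N) = φ ⁻¹' mvK (cl X) N := by rw [tw_cl T, c1]
  have o2 : Om (φ ⁻¹' mvX X N) = φ ⁻¹' (mvG X G N ∪ t2 ⁻¹' (Om X \ G)) := by rw [tw_om T, o1]
  have td' := ((ex _ ((t2 ∘ φ) ⁻¹' X) (φ ⁻¹' mvX X N) (φ ⁻¹' mvD X N)
    (hs.up.preimage (t2_mono.comp m)) (r1.up.preimage m) (fun _ a => a.1) (mvD_low.preimage m)
    (fun x ⟨a, b⟩ => by
      rw [o2] at a
      rcases a with (a | a) | a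
      exacts [absurd b (hG.not a.1), a, absurd b a.1.1])
    fun y a v b l k => by
      rw [c2] at a k
      rw [tw_cl (tw_t2 T)] at b
      have j : (φ v).bot.bot ∈ N := by_contra fun j => k ⟨b, _, (φ v).bot.bot_mem, j⟩
      exact ⟨⟨a.1, _, Ch.bot_anti (m l) (φ v).bot.bot_mem, j⟩, a.2⟩).2 w
        (fl.mono Set.inter_subset_left)).2.2.1 td
  refine dx_lv dx m2 hs.toRg hG hN T (fun x _ y b _ => if_pos ?_) (fun x a y b l => ?_) fl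
    (h t _ (tw_t2 T) _ td' fun x a y b l => ?_)
  · rw [c2]; exact ⟨hG.sub_cl b.1, b.2⟩
  · refine ite_eq_right_iff.2 fun k => ?_
    rw [c2] at k
    have := h_d hG b k.2
    exact fl x (mvD_low (m l) this) y this l
  · have k : ∀ z ∈ Om ((t2 ∘ φ) ⁻¹' X) \ (t2 ∘ φ) ⁻¹' G,
        z ∈ Om (φ ⁻¹' mvX X N) \ φ ⁻¹' mvG X G N := fun z j => by
      rw [tw_om (tw_t2 T)] at j
      rw [o2]
      exact ⟨Or.inr j, fun i => (g_sub hN.toOpn i).elim j.1.1 j.2⟩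
    exact ite_eq_right_iff.2 fun _ => on x (k x a) y (k y b) l

/-- the old disc as a surface of the grown side -/
structure Old (H X : Set P) : Prop where
  low : IsLowerSet H
  mf : MfIn H X
  ctr : Ctr (H ∩ X)
  ne : ∃ x ∈ H, ∃ y ∈ H ∩ X, x ∉ X ∧ x ≤ y
  sub : H ⊆ cl X

theorem hy_iff (h : Two car Y X G X') (s : G ⊆ Y) {c : Ch (Ch P)} (a : t2 c ∈ G) :
    c ∈ mvY Y X' N ↔ ∀ x ∈ c.bot.1, x ∈ N :=
  ⟨fun b => (b.resolve_left fun j => Set.disjoint_left.1 h.dg j a).2, fun b => Or.inr ⟨s a, b⟩⟩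

theorem old (rv : RevStmt) (nm : NmStmt) (m2 : Mv2Stmt) (hX : Rg X) (h : Two car Y X G X')
    (s : G ⊆ Y) (hN : Bl X G N) : Old (mvH G N) (mvY Y X' N) := by
  have hG := h.bd
  have ab : ∀ c ∈ mvH G N, ∃ d ∈ mvH G N ∩ mvY Y X' N, c ≤ d := fun c ⟨a, x, b, k⟩ => by
    have l : Ch.pt x ≤ c.bot := Ch.pt_le.2 b
    have e : t2 (bt c (Ch.pt x) l) = t2 c := by simp
    exact ⟨bt c (Ch.pt x) l, ⟨⟨e ▸ a, x, by simp, k⟩, (hy_iff h s (e ▸ a)).2 (by simpa using k)⟩,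
      le_bt _ _ _⟩
  refine ⟨mvH_low hG.low, mfIn_of (tw_mfIn tw2 hG.low (bd_mfIn nm hX hG)) (fun _ a => a.1)
    (fun _ _ => trivial) fun c a d b l => l.elim (fun l => ⟨b, _, d.bot.bot_mem,
      (hy_iff h s a.1.1).1 a.2 _ (Ch.bot_anti l d.bot.bot_mem)⟩) fun l => mvH_low hG.low l a.1,
    ?_, ?_, fun c a => let ⟨d, b, l⟩ := ab c a; ⟨d, b.2, l⟩⟩
  · have k := ((rv (Ch P) ∅ 0 isUpperSet_empty ⟨cocOn_zero, fun _ _ _ _ => le_rfl,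
      fun _ _ _ _ => zero_le_one⟩).2.2.2.2.2.2.1 (Ch.top ⁻¹' G) (Kh11.In (N ∩ G) Set.univ)
      (hG.low.preimage Ch.top_mono) fun c a => (a.1 _ c.top_mem).2).2
      ((Kh11.ws_top _).ctr_iff.2 hN.ctr)
    convert k using 1
    exact Set.ext fun c => ⟨fun a => ⟨a.1.1, fun x j => ⟨(hy_iff h s a.1.1).1 a.2 x j,
      hG.low (le_t2 j) a.1.1⟩, trivial⟩, fun a => ⟨⟨a.1, _, c.bot.bot_mem,
        (a.2.1 _ c.bot.bot_mem).1⟩, (hy_iff h s a.1).2 fun x j => (a.2.1 x j).1⟩⟩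
  · obtain ⟨c, a, b⟩ := ((m2 P X G N hX hG).1 hN).2.2.2.2.1
    obtain ⟨d, k, l⟩ := ab c b
    obtain ⟨x, i, j⟩ := a.2
    exact ⟨c, b, d, k, fun m => j ((hy_iff h s a.1).1 m x i), l⟩

theorem h_not (h : Two car Y X G X') (s : G ⊆ Y) {c : Ch (Ch P)} (a : c ∈ mvH G N)
    (b : c ∉ mvY Y X' N) : c ∈ mvD X N :=
  h_d h.bd a (by simpa [hy_iff h s a.1] using b)

theorem inc2 (rv : RevStmt) (nm : NmStmt) (sl : SlStmt) (dx : DxStmt) (ic : IcStmt)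
    (ta : TraDStmt) (m1 : Mv1Stmt) (m2 : Mv2Stmt) (hs : Sub Y X) (hN : Bl X G N)
    (h : Two car Y X G X') (s : G ⊆ Y) (hi : INC X' G) : INC (mvY Y X' N) (mvG X G N) := by
  have hG := h.bd
  have hY := hs.amb
  have Y2 := tw_amb tw2 hY
  have s2 : mvG X G N ⊆ t2 ⁻¹' Y := fun c a => (g_sub hN.toOpn a).elim (fun j => h.sub j) fun j => s j
  have h2 := two_symm ((m1 P X G N hs.toRg hG hN.toOpn).2.2.2.2.2 R car Y X' hY.up h) Y2.up s2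
  have S2 : Sub (t2 ⁻¹' Y) (mvY Y X' N) := ⟨two_rg h2 Y2.toRg s2, Y2, h2.sub⟩
  have r' := two_rg (two_symm h hY.up s) hY.toRg s
  have o := old rv nm m2 hs.toRg h s hN
  refine inc_of_flat sl S2 h2.bd mvD_low (fun _ => Or.inr) ((m2 P X G N hs.toRg hG).1 hN).1
    fun t₀ φ₀ T₀ w₀ td₀ on₀ fl₀ => ?_
  obtain ⟨t, g, w, tr, nc⟩ := ta _ _ _ _ (φ₀ ⁻¹' mvH G N) w₀ (tw_sub T₀ S2) (tw_sub T₀ S2).up
    subset_rfl (o.low.preimage (tw_mono T₀)) (tw_mfIn T₀ o.low o.mf) td₀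
  refine tr.ines _ (tw_bd T₀ h2.bd) on₀ ?_
  have T := tw_trans T₀ tr.tw
  have on : On ((φ₀ ∘ g) ⁻¹' mvY Y X' N) ((φ₀ ∘ g) ⁻¹' mvG X G N) w := (tr_on tr (tw_sub T₀ S2).up
    (tw_bd T₀ h2.bd) (Set.disjoint_left.2 fun _ a b => a.1.1 b.2) on₀ :)
  have fl : Flat ((φ₀ ∘ g) ⁻¹' mvD X N) w := (tr.flat _ (mvD_low.preimage (tw_mono T₀))
    (Set.disjoint_left.2 fun _ a b => h2.bd.not (Or.inr a) b.2)
    (fl₀.mono Set.inter_subset_left)).mono fun _ a =>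
      ⟨a, (tw_bd T₀ h2.bd).sub_cl (Or.inr a)⟩
  have td : TD ((φ₀ ∘ g) ⁻¹' mvY Y X' N) w := tr.td
  have fH : Flat ((φ₀ ∘ g) ⁻¹' mvH G N) w := ((ic _).2.1 _ _ S2.up o.low o.mf o.ctr o.ne t _ T w
    (Or.inl td) (fl.mono fun _ a => h_not h s a.1 a.2.1) nc).mono fun _ a => ⟨a, o.sub a⟩
  show Ines ((φ₀ ∘ g) ⁻¹' mvG X G N) w
  generalize φ₀ ∘ g = φ at T on fl td fH
  have m := tw_mono T
  have ru := tw_rg T S2.toRg
  -- the disc lies in `X'`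
  have sd : ∀ c ∈ CA (φ ⁻¹' mvY Y X' N) w, t2 (φ c.top) ∉ X' → t2 (φ c.top) ∈ X := fun c a b =>
    have k := a.1.resolve_left b
    (h.cov _ k.1).resolve_right fun j => b (j.resolve_left fun j =>
      have : φ c.top ∈ mvH G N := ⟨j, _, (φ c.top).bot.bot_mem, k.2 _ (φ c.top).bot.bot_mem⟩
      a.2.ne' (fH _ (o.low (m c.bot_le_top) this) _ this c.bot_le_top))
  have i : ∀ c ∈ CA (φ ⁻¹' mvY Y X' N) w, c.top ∈ (t2 ∘ φ) ⁻¹' X' := fun c a => by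
    obtain ⟨q, b⟩ := td.ne
    obtain ⟨d, k, l⟩ := Cut21.ex_ca ru.up (td.toS1.z1 ru.up) ((Cut21.cv_om ru.up).1 b).1
    rw [on.cv (tw_bd T h2.bd)] at b
    have j : t2 (φ d.top) ∈ X' := by_contra fun j => by
      have l' := m (Ch.top_mono l)
      have : φ q.top ∈ mvD X N := (b.1 _ q.top_mem).elim (fun i => h_d hG ⟨i.1, _,
        Ch.bot_anti l' (φ d.top).bot.bot_mem, (k.1.resolve_left j).2 _ (φ d.top).bot.bot_mem⟩ i.2) id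
      exact b.2.ne' (fl _ (mvD_low (m q.bot_le_top) this) _ this q.bot_le_top)
    exact (td.conn d k c a).ind (p := fun c => t2 (φ c.top) ∈ X') j fun p hp _ _ l =>
      ⟨h.up' (t2_mono (m (Ch.top_mono l))), fun j => by_contra fun i =>
        Set.disjoint_left.1 h.dj (h.up (t2_mono (m (Ch.top_mono l))) (sd p hp i)) j⟩
  refine dx_lv dx m2 hs.toRg hG hN T EqE.rfl fH fl (hi t _ (tw_t2 T) w
    (td_res ru (tw_rg (tw_t2 T) r') (fun _ => Or.inl) td i) (Flat.mono on fun z j => ?_))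
  rw [tw_om (tw_t2 T)] at j
  have k : t2 (φ z) ∉ Y := fun k => by
    obtain ⟨⟨j1, v, j2, j3⟩, j4⟩ := j
    rcases h.cov _ k with e | e | e
    exacts [Set.disjoint_left.1 h.dj (h.up j3 e) j2, j4 e, j1 e]
  refine ⟨⟨fun e => k (h2.sub e), cl_mono (X := (t2 ∘ φ) ⁻¹' X') (fun _ => Or.inl) ?_⟩,
    fun e => k (s2 e)⟩
  rw [tw_cl (tw_t2 T)]; exact j.1.2

theorem nb3 (rv : RevStmt) (nm : NmStmt) (ci : CircStmt) (ts : TraSStmt) (m1 : Mv1Stmt)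
    (m2 : Mv2Stmt) (hs : Sub Y X) (hN : Bl X G N) (h : Two car Y X G X') (s : G ⊆ Y)
    (cn : Conn G) (nb : NB Y G) : NB (t2 ⁻¹' Y) (mvG X G N) := fun t₀ φ₀ T₀ B₀ hB₀ s₀ => by
  have hG := h.bd
  have hY := hs.amb
  have h2 := (m1 P X G N hs.toRg hG hN.toOpn).2.2.2.2.2 R car Y X' hY.up h
  obtain ⟨-, cH, -, -, ⟨c, c1, c2⟩, -, cG, -⟩ := (m2 P X G N hs.toRg hG).1 hN
  have o := old rv nm m2 hs.toRg h s hN
  have m₀ := tw_mono T₀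
  obtain ⟨t, g, B, tw, hB, sB, nc⟩ := ts _ _ (φ₀ ⁻¹' mvY Y X' N) (φ₀ ⁻¹' mvH G N) B₀ _
    (tw_amb T₀ (tw_amb tw2 hY)) (h2.up'.preimage m₀) (Set.preimage_mono h2.sub') (o.low.preimage m₀)
    (tw_mfIn T₀ o.low o.mf) hB₀ (h2.bd.low.preimage m₀) (tw_conn T₀ (cG cn))
    (Set.disjoint_left.2 fun _ a b => Set.disjoint_left.1 h2.dg b.2 a) s₀
  have T := tw_trans T₀ tw
  refine nb t _ (tw_t2 T) B hB ?_
  change (φ₀ ∘ g) ⁻¹' mvG X G N ⊆ B at sB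
  change NoCap ((φ₀ ∘ g) ⁻¹' mvH G N) ((φ₀ ∘ g) ⁻¹' mvY Y X' N) _ at nc
  generalize φ₀ ∘ g = φ at T sB nc
  have m := tw_mono T
  have s1 : S1 (φ ⁻¹' mvY Y X' N) (cb (ind B)) := s1_ind fun _ a _ _ l => hB.up l a
  have fl : Flat (φ ⁻¹' mvH G N ∩ cl (φ ⁻¹' mvY Y X' N)) (cb (ind B)) :=
    (s1.cv_empty Set.inter_subset_right).1 (by_contra fun k => by
      obtain ⟨x, x1, y, y1, x2, l⟩ := o.ne
      refine ci _ _ _ _ _ (h2.up'.preimage m) (o.low.preimage m) (tw_mfIn T o.low o.mf)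
        (tw_ctr T o.ctr :) ?_ s1 (Set.nonempty_iff_ne_empty.2 k) ⟨subset_rfl, fun _ _ _ a _ => a⟩
        (fun q a => by_contra fun j => (cb_ind_pos.1 a.2).1 (sB (Or.inr (mvD_low
          (m q.bot_le_top) (h_not h s (a.1 _ q.top_mem).1 j))))) nc
      obtain ⟨d, e⟩ := (Desc.ce T).lift (Ch.pr x y l)
      have e1 : φ d.bot = x := by rw [← Ch.bot_img m, e, Ch.bot_pr]
      have e2 : φ d.top = y := by rw [← Ch.top_img m, e, Ch.top_pr]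
      subst e1 e2
      exact ⟨d.bot, x1, d.top, y1, x2, d.bot_le_top⟩)
  have fH : Flat (φ ⁻¹' mvH G N) (cb (ind B)) := fl.mono fun _ a => ⟨a, tw_cl T ▸ o.sub a⟩
  obtain ⟨x, rfl⟩ := Desc.surj T c
  have := (fH.sub_or (tw_conn T cH.conn)).resolve_right fun k =>
    Set.disjoint_left.1 k c2 (sB (Or.inl c1))
  intro z a
  have k : φ z ∈ mvK G N ∪ mvH G N := by rw [mvK_union_mvH]; exact a
  exact k.elim (fun j => sB (Or.inl j)) fun j => this j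

theorem mv3Stmt (rv : RevStmt) (nm : NmStmt) (dx : DxStmt) (ex : ExtStmt) (ci : CircStmt)
    (ic : IcStmt) (sl : SlStmt) (ts : TraSStmt) (m1 : Mv1Stmt) (m2 : Mv2Stmt) : Mv3Stmt :=
  fun _ _ _ _ _ _ _ hs hG hN => ⟨inc1 sl ex dx m1 m2 hs hG hN, fun _ _ _ _ h s =>
    ⟨inc2 rv nm sl dx ic (traDStmt rv) m1 m2 hs hN h s, nb3 rv nm ci ts m1 m2 hs hN h s⟩⟩

end Crest.Agent.X212.Sm10.Mv
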