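import Crest.Agent.X212.Sf30.P2Bas

/-!
# X212 / Sm10 (helper10): P2-FIN, part a: a disc system cut by a two sided band
-/

set_option autoImplicit false
set_option linter.unusedSectionVars false

open Finset Classical

noncomputable section

namespace Crest.Agent.X212.Sm10

open Crest.Agent.X212.Hp13 Alg36 Cut21 Pt30
open Sf30 hiding Inn

variable {P : Type} [PartialOrder P] [Fintype P] {M U : Set P} {e z : P → P → ℤ}
  {S C D V : Set (Ch P)} {c d : Ch P}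

/-- signed count -/
def sc (S : Set (Ch P)) : ℤ := ∑ c, ind S c * c.sg

/-- count -/
def nc (S : Set (Ch P)) : ℤ := ∑ c, ind S c

theorem sum_set (p : Ch P → Prop) [DecidablePred p] (h : ∀ c, p c ↔ c ∈ S) (f : Ch P → ℤ) :
    ∑ c ∈ univ.filter p, f c = ∑ c, ind S c * f c := by
  rw [sum_filter]; exact sum_congr rfl fun c _ => by by_cases a : c ∈ S <;> simp [ind, h, a]

theorem sc_eq (p : Ch P → Prop) [DecidablePred p] (h : ∀ c, p c ↔ c ∈ S) :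
    ∑ c ∈ univ.filter p, c.sg = sc S := sum_set p h _

theorem nc_eq (p : Ch P → Prop) [DecidablePred p] (h : ∀ c, p c ↔ c ∈ S) :
    ((univ.filter p).card : ℤ) = nc S := by
  simpa [nc] using sum_set p h fun _ => 1

theorem ind_split (h : C ⊆ S) (c : Ch P) : ind S c = ind C c + ind (S \ C) c := by
  by_cases a : c ∈ C
  · simp [ind, a, h a]
  · by_cases b : c ∈ S <;> simp [ind, a, b]

theorem sc_split (h : C ⊆ S) : sc S = sc C + sc (S \ C) := by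
  simp only [sc, ind_split h, add_mul, sum_add_distrib]

theorem nc_split (h : C ⊆ S) : nc S = nc C + nc (S \ C) := by
  simp only [nc, ind_split h, sum_add_distrib]

theorem nc_nonneg (S : Set (Ch P)) : 0 ≤ nc S :=
  sum_nonneg fun c _ => by unfold ind; split_ifs <;> simp

theorem nc_empty (h : ∀ c, c ∉ S) : nc S = 0 := sum_eq_zero fun c _ => ind_of_not (h c)

theorem nc_pos (h : c ∈ S) : 0 < nc S := by
  rw [← nc_eq (· ∈ S) fun _ => Iff.rfl]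
  exact_mod_cast card_pos.2 ⟨c, mem_filter.2 ⟨mem_univ _, h⟩⟩

theorem sum_sc (S : Set (Ch P)) : ∑ C ∈ cs S, sc C = sc S := by
  have := sum_cs S Ch.sg
  rwa [sc_eq (S := S) _ fun _ => Iff.rfl, sum_congr rfl fun C _ => sc_eq (S := C) _ fun _ => Iff.rfl]
    at this

theorem sum_nc (S R : Set (Ch P)) : ∑ C ∈ cs S, nc (C ∩ R) = nc (S ∩ R) := by
  have k : ∀ C : Set (Ch P), ∑ c, ind C c * ind R c = nc (C ∩ R) := fun C =>
    sum_congr rfl fun c _ => by by_cases a : c ∈ C <;> by_cases b : c ∈ R <;> simp [ind, a, b]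
  have := sum_cs S (ind R)
  rwa [sum_set (S := S) _ fun _ => Iff.rfl, k,
    sum_congr rfl fun C _ => (sum_set (S := C) _ (fun _ => Iff.rfl) _).trans (k C)] at this

/-- double counting -/
theorem dbl {R : Set (Ch P)} {a b : ℤ} (hR : R ⊆ S) (h1 : ∀ c ∈ S, sc {d | d ∈ S ∧ c ≤ d} = a)
    (h2 : ∀ d ∈ S, d.sg * sc {c | c ∈ S ∧ c ≤ d} = b * d.sg + ind R d) :
    nc R = (a - b) * sc S := by
  have k : ∑ c, ind S c * (c.sg * sc {d | d ∈ S ∧ c ≤ d}) =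
      ∑ d, ind S d * (d.sg * sc {c | c ∈ S ∧ c ≤ d}) := by
    simp only [sc, mul_sum]
    rw [sum_comm]
    refine sum_congr rfl fun c _ => sum_congr rfl fun d _ => ?_
    by_cases u : c ∈ S <;> by_cases v : d ∈ S <;> by_cases w : d ≤ c <;> simp [ind, u, v, w, mul_comm]
  have k1 : ∑ c, ind S c * (c.sg * sc {d | d ∈ S ∧ c ≤ d}) = a * sc S := by
    rw [sc.eq_1 S, mul_sum]
    refine sum_congr rfl fun c _ => ?_
    by_cases u : c ∈ S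
    · rw [h1 c u]; ring
    · rw [ind_of_not u]; ring
  have k2 : ∑ d, ind S d * (d.sg * sc {c | c ∈ S ∧ c ≤ d}) = b * sc S + nc R := by
    rw [sc.eq_1 S, mul_sum, nc, ← sum_add_distrib]
    refine sum_congr rfl fun c _ => ?_
    by_cases u : c ∈ S
    · rw [h2 c u, ind_of_mem u]; ring
    · rw [ind_of_not u, ind_of_not fun k => u (hR k)]; ring
  linear_combination k1 - k2 - k

theorem sc_faces {f : Ch P → ℤ} (h : ∀ c ≤ d, ind S c = f c) :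
    sc {c | c ∈ S ∧ c ≤ d} = ∑ c ∈ univ.filter (· ≤ d), c.sg * f c := by
  rw [sc, sum_filter]
  refine sum_congr rfl fun c _ => ?_
  by_cases a : c ≤ d
  · rw [if_pos a, ← h c a]; by_cases b : c ∈ S <;> simp [ind, a, b]
  · simp [ind, a]

theorem sc_ge (hM : Mf 3 M) (hc : Mt M c) : sc {d | c ≤ d} = 1 :=
  (sc_eq _ fun _ => Iff.rfl).symm.trans ((hM.eul c hc).trans (by norm_num))

theorem sc_eu (he : Z1 M e) (hM : Mf 3 M) (hS : S ⊆ Mx M e) (hU : IsUpperSet S) : eu S = sc S :=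
  (he.eu_eq hM hS hU).trans (sc_eq _ fun _ => Iff.rfl)

theorem faces3 {X Y Z : Set P} (hX : Mt X d) (hY : Mt Y d) (hZ : Mt Z d) (h1 : Disjoint X Y)
    (h2 : Disjoint X Z) (h3 : Disjoint Y Z) :
    ∑ c ∈ univ.filter (· ≤ d), c.sg * (iMt X c * iMt Y c * iMt Z c) = iMt (X ∪ Y ∪ Z)ᶜ d - 1 := by
  have : ∀ c : Ch P, c.sg * (iMt X c * iMt Y c * iMt Z c) = c.sg - c.sg * iIn Xᶜ c - c.sg * iIn Yᶜ c -
      c.sg * iIn Zᶜ c + c.sg * iIn (Xᶜ ∩ Yᶜ) c + c.sg * iIn (Xᶜ ∩ Zᶜ) c + c.sg * iIn (Yᶜ ∩ Zᶜ) c -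
      c.sg * iIn (X ∪ Y ∪ Z)ᶜ c := fun c => by
    simp only [iMt_eq, Set.compl_union, iIn_inter]; ring
  simp only [this, sum_add_distrib, sum_sub_distrib, sum_iIn, sum_faces]
  obtain ⟨x, a, x1⟩ := hX
  obtain ⟨y, b, y1⟩ := hY
  obtain ⟨w, c, w1⟩ := hZ
  have x2 := Set.disjoint_left.1 h1 x1
  have x3 := Set.disjoint_left.1 h2 x1
  have y2 := Set.disjoint_right.1 h1 y1
  have y3 := Set.disjoint_left.1 h3 y1
  have w2 := Set.disjoint_right.1 h2 w1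
  have w3 := Set.disjoint_right.1 h3 w1
  rw [iMt_of (S := Xᶜ) ⟨y, b, y2⟩, iMt_of (S := Yᶜ) ⟨x, a, x2⟩, iMt_of (S := Zᶜ) ⟨x, a, x3⟩,
    iMt_of (S := Xᶜ ∩ Yᶜ) ⟨w, c, w2, w3⟩, iMt_of (S := Xᶜ ∩ Zᶜ) ⟨y, b, y2, y3⟩,
    iMt_of (S := Yᶜ ∩ Zᶜ) ⟨x, a, x2, x3⟩]
  ring

/-- an open arc system in a three-manifold: the number of ends -/
theorem tri (hM : Mf 3 M) (hS : ∀ c ∈ S, Mt M c) (hU : IsUpperSet S) (X Y Z : Ch P → Set P)
    (h1 : ∀ d, Disjoint (X d) (Y d)) (h2 : ∀ d, Disjoint (X d) (Z d))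
    (h3 : ∀ d, Disjoint (Y d) (Z d))
    (h : ∀ d ∈ S, ∀ c ≤ d, c ∈ S ↔ Mt (X d) c ∧ Mt (Y d) c ∧ Mt (Z d) c) :
    nc {d | d ∈ S ∧ Mt (X d ∪ Y d ∪ Z d)ᶜ d} = 2 * sc S := by
  rw [show (2 : ℤ) = 1 - -1 from rfl]
  refine dbl (fun _ k => k.1) (fun c hc => ?_) fun d hd => ?_
  · rw [← sc_ge hM (hS c hc)]
    exact congrArg _ (Set.ext fun d => ⟨fun k => k.2, fun k => ⟨hU k hc, k⟩⟩)
  · obtain ⟨a, b, c⟩ := (h d hd d le_rfl).1 hd
    rw [sc_faces (f := fun c => iMt (X d) c * iMt (Y d) c * iMt (Z d) c) fun c hc => by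
      unfold ind iMt; rw [h d hd c hc]; split_ifs <;> simp_all, faces3 a b c (h1 d) (h2 d) (h3 d)]
    by_cases m : Mt (X d ∪ Y d ∪ Z d)ᶜ d
    · rw [iMt_of m, ind_of_mem (by exact ⟨hd, m⟩)]
      obtain ⟨x, x0, x1⟩ := a
      obtain ⟨y, y0, y1⟩ := b
      obtain ⟨w, w0, w1⟩ := c
      obtain ⟨v, v0, v1⟩ := m
      have : d.1.card = 4 := le_antisymm (hM.card_le d (hS d hd)) (three_lt_card.2
        ⟨x, x0, y, y0, w, w0, v, v0, fun e => Set.disjoint_left.1 (h1 d) x1 (e ▸ y1),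
          fun e => Set.disjoint_left.1 (h2 d) x1 (e ▸ w1), fun e => v1 (.inl (.inl (e ▸ x1))),
          fun e => Set.disjoint_left.1 (h3 d) y1 (e ▸ w1), fun e => v1 (.inl (.inr (e ▸ y1))),
          fun e => v1 (.inr (e ▸ w1))⟩)
      rw [Ch.sg, this]; norm_num
    · rw [iMt_not m, ind_of_not fun j => m j.2]; ring

/-- the cell has a face on the boundary -/
def Rim (M : Set P) (e : P → P → ℤ) (c : Ch P) : Prop :=
  ∃ x ∈ c.1, ∃ y ∈ c.1, x ≤ y ∧ y ∉ M ∧ 0 < e x y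

theorem Rim.mono (h : Rim M e c) (k : c ≤ d) : Rim M e d :=
  let ⟨x, a, y, b, h⟩ := h; ⟨x, k a, y, k b, h⟩

theorem rim_of (k : c ≤ d) (h1 : c.top ∉ U) (h2 : 0 < e c.bot c.top) : Rim U e d :=
  ⟨_, k c.bot_mem, _, k c.top_mem, c.bot_le_top, h1, h2⟩

theorem Rim.face (h : Rim U e d) (hd : Dom M d) : ∃ q ∈ Qe M e, q ≤ d ∧ q.top ∉ U :=
  let ⟨x, a, y, b, l, m, n⟩ := h
  have k : Ch.pr x y l ≤ d := insert_subset a (singleton_subset_iff.2 b)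
  ⟨_, ⟨hd.mono k, by simpa using n⟩, k, by simpa using m⟩

theorem lev_le (he : Z1 M e) (hd : Dom M d) {x y : P} (hx : x ∈ d.1) (hy : y ∈ d.1) (l : x ≤ y) :
    e d.bot y = e d.bot x + e x y ∧ 0 ≤ e d.bot x ∧ 0 ≤ e x y ∧ e d.bot y ≤ 1 :=
  ⟨he.coc.add' hd d.bot_mem hx hy (Ch.bot_le hx) l, he.mono _ _ (hd.dp d.bot_mem hx (Ch.bot_le hx)),
    he.mono _ _ (hd.dp hx hy l), he.le _ _ (hd.dp d.bot_mem hy (Ch.bot_le hy))⟩

/-- the faces of a cell -/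
theorem faces_mx (he : Z1 M e) (hM : IsUpperSet M) (hd : d ∈ Mx M e)
    (h : ∀ c ≤ d, c ∈ S ↔ c ∈ Mx M e) :
    sc {c | c ∈ S ∧ c ≤ d} = 1 - if Rim M e d then 1 else 0 := by
  have D := dom_top hd.1
  let G : Set P := {x | ¬ 0 < e d.bot x}
  let H : Set P := {x | 0 < e d.bot x ∧ x ∈ M}
  have b0 : d.bot ∈ G := by have := lev_le he D d.bot_mem d.bot_mem le_rfl; simp only [G]; grind
  rw [sc_faces (f := fun c => iMt G c * iMt H c) fun c hc => ?_, sum_faces_if (B := G ∪ H)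
    ⟨rfl, Set.disjoint_left.2 fun _ a b => a b.1⟩ ⟨⟨_, d.bot_mem, b0⟩, _, d.top_mem, hd.2, hd.1⟩, iMt]
  · refine congrArg _ (if_congr ⟨fun ⟨y, a, b⟩ => ?_, fun ⟨x, a, y, b, l, m, n⟩ => ⟨y, b, ?_⟩⟩ rfl rfl)
    · have := not_not.1 (not_or.1 b).1
      exact ⟨_, d.bot_mem, y, a, Ch.bot_le a, fun k => b (.inr ⟨this, k⟩), this⟩
    · have := lev_le he D a b l
      exact fun k => k.elim (fun k => k (by omega)) fun k => m k.2
  · have k := lev_le he D (hc c.bot_mem) (hc c.top_mem) c.bot_le_top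
    by_cases a : c ∈ Mx M e
    · have := a.2
      rw [ind_of_mem ((h c hc).2 a), iMt_of ⟨_, c.bot_mem, show ¬ _ by omega⟩,
        iMt_of (S := H) ⟨_, c.top_mem, by omega, a.1⟩, one_mul]
    · rw [ind_of_not fun j => a ((h c hc).1 j)]
      by_cases g : Mt G c
      · rw [iMt_not (S := H) fun ⟨y, y0, y1, y2⟩ => a ⟨hM (Ch.le_top y0) y2, ?_⟩, mul_zero]
        obtain ⟨x, x0, x1⟩ := g
        have := lev_le he D (hc c.bot_mem) (hc x0) (Ch.bot_le x0)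
        have := lev_le he D (hc y0) (hc c.top_mem) (Ch.le_top y0)
        have : ¬ 0 < e d.bot x := x1
        omega
      · rw [iMt_not g, zero_mul]

/-- `M ∖ U` is a two sided band in `M` -/
structure Two (M U : Set P) (z : P → P → ℤ) : Prop where
  mf : Mf 3 M
  up : IsUpperSet M
  sub : U ⊆ M
  upU : IsUpperSet U
  lev : ∀ k ∈ M \ U, ∀ u ∈ U, k ≤ u → z k u = 0 ∨ z k u = 1
  l1 : ∀ k ∈ M \ U, ∀ u ∈ U, ∀ v, k ≤ u → u ≤ v → z k v = z k u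
  l2 : ∀ k ∈ M \ U, ∀ k' ∈ M \ U, ∀ u ∈ U, k' ≤ k → k ≤ u → z k' u = z k u
  ctr : ∀ k ∈ M \ U, ∀ j, j = 0 ∨ j = 1 → Ctr {u | u ∈ U ∧ k ≤ u ∧ z k u = j}

/-- one side of a cell of the band -/
def Sdj (U : Set P) (z : P → P → ℤ) (c : Ch P) (j : ℤ) : Set (Ch P) :=
  {d | c ≤ d ∧ d.top ∈ U ∧ z c.top d.top = j}

namespace Two

variable (h : Two M U z) (he : Z1 M e)
include h

theorem sd_ctr (hc : c.top ∈ M \ U) {j : ℤ} (hj : j = 0 ∨ j = 1) : Ctr (Sdj U z c j) := by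
  convert ctr_over (V := {u | u ∈ U ∧ z c.top u = j}) (d := c) (fun _ => True) trivial
    (by convert h.ctr _ hc j hj using 1; ext; simp only [Set.mem_ofPred_eq]; tauto) using 1
  ext d; simp [Sdj]

theorem sd_up (hc : c.top ∈ M \ U) (j : ℤ) : IsUpperSet (Sdj U z c j) := fun _ _ l k =>
  ⟨k.1.trans l, h.upU (Ch.top_mono l) k.2.1,
    (h.l1 _ hc _ k.2.1 _ (Ch.top_mono k.1) (Ch.top_mono l)).trans k.2.2⟩

theorem sd_anti (hc : c.top ∈ M \ U) (hd : d.top ∈ M \ U) (l : c ≤ d) (j : ℤ) :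
    Sdj U z d j ⊆ Sdj U z c j := fun _ k =>
  ⟨l.trans k.1, k.2.1, (h.l2 _ hd _ hc _ k.2.1 (Ch.top_mono l) (Ch.top_mono k.1)).trans k.2.2⟩

theorem card3 (hc : c.top ∈ M \ U) : c.1.card ≤ 3 := by
  obtain ⟨d, d1, d2, -⟩ := (h.sd_ctr hc (.inl rfl)).ne
  have := h.mf.card_le d ⟨_, d.top_mem, h.sub d2⟩
  have := Ch.card_lt (d1.lt_of_ne fun k => hc.2 (k ▸ d2))
  omega

theorem dn (hd : d.top ∈ M \ U) (l : c ≤ d) (hc : c ∈ Mx M e) : c ∈ Mx (M \ U) e :=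
  ⟨⟨hc.1, fun k => hd.2 (h.upU (Ch.top_mono l) k)⟩, hc.2⟩

include he

theorem sd_sub (hc : c ∈ Mx (M \ U) e) (j : ℤ) : Sdj U z c j ⊆ Mx U e := fun _ k =>
  ⟨k.2.1, he.up (dom_top (h.sub k.2.1)) k.1 hc.2⟩

theorem sc_up (hC : Kh11.Clo (Mx (M \ U) e) C) (hc : c ∈ C) : sc {d | d ∈ C ∧ c ≤ d} = -1 := by
  have c1 := hC.1 hc
  have k := fun j hj => (sc_eu he h.mf ((h.sd_sub he c1 j).trans (mx_mono h.sub))
    (h.sd_up c1.1 j)).symm.trans (h.sd_ctr c1.1 hj).eu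
  have k2 := sc_ge h.mf (c := c) ⟨_, c.top_mem, c1.1.1⟩
  rw [sc_split (S := {d | c ≤ d}) (C := Sdj U z c 0) fun _ a => a.1,
    sc_split (S := {d | c ≤ d} \ Sdj U z c 0) (C := Sdj U z c 1)
    fun _ a => ⟨a.1, fun b => zero_ne_one (b.2.2.symm.trans a.2.2)⟩, k 0 (.inl rfl),
    k 1 (.inr rfl)] at k2
  rw [show {d | d ∈ C ∧ c ≤ d} = ({d | c ≤ d} \ Sdj U z c 0) \ Sdj U z c 1 from ?_]
  · omega
  ext d
  refine ⟨fun a => ⟨⟨a.2, fun b => (hC.1 a.1).1.2 b.2.1⟩, fun b => (hC.1 a.1).1.2 b.2.1⟩,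
    fun a => ⟨hC.2 c hc d ?_ (.inl a.1.1), a.1.1⟩⟩
  have m := h.up (Ch.top_mono a.1.1) c1.1.1
  exact ⟨⟨m, fun u => (h.lev _ c1.1 _ u (Ch.top_mono a.1.1)).elim (fun b => a.1.2 ⟨a.1.1, u, b⟩)
    fun b => a.2 ⟨a.1.1, u, b⟩⟩, he.up (dom_top m) a.1.1 c1.2⟩

/-- the band meets the surface in a one-manifold -/
theorem ends (hC : Kh11.Clo (Mx (M \ U) e) C) : nc {c | c ∈ C ∧ Rim M e c} = -2 * sc C := by
  refine dbl (a := -1) (b := 1) (fun _ k => k.1) (fun c hc => h.sc_up he hC hc) fun d hd => ?_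
  have d1 := hC.1 hd
  rw [faces_mx he h.up (mx_mono Set.sdiff_subset d1) fun c l => ⟨fun a => mx_mono Set.sdiff_subset (hC.1 a),
    fun a => hC.2 d hd c (h.dn d1.1 l a) (.inr l)⟩]
  split_ifs with r
  · rw [ind_of_mem (by exact ⟨hd, r⟩)]
    obtain ⟨q, q1, q2, q3⟩ := r.face (dom_top d1.1.1)
    have := h.card3 d1.1
    have := Ch.card_lt (q2.lt_of_ne fun k => q3 (k ▸ d1.1.1))
    have : 1 < q.1.card := one_lt_card.2 ⟨_, q.bot_mem, _, q.top_mem, he.bot_ne_top q1.1 q1.2⟩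
    rw [Ch.sg, show d.1.card = 3 by omega]; norm_num
  · rw [ind_of_not fun j => r j.2]; ring

omit h he in
theorem exit (hD : Conn D) (hV : IsUpperSet V) (k : V ⊆ D) (h1 : c ∈ V) (h2 : d ∈ D) (h3 : d ∉ V) :
    ∃ a ∈ V, ∃ b ∈ D, b ∉ V ∧ b ≤ a := by
  by_contra n
  exact h3 ((hD c (k h1) d h2).ind (p := (· ∈ V)) h1 fun a ha b _ l =>
    ⟨fun m => hV l m, fun m => by_contra fun j => n ⟨b, m, a, ha, j, l⟩⟩)

omit he in
theorem cases (hc : c ∈ Mx M e) : c ∈ Mx U e ∨ c ∈ Mx (M \ U) e :=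
  (_root_.em (c.top ∈ U)).imp (fun k => ⟨k, hc.2⟩) fun k => ⟨⟨hc.1, k⟩, hc.2⟩

/-- without negative piece the band meets the discs in arcs -/
theorem tc_band (hd : Dsc M e)
    (hn : ∀ V, IsCmp (Mx U e) V → eu V = 1 → Tc U e V → Tc M e V) (hC : IsCmp (Mx (M \ U) e) C) :
    Tc M e C := by
  by_contra n
  obtain ⟨c₀, c0⟩ := hC.ne
  have sb : Mx (M \ U) e ⊆ Mx M e := mx_mono Set.sdiff_subset
  have hD := isCmp_cmp (sb (hC.sub c0))
  generalize hD' : cmp (Mx M e) c₀ = D at hD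
  have c1 : c₀ ∈ D := hD' ▸ mem_cmp_self (sb (hC.sub c0))
  have uD := hD.upper (mx_upper he h.up subset_rfl)
  let Z : Set (Ch P) := {c | c ∈ D ∧ c ∈ Mx (M \ U) e ∧ ¬ Tc M e (cmp (Mx (M \ U) e) c)}
  have cZ : Kh11.Clo (Mx (M \ U) e) Z := ⟨fun _ k => k.2.1, fun a k b m l =>
    ⟨hD.clopen k.1 (sb m) l, m, cmp_eq (Rch.of_cm k.2.1 m l) ▸ k.2.2⟩⟩
  have z0 : ∀ c ∈ Z, ¬ Rim M e c := fun c k r => k.2.2 ⟨c, mem_cmp_self k.2.1, r⟩
  have z1 : sc Z = 0 := by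
    have := h.ends he cZ
    rw [nc_empty fun c k => z0 c k.1 k.2] at this
    omega
  have uW : IsUpperSet (D \ Z) := fun a b l k =>
    ⟨uD l k.1, fun m => k.2 (cZ.2 b m a (h.dn m.2.1.1 l (hD.sub k.1)) (.inr l))⟩
  have w1 : ∑ V ∈ cs (D \ Z), eu V = 1 := by
    have := sc_split (S := D) (C := Z) fun _ k => k.1
    rw [sum_eu_cs, sc_eu he h.mf (Set.sdiff_subset.trans hD.sub) uW]
    rw [← sc_eu he h.mf hD.sub uD, (hd.disc D hD).1] at this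
    omega
  obtain ⟨V, hV, v1⟩ : ∃ V ∈ cs (D \ Z), 1 ≤ eu V := by
    by_contra k
    have := sum_nonpos (s := cs (D \ Z)) (f := eu) fun V hV => by
      have := not_le.1 fun j => k ⟨V, hV, j⟩
      omega
    omega
  rw [mem_cs] at hV
  have uV := hV.upper uW
  have sV : V ⊆ D := hV.sub.trans Set.sdiff_subset
  have sM := sV.trans hD.sub
  have out : ∀ a ∈ V, ∀ b ∈ D, b ∉ V → Cm a b → b ∈ Z := fun a k b m j l =>
    by_contra fun i => j (hV.clopen k ⟨m, i⟩ l)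
  obtain ⟨v, v0⟩ := hV.ne
  have zc : c₀ ∈ Z := ⟨c1, hC.sub c0, hC.eq c0 ▸ n⟩
  obtain ⟨a, a1, b, b1, b2, b3⟩ := exit hD.conn uV sV v0 c1 fun k => (hV.sub k).2 zc
  have b4 := out a a1 b b1 b2 (.inr b3)
  have nt : ¬ Tc M e V := fun ⟨c, k, r⟩ => by
    obtain ⟨q, q1, q2, q3⟩ := Rim.face (M := M) r (dom_top (sM k).1)
    have := he.rim h.mf sM uV hV.conn v1 (fun q _ => q.top ∈ M) (fun _ _ _ _ _ _ _ _ => rfl)
      (fun q m j c k q' m' l l' => propext ⟨fun i => by_contra fun i' =>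
        z0 q (out c k q (hD.clopen (sV k) ⟨i, m.2⟩ (.inr l')) j (.inr l')) (rim_of l i' m'.2),
        fun i => h.up (Ch.top_mono l) i⟩)
      (mx_qe subset_rfl (hD.sub b1)) b2 a1 b3 q1 (fun j => q3 (sM j).1) k q2
    exact q3 (this ▸ (hD.sub b1).1)
  have sG : V ⊆ Mx U e := fun c k => (h.cases (sM k)).resolve_right fun m => by
    obtain ⟨c', k', r⟩ : Tc M e (cmp (Mx (M \ U) e) c) :=
      by_contra fun j => (hV.sub k).2 ⟨sV k, m, j⟩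
    exact nt ⟨c', k'.2.ind (p := (· ∈ V)) k fun x hx y _ l => ⟨fun i => uV l i, fun i =>
      by_contra fun j => (hV.sub i).2 (cZ.2 x (out y i x (hD.clopen (sV i) (sb hx) (.inr l)) j
        (.inr l)) y ‹_› (.inl l))⟩, r⟩
  exact nt (hn V (isCmp_of sG ⟨v, v0⟩ hV.conn fun x i y m l => by_contra fun j =>
      (out x i y (hD.clopen (sV i) (mx_mono h.sub m) l) j l).2.1.1.2 m.1)
    (le_antisymm (he.eu_le_one h.mf sM hV.conn a1 (mx_qe subset_rfl (hD.sub b1)) b2 (.inr b3)) v1)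
    ⟨a, a1, rim_of b3 b4.2.1.1.2 b4.2.1.2⟩)

theorem tc_piece (hd : Dsc M e) (hV : IsCmp (Mx U e) V) : Tc U e V := by
  obtain ⟨v, v0⟩ := hV.ne
  have hD := isCmp_cmp (mx_mono h.sub (hV.sub v0))
  have sV : V ⊆ cmp (Mx M e) v := fun c k =>
    ⟨mx_mono h.sub (hV.sub k), (hV.conn v v0 c k).mono (hV.sub.trans (mx_mono h.sub))⟩
  obtain ⟨c, c1, x, x0, y, y0, l, m, n⟩ := (hd.disc _ hD).2
  by_cases k : c ∈ V
  · exact ⟨c, k, x, x0, y, y0, l, fun j => m (h.sub j), n⟩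
  obtain ⟨a, a1, b, b1, b2, b3⟩ := exit hD.conn (hV.upper (mx_upper he h.upU h.sub)) sV v0 c1 k
  exact ⟨a, a1, rim_of b3 (fun j => b2 (hV.clopen a1 ⟨j, b1.1.2⟩ (.inr b3))) b1.1.2⟩

theorem piece_le (hd : Dsc M e) (hV : IsCmp (Mx U e) V) : eu V ≤ 1 := by
  obtain ⟨c, k, r⟩ := h.tc_piece he hd hV
  have s := hV.sub.trans (mx_mono h.sub)
  obtain ⟨q, q1, q2, q3⟩ := Rim.face (M := M) r (dom_top (s k).1)
  exact he.eu_le_one h.mf s hV.conn k q1 (fun j => q3 (hV.sub j).1) (.inr q2)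

theorem exists_side (j : ℤ) (hj : j = 0 ∨ j = 1) : ∃ s : Set (Ch P) → Set (Ch P),
    ∀ C, IsCmp (Mx (M \ U) e) C → ∀ c ∈ C, ∀ d ∈ Sdj U z c j, s C = cmp (Mx U e) d := by
  have key : ∀ C : Set (Ch P), ∃ V, IsCmp (Mx (M \ U) e) C →
      ∀ c ∈ C, ∀ d ∈ Sdj U z c j, V = cmp (Mx U e) d := fun C => by
    by_cases hC : IsCmp (Mx (M \ U) e) C
    swap
    · exact ⟨∅, fun k => (hC k).elim⟩
    obtain ⟨c₀, c0, rfl⟩ := hC
    obtain ⟨d₀, d0⟩ := (h.sd_ctr c0.1 hj).ne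
    have one : ∀ c ∈ Mx (M \ U) e, ∀ d ∈ Sdj U z c j, ∀ d' ∈ Sdj U z c j,
        cmp (Mx U e) d = cmp (Mx U e) d' := fun c k d a d' b =>
      cmp_eq (((h.sd_ctr k.1 hj).conn d a d' b).mono (h.sd_sub he k j))
    refine ⟨cmp (Mx U e) d₀, fun _ c k => k.2.ind
      (p := fun c => ∀ d ∈ Sdj U z c j, cmp (Mx U e) d₀ = cmp (Mx U e) d) (one _ c0 _ d0)
      fun a ha b hb l => ⟨fun m d i => m d (h.sd_anti ha.1 hb.1 l j i), fun m d i => ?_⟩⟩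
    obtain ⟨t, t0⟩ := (h.sd_ctr hb.1 hj).ne
    exact (m t t0).trans (one a ha t (h.sd_anti ha.1 hb.1 l j t0) d i)
  choose s hs using key
  exact ⟨s, hs⟩

omit h he in
theorem isCmp_inter {E : Set (Ch P)} (hD : ∀ a ∈ E, a ∈ D → ∀ b ∈ E, Cm a b → b ∈ D) :
    IsCmp (E ∩ D) V ↔ IsCmp E V ∧ V ⊆ D :=
  ⟨fun k => ⟨isCmp_of (fun _ a => (k.sub a).1) k.ne k.conn fun a ha b hb l =>
      k.clopen ha ⟨hb, hD a (k.sub ha).1 (k.sub ha).2 b hb l⟩ l, fun _ a => (k.sub a).2⟩,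
    fun k => isCmp_of (fun _ a => ⟨k.1.sub a, k.2 a⟩) k.1.ne k.1.conn fun _ ha _ hb l =>
      k.1.clopen ha hb.1 l⟩

theorem card_piece (hD : IsCmp (Mx M e) D) :
    (cs (Mx U e ∩ D)).card ≤ (cs (Mx (M \ U) e ∩ D)).card + 1 := by
  obtain ⟨s, hs⟩ := h.exists_side he 0 (.inl rfl)
  obtain ⟨t, ht⟩ := h.exists_side he 1 (.inr rfl)
  have sb : Mx (M \ U) e ⊆ Mx M e := mx_mono Set.sdiff_subset
  have i1 := fun V => isCmp_inter (V := V) (D := D) (E := Mx U e) fun a _ k b m l =>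
    hD.clopen k (mx_mono h.sub m) l
  have i2 := fun V => isCmp_inter (V := V) (D := D) (E := Mx (M \ U) e) fun a _ k b m l =>
    hD.clopen k (sb m) l
  have sD : ∀ d ∈ Mx U e, d ∈ D → cmp (Mx U e) d ⊆ D := fun d a b c k =>
    hD.eq b ▸ ⟨mx_mono h.sub k.1, k.2.mono (mx_mono h.sub)⟩
  have mem : ∀ j, j = 0 ∨ j = 1 → ∀ s : Set (Ch P) → Set (Ch P), (∀ C, IsCmp (Mx (M \ U) e) C →
      ∀ c ∈ C, ∀ d ∈ Sdj U z c j, s C = cmp (Mx U e) d) → ∀ C ∈ cs (Mx (M \ U) e ∩ D),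
      s C ∈ cs (Mx U e ∩ D) := fun j hj s hs C hC => by
    obtain ⟨a, b⟩ := (i2 C).1 (mem_cs.1 hC)
    obtain ⟨c, k⟩ := a.ne
    obtain ⟨d, m⟩ := (h.sd_ctr (a.sub k).1 hj).ne
    have m' := h.sd_sub he (a.sub k) j m
    rw [hs C a c k d m, mem_cs, i1]
    exact ⟨isCmp_cmp m', sD d m' (hD.clopen (b k) (mx_mono h.sub m') (.inl m.1))⟩
  refine card_le_of_conn _ _ s t (mem 0 (.inl rfl) s hs) (mem 1 (.inr rfl) t ht) fun g hg V a W b => ?_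
  obtain ⟨⟨v, v0, rfl⟩, v1⟩ := (i1 V).1 (mem_cs.1 a)
  obtain ⟨⟨w, w0, rfl⟩, w1⟩ := (i1 W).1 (mem_cs.1 b)
  have := (hD.conn v (v1 (mem_cmp_self v0)) w (w1 (mem_cmp_self w0))).eq
    (g := fun c => if c.top ∈ U then g (cmp (Mx U e) c) else g (s (cmp (Mx (M \ U) e) c)))
    fun x hx y hy l => ?_
  · simpa only [if_pos v0.1, if_pos w0.1] using this
  rcases h.cases (hD.sub hx) with x1 | x1 <;> rcases h.cases (hD.sub hy) with y1 | y1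
  · simp only [if_pos x1.1, if_pos y1.1, cmp_eq (Rch.of_cm x1 y1 (.inl l))]
  · exact (y1.1.2 (h.upU (Ch.top_mono l) x1.1)).elim
  · simp only [if_neg x1.1.2, if_pos y1.1]
    rcases h.lev _ x1.1 _ y1.1 (Ch.top_mono l) with k | k
    · rw [hs _ (isCmp_cmp x1) x (mem_cmp_self x1) y ⟨l, y1.1, k⟩]
    · rw [hg _ (mem_cs.2 ((i2 _).2 ⟨isCmp_cmp x1, fun c k =>
        hD.eq hx ▸ ⟨sb k.1, k.2.mono sb⟩⟩)), ht _ (isCmp_cmp x1) x (mem_cmp_self x1) y ⟨l, y1.1, k⟩]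
  · simp only [if_neg x1.1.2, if_neg y1.1.2, cmp_eq (Rch.of_cm x1 y1 (.inl l))]

theorem eu_piece (hd : Dsc M e) (hD : IsCmp (Mx M e) D) :
    2 * eu (Mx U e ∩ D) = 2 + nc {c | c ∈ Mx (M \ U) e ∩ D ∧ Rim M e c} := by
  have uD := hD.upper (mx_upper he h.up subset_rfl)
  have := sc_split (S := D) (C := Mx U e ∩ D) fun _ k => k.2
  rw [← sc_eu he h.mf hD.sub uD, (hd.disc D hD).1, ← sc_eu he h.mf (fun _ k => hD.sub k.2)
    ((mx_upper he h.upU h.sub).inter uD), show D \ (Mx U e ∩ D) = Mx (M \ U) e ∩ D from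
    Set.ext fun c => ⟨fun k => ⟨(h.cases (hD.sub k.1)).resolve_left fun j => k.2 ⟨j, k.1⟩, k.1⟩,
      fun k => ⟨k.2, fun j => k.1.1.2 j.1.1⟩⟩] at this
  rw [h.ends he (C := Mx (M \ U) e ∩ D) ⟨fun _ k => k.1, fun a k b m l =>
    ⟨m, hD.clopen k.2 (mx_mono Set.sdiff_subset m) l⟩⟩]
  omega

/-- the pieces are discs -/
theorem eu_one (hd : Dsc M e) (hn : ∀ C, IsCmp (Mx (M \ U) e) C → Tc M e C)
    (hV : IsCmp (Mx U e) V) : eu V = 1 := by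
  obtain ⟨v, v0⟩ := hV.ne
  have hD := isCmp_cmp (mx_mono h.sub (hV.sub v0))
  have sV : V ⊆ cmp (Mx M e) v := fun c k =>
    ⟨mx_mono h.sub (hV.sub k), (hV.conn v v0 c k).mono (hV.sub.trans (mx_mono h.sub))⟩
  generalize cmp (Mx M e) v = D at hD sV
  have i1 := fun V => isCmp_inter (V := V) (D := D) (E := Mx U e) fun a _ k b m l =>
    hD.clopen k (mx_mono h.sub m) l
  have i2 := fun V => isCmp_inter (V := V) (D := D) (E := Mx (M \ U) e) fun a _ k b m l =>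
    hD.clopen k (mx_mono Set.sdiff_subset m) l
  have a1 := h.eu_piece he hd hD
  have a2 := h.card_piece he hD
  have cl : Kh11.Clo (Mx (M \ U) e) (Mx (M \ U) e ∩ D) := ⟨fun _ k => k.1, fun a k b m l =>
    ⟨m, hD.clopen k.2 (mx_mono Set.sdiff_subset m) l⟩⟩
  have a3 : ((cs (Mx (M \ U) e ∩ D)).card : ℤ) ≤ -sc (Mx (M \ U) e ∩ D) := by
    rw [← sum_sc, ← sum_neg_distrib, card_eq_sum_ones, Nat.cast_sum]
    refine sum_le_sum fun C hC => ?_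
    have k := ((i2 C).1 (mem_cs.1 hC)).1
    obtain ⟨c, c1, c2⟩ := hn C k
    have := h.ends he (Kh11.clo_cmp k)
    have := nc_pos (S := {c | c ∈ C ∧ Rim M e c}) ⟨c1, c2⟩
    push_cast; omega
  rw [h.ends he cl, ← sum_eu_cs] at a1
  by_contra n
  have := sum_lt_sum (s := cs (Mx U e ∩ D)) (f := eu) (g := fun _ => 1)
    (fun W k => h.piece_le he hd ((i1 W).1 (mem_cs.1 k)).1)
    ⟨V, mem_cs.2 ((i1 V).2 ⟨hV, sV⟩), (h.piece_le he hd hV).lt_of_ne n⟩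
  simp only [sum_const, nsmul_eq_mul, mul_one] at this
  omega

end Two

end Crest.Agent.X212.Sm10
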