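import Crest.Agent.X212.Sm10.Mv3a
import Crest.Agent.X212.Kh11.Lev
import Crest.Agent.X212.H7.Nf0

/-!
# X212 / Sm10 (helper10): KH-RED2
-/

set_option autoImplicit false
set_option linter.unusedSectionVars false

open Finset Classical

noncomputable section

namespace Crest.Agent.X212.Sm10.Mv

open Hp13 hiding sub_cl cl_low om_low cl_mono exOn_pb exOn_add exOn_neg exOn_congr dp_iff coc_iff
open Hk
open Alg36 (Om Esc mix Clo)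
open Kh11 (WS CE)

variable {P R : Type} [PartialOrder P] [Fintype P] [PartialOrder R]

theorem ws_ge {A B : Set P} (s : A ⊆ B) (h : ∀ x ∈ B, x ∉ A → Ctr {y | y ∈ A ∧ x ≤ y}) :
    WS A B id := WS.of_ge (fun _ a => s a) (fun _ _ _ _ l => l) fun x a =>
  (Classical.em (x ∈ A)).elim (fun k => Kh11.sctr_min (m := x) ⟨k, le_rfl⟩ fun _ j => j.2) (h x a)

theorem ctr_dim {E : Set P} (d : ∀ c : Ch P, (∀ x ∈ c.1, x ∈ E) → c.1.card ≤ 2) (c : Conn E)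
    (h : 1 ≤ eu E) : Ctr E := by
  have k : Alg36.Dim (Alg36.fs E) 2 := fun c a b => c.eq_empty_or_nonempty.elim (fun e => by simp [e])
    fun n => d ⟨c, n, b⟩ fun _ j => Alg36.mem_fs.1 (a j)
  refine Alg36.ctr_fs.1 (Alg36.NoCyc.ctr (fun K _ => Alg36.cyc_eq_bot fun u _ => funext fun e => ?_)
    (fun c a b => (k c a b).trans (by omega)) (Alg36.cn_fs.2 c) (Alg36.chi_fs E ▸ h))
  obtain ⟨a, b, e⟩ := Alg36.mem_chains.1 e.2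
  have := k _ a b
  omega

/-- a two-sided curve of a disc that meets the boundary is an arc and cuts off a disc -/
theorem arc (gl : GluStmt) {I ρ α ρ' : Set P} (hS : Ctr (Set.univ : Set P)) (hI : IsUpperSet I)
    (hM : Mf 2 I) (cI : Ctr I) (st : ∀ x, Ctr {y | y ∈ I ∧ x ≤ y})
    (cov : ∀ x, x ∈ ρ ∨ x ∈ α ∨ x ∈ ρ') (d : Disjoint ρ ρ') (d1 : Disjoint ρ α) (d2 : Disjoint ρ' α)
    (u : IsUpperSet ρ) (u' : IsUpperSet ρ') (cρ : Conn ρ) (cα : Conn α)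
    (s : ∀ x ∈ α, Ctr {y | y ∈ ρ ∧ x ≤ y}) (s' : ∀ x ∈ α, Ctr {y | y ∈ ρ' ∧ x ≤ y})
    {x : P} (hx : x ∈ α) (hx' : x ∉ I) : Ctr α ∧ Ctr (ρ ∪ α) := by
  have n := @Set.disjoint_left.1 d
  have n1 := @Set.disjoint_left.1 d1
  have n2 := @Set.disjoint_left.1 d2
  have w1 : WS ρ (ρ ∪ α) id := ws_ge Set.subset_union_left fun y a b => s y (a.resolve_left b)
  have w2 : WS ρ' (ρ' ∪ α) id := ws_ge Set.subset_union_left fun y a b => s' y (a.resolve_left b)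
  have w3 : ∀ {r : Set P}, IsUpperSet r → WS (r ∩ I) r id := fun {r} h =>
    ws_ge Set.inter_subset_left fun y a _ => by
      convert st y using 1
      exact Set.ext fun z => ⟨fun j => ⟨j.1.2, j.2⟩, fun j => ⟨⟨h j.2 a, j.1⟩, j.2⟩⟩
  have w5 : WS (ρ' ∩ I) ((ρ' ∪ α) ∩ I) id := ws_ge (fun _ a => ⟨Or.inl a.1, a.2⟩) fun y a b => by
    convert s' y (a.1.resolve_left fun j => b ⟨j, a.2⟩) using 1
    exact Set.ext fun z => ⟨fun j => ⟨j.1.1, j.2⟩, fun j => ⟨⟨j.1, hI j.2 a.2⟩, j.2⟩⟩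
  have lo : ∀ {r r' : Set P}, IsUpperSet r → Disjoint r r' → Disjoint r α →
      (∀ x, x ∈ r ∨ x ∈ r' ∪ α) → ∀ x, ∀ y ∈ r' ∪ α, x ≤ y → x ∈ r' ∪ α :=
    fun h a b c x y j l => (c x).resolve_left fun i =>
      j.elim (Set.disjoint_left.1 a (h l i)) (Set.disjoint_left.1 b (h l i))
  obtain ⟨g1, -, g2, -⟩ := gl P (ρ' ∪ α) (ρ ∪ α) (Or.inl
    ⟨fun x _ => lo u d d1 (fun x => by have := cov x; simp only [Set.mem_union]; tauto) x,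
     fun x _ => lo u' d.symm d2 (fun x => by have := cov x; simp only [Set.mem_union]; tauto) x⟩)
  have e1 : (ρ' ∪ α) ∪ (ρ ∪ α) = Set.univ :=
    Set.eq_univ_of_forall fun x => by have := cov x; simp only [Set.mem_union]; tauto
  have e2 : (ρ' ∪ α) ∩ (ρ ∪ α) = α := Set.ext fun y =>
    ⟨fun a => a.1.elim (fun b => a.2.resolve_left fun c => n c b) id, fun a => ⟨Or.inr a, Or.inr a⟩⟩
  rw [e1, e2] at g1 g2
  have cH : Conn ((ρ' ∪ α) ∩ I) :=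
    w5.conn_iff.1 ((w3 u').conn_iff.2 (w2.conn_iff.2 (g2 hS.conn cα ⟨x, hx⟩)))
  have cG : Conn (ρ ∩ I) := (w3 u).conn_iff.2 cρ
  have col : Sf30.Col I (ρ ∩ I) ((ρ' ∪ α) ∩ I) := ⟨Set.ext fun y =>
    ⟨fun a => a.elim And.right And.right, fun a => (cov y).imp (fun b => ⟨b, a⟩)
      fun b => ⟨b.symm, a⟩⟩, Set.disjoint_left.2 fun _ a b => b.1.elim (n a.1) (n1 a.1)⟩
  have ab : ∀ {r : Set P}, IsUpperSet r → ∀ {z : P}, Ctr {y | y ∈ r ∧ z ≤ y} →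
      ∃ y ∈ r ∩ I, z ≤ y := fun h z k =>
    let ⟨y, a⟩ := k.ne; let ⟨v, b⟩ := (st y).ne; ⟨v, ⟨h b.2 a.1, b.1⟩, a.2.trans b.2⟩
  obtain ⟨a, a1, b, b1, ax, bx, m⟩ : ∃ a ∈ ρ ∩ I, ∃ b ∈ (ρ' ∪ α) ∩ I, x ≤ a ∧ x ≤ b ∧ Cm a b := by
    by_contra k
    obtain ⟨p, p1, p2⟩ := ab u (s x hx)
    obtain ⟨q, q1, q2⟩ := ab u' (s' x hx)
    refine n (((st x).conn p ⟨p1.2, p2⟩ q ⟨q1.2, q2⟩).ind p1.1 fun a a1 b b1 l =>
      ⟨u l, fun j => (cov a).resolve_right fun i => ?_⟩) q1.1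
    exact k ⟨b, ⟨j, b1.1⟩, a, ⟨i.symm, a1.1⟩, b1.2, a1.2, Or.inr l⟩
  have h1 := Sf30.eu_col hM col
  have h2 := Sf30.two_wt hM col subset_rfl fun _ _ _ j _ => j
  have h3 : 0 < Sf30.en I (Sf30.If (ρ ∩ I) ((ρ' ∪ α) ∩ I)) := by
    obtain ⟨k1, k2, k3⟩ := Alg36.mem_tr (a := x) (x := a) (y := b) (Or.inl ax) (Or.inl bx) m
    exact card_pos.2 ⟨_, mem_filter.2 ⟨mem_univ _, ⟨⟨a, k2, a1⟩, b, k3, b1⟩, x, k1, hx'⟩⟩
  have eG := Sf30.esc_of col.l cG a1 (col.symm.not b1) m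
  have h4 := Alg36.Mf.eu_le_one hM col.l cG eG
  have h5 := Alg36.Mf.eu_le_one hM col.r cH (Sf30.esc_of col.r cH b1 (col.not a1) m.symm)
  have h6 := cI.eu
  have cB := w1.ctr_iff.1 ((w3 u).ctr_iff.1 (Alg36.Mf.ctr_of_eu hM col.l cG eG (by omega)))
  refine ⟨ctr_dim (fun c k => ?_) cα ?_, cB⟩
  · obtain ⟨y, y1, l⟩ := ab u (s _ (k _ c.top_mem))
    have : (insert y c.1).card ≤ 2 + 1 := hM.card_le (Cut21.tp c y l) ⟨y, by simp, y1.2⟩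
    rw [card_insert_of_notMem fun j => n1 y1.1 (k y j)] at this
    omega
  · have := w5.eu_eq; have := (w3 u').eu_eq; have := w2.eu_eq; have := cB.eu; have := hS.eu
    omega

theorem fm_pre {car : P → R} {Y : Set P} {k : ℕ} {U G V : Fin k → Set P} {t : St} {f : t.P → P}
    (hY : Amb Y) (h : Fm car Y k U G V) (T : Tw P t f) :
    Fm (car ∘ f) (f ⁻¹' Y) k (fun j => f ⁻¹' U j) (fun j => f ⁻¹' G j) fun j => f ⁻¹' V j :=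
  ⟨fun j => (h.mem j).pre T, fun i j a => (h.dj i j a).preimage f, fun i j a =>
    (h.np i j a).pre (nest hY (h.mem i) (h.mem j) (h.dj i j a)) T⟩

theorem red2Stmt (gl : GluStmt) (nb : NbhStmt) (fa : FamStmt) (nf : Nf0Stmt) : Red2Stmt := by
  intro P _ _ Y t f k U G V σ ρ α h n1 lf
  obtain ⟨nf1, -, nf3⟩ := nf P Y t f h.amb h.tw
  have m := h.tw.mono
  have hY := (h.amb.pre (Tw.one P)).pre h.tw
  have lo : ∀ j, IsLowerSet (G j) := fun j => (h.fm.mem j).two.bd.low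
  have loF : IsLowerSet (⋃ j, G j) := isLowerSet_iUnion lo
  have loS : IsLowerSet {x | f x ≤ σ} := fun _ _ l a => (m l).trans a
  obtain ⟨y0, hy0, x0, hx0, l0⟩ := lf.ne
  obtain ⟨i, hi⟩ := Set.mem_iUnion.1 (lf.crv.sub hx0).2
  have M := h.fm.mem i
  have un : ∀ {j x}, x ∈ G j → x ∈ G i → j = i := fun a b =>
    by_contra fun c => Set.disjoint_left.1 (h.fm.dj _ _ c) a b
  have αG : α ⊆ G i := fun x a => (lf.crv.conn x0 hx0 x a).ind hi fun p _ q b l =>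
    ⟨fun c => let ⟨_, e⟩ := Set.mem_iUnion.1 (lf.crv.sub b).2; un (lo _ l e) c ▸ e, lo i l⟩
  have inρ : ∀ {K : Set t.P} {y z}, Conn K → K ⊆ {x | f x ≤ σ} \ ⋃ j, G j → y ∈ ρ → y ∈ K → z ∈ K →
      z ∈ ρ := fun c s a b e => lf.reg.eq a ▸ ⟨s e, (c _ b _ e).mono s⟩
  have ρY : ρ ⊆ f ⁻¹' (Ch.top ⁻¹' Y) := fun y a => by_contra fun b => by
    obtain ⟨v, e⟩ := h.tw.surj (Ch.pt (f y).top)
    have := lf.nov v (inρ (nf1 (f y)).1.conn (fun z c => ⟨LE.le.trans (b := f y) c (lf.reg.sub a).1, fun j =>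
      let ⟨j, e⟩ := Set.mem_iUnion.1 j; b (h.amb.up (Ch.top_mono c) ((h.fm.mem j).sub e))⟩) a (le_refl (f y))
      (e ▸ Ch.pt_le.2 (f y).top_mem : f v ≤ f y))
    simp [e] at this
  have dρ : Disjoint ρ (G i) :=
    Set.disjoint_left.2 fun _ a b => (lf.reg.sub a).2 (Set.mem_iUnion.2 ⟨i, b⟩)
  obtain ⟨X, X', hX, tw, ρX⟩ : ∃ X X', (X = U i ∨ X = V i) ∧
      Two f (f ⁻¹' (Ch.top ⁻¹' Y)) X (G i) X' ∧ ρ ⊆ X := by
    have s := two_symm M.two hY.up M.sub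
    rcases M.two.cov y0 (ρY hy0) with j | j | j
    exacts [⟨_, _, Or.inl rfl, M.two, side M.two ρY lf.reg.conn dρ hy0 j⟩,
      absurd j (Set.disjoint_left.1 dρ hy0), ⟨_, _, Or.inr rfl, s, side s ρY lf.reg.conn dρ hy0 j⟩]
  have st : ∀ x ∈ α, Ctr {y | y ∈ X ∧ x ≤ y ∧ f y ≤ σ} := fun x a =>
    tw.tv _ (isLowerSet_Iic σ) x ⟨αG a, M.sub (αG a)⟩ (lf.crv.sub a).1
  have sρ : ∀ x ∈ α, (∃ y ∈ ρ, x ≤ y) → ∀ y ∈ X, x ≤ y → f y ≤ σ → y ∈ ρ :=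
    fun x a ⟨z, b, l⟩ y c l' e => inρ (st x a).conn (fun v j => ⟨j.2.2, fun n =>
      let ⟨_, n⟩ := Set.mem_iUnion.1 n; tw.bd.not (un (lo _ j.2.1 n) (αG a) ▸ n) j.1⟩) b
      ⟨ρX b, l, (lf.reg.sub b).1⟩ ⟨c, l', e⟩
  replace sρ : ∀ x ∈ α, ∀ y ∈ X, x ≤ y → f y ≤ σ → y ∈ ρ := fun x a => sρ x a
    ((lf.crv.conn x0 hx0 x a).ind (p := fun x => ∃ y ∈ ρ, x ≤ y) ⟨y0, hy0, l0⟩ fun p hp q hq l =>
      ⟨fun j => let ⟨z, b⟩ := (st q hq).ne; ⟨z, sρ p hp j z b.1 (l.trans b.2.1) b.2.2, b.2.1⟩,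
        fun ⟨z, b, c⟩ => ⟨z, b, l.trans c⟩⟩)
  have ρu : ∀ x ∈ ρ, ∀ y, f y ≤ σ → x ≤ y → y ∈ ρ := fun x a y b l =>
    lf.reg.clopen a ⟨b, fun c => (lf.reg.sub a).2 (loF l c)⟩ (Or.inl l)
  have αl : IsLowerSet α := fun x y l a =>
    lf.crv.clopen a ⟨loS l (lf.crv.sub a).1, loF l (lf.crv.sub a).2⟩ (Or.inr l)
  have Bl : IsLowerSet (ρ ∪ α) := fun x y l a => a.elim (fun a => (Classical.em (y ∈ ⋃ j, G j)).elim
    (fun b => Or.inr (lf.adj x a y b l)) fun b =>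
      Or.inl (lf.reg.clopen a ⟨loS l (lf.reg.sub a).1, b⟩ (Or.inr l))) fun a => Or.inr (αl l a)
  have oth : ∀ x ∈ α, ∀ y, x ≤ y → f y ≤ σ → (y ∉ ρ ∪ α ↔ y ∈ X') := fun x a y l b =>
    ⟨fun c => ((tw.cov y (hY.up l (M.sub (αG a)))).resolve_left fun j =>
      c (Or.inl (sρ x a y j l b))).resolve_left fun j =>
        c (Or.inr (lf.crv.clopen a ⟨b, Set.mem_iUnion.2 ⟨i, j⟩⟩ (Or.inl l))), fun c j =>
      j.elim (fun j => Set.disjoint_left.1 tw.dj (ρX j) c) fun j =>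
        Set.disjoint_left.1 tw.dg c (αG j)⟩
  obtain ⟨c3, -, ⟨z, z1, z2⟩, d1, -⟩ := nf3 k U G V h n1 i
  -- `α` meets an edge
  obtain ⟨x, x1, x2⟩ : ∃ x ∈ α, x ∈ Sk f 2 := by_contra fun n => n ⟨z,
    (c3 x0 ⟨hi, (card_le_card (lf.crv.sub hx0).1).trans lf.card.le⟩ z
      ⟨z1, Nat.le_succ_of_le z2⟩).ind hx0 fun p _ q b l => ⟨fun a => lf.crv.clopen a
        ⟨(Ch.ext (eq_of_subset_of_card_le (m l) (b.2.trans (by
          have : ¬ (f p).1.card ≤ 2 := fun j => n ⟨p, a, j⟩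
          omega)))).ge.trans (lf.crv.sub a).1, Set.mem_iUnion.2 ⟨i, b.1⟩⟩ (Or.inl l), αl l⟩, z2⟩
  have sB : ρ ∪ α ⊆ {x | f x ≤ σ} := fun _ a =>
    a.elim (fun a => (lf.reg.sub a).1) fun a => (lf.crv.sub a).1
  have sα : α ⊆ {x | f x ≤ σ} := fun _ a => sB (Or.inr a)
  have val : ∀ {K : Set t.P} {L : Set {x | f x ≤ σ}}, Ctr K → K ⊆ {x | f x ≤ σ} →
      (∀ y, y ∈ L ↔ y.1 ∈ K) → Ctr L := fun a b c => Set.ext c ▸ (H7.ws_val b).ctr_iff.2 a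
  obtain ⟨cα, cB⟩ := arc (P := {x | f x ≤ σ}) gl (I := Subtype.val ⁻¹' (f ⁻¹' {σ}))
    (ρ := Subtype.val ⁻¹' ρ) (α := Subtype.val ⁻¹' α) (ρ' := Subtype.val ⁻¹' (ρ ∪ α)ᶜ)
    (val (nf1 σ).1 subset_rfl fun y => iff_of_true trivial y.2)
    (fun a b l j => le_antisymm b.2 (j.ge.trans (m l))) ((nf1 σ).2.2.1 2 lf.card)
    (val (nf1 σ).2.1 (fun _ a => a.le) fun _ => Iff.rfl)
    (fun y => val ((h.tw.ws_up y.1 {σ}).ctr_iff.2 (Kh11.sctr_min (m := σ) ⟨rfl, y.2⟩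
      fun _ a => a.1.ge)) (fun _ a => a.2.le) fun _ => and_comm)
    (fun y => by simp only [Set.mem_preimage, Set.mem_compl_iff, Set.mem_union]; tauto)
    (Set.disjoint_left.2 fun _ a b => b (Or.inl a))
    (Set.disjoint_left.2 fun _ a b => Set.disjoint_left.1 dρ a (αG b))
    (Set.disjoint_left.2 fun _ a b => a (Or.inr b)) (fun a b l j => ρu _ j _ b.2 l)
    (fun _ _ l j i => j (Bl l i))
    ((H7.ws_val fun _ a => sB (Or.inl a)).conn_iff.2 lf.reg.conn)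
    ((H7.ws_val sα).conn_iff.2 lf.crv.conn)
    (fun y a => val (st y a) (fun _ b => b.2.2) fun v =>
      ⟨fun b => ⟨ρX b.1, b.2, v.2⟩, fun b => ⟨sρ y a v b.1 b.2.1 v.2, b.2.1⟩⟩)
    (fun y a => val (tw.tv' _ (isLowerSet_Iic σ) y ⟨αG a, M.sub (αG a)⟩ y.2) (fun _ b => b.2.2)
      fun v => ⟨fun b => ⟨(oth y a v b.2 v.2).1 b.1, b.2, v.2⟩,
        fun b => ⟨(oth y a v b.2.1 v.2).2 b.1, b.2.1⟩⟩)
    (x := ⟨x, sα x1⟩) x1 fun j => by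
      have : (f x).1.card ≤ 2 := x2
      rw [show f x = σ from j, lf.card] at this; omega
  replace cα := (H7.ws_val sα).ctr_iff.1 cα
  replace cB := (H7.ws_val sB).ctr_iff.1 cB
  have BG : ∀ y ∈ ρ ∪ α, y ∈ ⋃ j, G j → y ∈ α := fun y a b =>
    a.resolve_left fun a => (lf.reg.sub a).2 b
  have sX : ρ ∪ α ⊆ X ∪ G i := Set.union_subset_union ρX αG
  have bl := nb _ X (G i) (ρ ∪ α) (two_rg tw hY.toRg M.sub) tw.bd Bl sX cB (by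
    rwa [show (ρ ∪ α) ∩ G i = α from Set.ext fun y => ⟨fun a => BG y a.1 (Set.mem_iUnion.2 ⟨i, a.2⟩),
      fun a => ⟨Or.inr a, αG a⟩⟩])
  obtain ⟨U', V', fm⟩ := fa _ _ _ _ k _ _ _ i _ _ (hY.pre (Tw.one _)) (fm_pre hY h.fm (Tw.one _))
    (hX.imp (congrArg _) (congrArg _)) bl fun j a => Set.disjoint_left.2
      fun c ⟨⟨y, y1, y2⟩, _⟩ b => have b' := lo j (Ch.le_top y1) b
        a (un b' (αG (BG y y2 (Set.mem_iUnion.2 ⟨j, b'⟩))))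
  refine ⟨t.sd.sd.sd, _, U', _, V', ⟨h.amb, h.tw.step.step.step, fm⟩, ?_⟩
  -- the disc is clopen in the edges
  have eq : ∀ p ∈ ρ ∪ α, ∀ q ∈ Sk f 2, p ≤ q → f q ≤ σ := fun p a q b l =>
    (Ch.ext (eq_of_subset_of_card_le (m l) (le_trans b (a.elim (lf.nov p) fun a => by
      have : ¬ (f p).1.card ≤ 1 := Set.disjoint_left.1 d1 (αG a)
      omega)))).ge.trans (sB a)
  have cl2 : ∀ p ∈ ρ ∪ α, ∀ q ∈ Sk f 2, q ∈ cl X → p ≤ q → q ∈ ρ ∪ α := fun p a q b ⟨v, c, e⟩ l =>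
    a.elim (fun j => Or.inl (ρu p j q (eq p a q b l) l)) fun j => by_contra fun n =>
      Set.disjoint_left.1 tw.dj c (tw.up' e ((oth p j q l (eq p a q b l)).1 n))
  have clB : ρ ∪ α ⊆ cl X := fun _ a => (sX a).elim (fun a => sub_cl a) fun a => tw.bd.sub_cl a
  refine lt_of_eq_of_lt (b := ncmp (((⋃ j, G j) \ α) ∩ Sk f 2)) ?_ (ncmp_lt
    (fun _ a => ⟨a.1.1, a.2⟩) (fun p a q b l => ⟨⟨b.1, fun j => a.1.2 (l.elim (fun l => αl l j)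
      fun l => lf.crv.clopen j ⟨eq q (Or.inr j) p a.2 l, a.1.1⟩ (Or.inl l))⟩, b.2⟩)
    ⟨(lf.crv.sub x1).2, x2⟩ fun j => j.1.2 x1)
  rw [← (Tw.three t.P).ncmp]
  refine congrArg ncmp (Set.ext fun c => and_congr_left fun a => ?_)
  have inN : t3 c ∈ ρ ∪ α → ∀ e ∈ c.bot.1, Mt (ρ ∪ α) e ∧ e.top ∈ cl X := fun b e j =>
    have := Bl (Ch.top_mono (le_t2 j)) b; ⟨⟨_, e.top_mem, this⟩, clB this⟩
  have ofN : t3 c ∈ cl X → ∀ e ∈ c.bot.1, Mt (ρ ∪ α) e → t3 c ∈ ρ ∪ α := fun b e j ⟨p, p1, p2⟩ =>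
    cl2 p p2 _ a b (Ch.le_top (le_t2 j p1))
  simp only [Set.mem_iUnion, Set.mem_preimage, Set.mem_sdiff]
  refine ⟨fun ⟨j, b⟩ => ?_, fun ⟨⟨j, b⟩, n⟩ => ⟨j, ?_⟩⟩
  · split_ifs at b with e
    · rcases b with ⟨b, d, d1, d2⟩ | ⟨⟨b, d, d1, d2⟩, d', d3, d4⟩
      · exact ⟨⟨i, b⟩, fun n => d2 (inN (Or.inr n) d d1)⟩
      · exact absurd (inN (ofN ((cl_sd (X := X)).subset b) d d1 d2.1) d' d3) d4
    · exact ⟨⟨j, b⟩, fun n => e (un b (αG n))⟩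
  · split_ifs with e
    · subst e
      exact Or.inl ⟨b, _, c.bot.bot_mem, fun d => n (BG _ (ofN (tw.bd.sub_cl b) _ c.bot.bot_mem d.1)
        (Set.mem_iUnion.2 ⟨_, b⟩))⟩
    · exact b

end Crest.Agent.X212.Sm10.Mv
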