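import Crest.Agent.X212.Idg99.Chr
import Crest.Agent.X212.Num57.Es

/-!
# Row 212 (helper10): twice the square of a line on a closed four-manifold is an integer

The complexified module of `(div, d⁺)` has real rank sixteen.
-/

set_option autoImplicit false
set_option linter.unusedSectionVars false
open scoped Manifold ContDiff Topology InnerProductSpace Matrix
open Finset Filter MeasureTheory Module

noncomputable section
namespace Crest.Agent.X212.Sm10.Su
open An Wz78 Sob92 Ind95 Map77 Idg99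
open Num57 (OK hop)

variable {E : Type} [NormedAddCommGroup E] [NormedSpace ℝ E] [FiniteDimensional ℝ E]
  [MeasurableSpace E] [BorelSpace E]
  {HM : Type} [TopologicalSpace HM] {I : ModelWithCorners ℝ E HM}
  {M : Type} [TopologicalSpace M] [ChartedSpace HM M] [IsManifold I ∞ M]
  [MeasurableSpace M] {ι : Type} [Fintype ι]
  {X Y : Type} [NormedAddCommGroup X] [InnerProductSpace ℝ X] [FiniteDimensional ℝ X]
  [NormedAddCommGroup Y] [InnerProductSpace ℝ Y] [FiniteDimensional ℝ Y]
  {F : Fr I M ι} {o : ι → ι → ι → ι → M → ℝ} {p : M → X →L[ℝ] X} {ρ W : ι → M → X →L[ℝ] X}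
  {O : Set M} {l : M → Y →L[ℝ] Y} {il : Y →L[ℝ] Y} {A : ι → M → Y →L[ℝ] Y} {f : ι → ι → M → ℝ}

theorem tr_one (w : X) : Op.tr (1 : X →L[ℝ] X) w = w :=
  ext_inner_left ℝ fun _ => Ell97.inner_tr _ _ _

theorem J_sm2 (T : X →L[ℝ] X) : clf (1 : X →L[ℝ] X) * sm2 T T = sm2 T T * clf 1 :=
  cext (by simp [tr_one]) (by simp)

variable [T2Space M] [BorelSpace M] [SecondCountableTopology M] [I.Boundaryless]

/-- complexification -/
theorem cx (D : Ind95.Dm F F.Gam p ρ W) :
    Cm F (ps p p) (fun a x => sm2 (ρ a x) (ρ a x)) (sA W W) (clf 1) :=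
  ⟨{ toCon := con_sA D.cc.toCon D.cc.toCon
     sp := fun x => sa_sm2 (D.cc.sp x) (D.cc.sp x)
     sρ := fun a x => sa_sm2 (D.cc.sρ a x) (D.cc.sρ a x)
     cl := fun x => ⟨fun a b => by
          have := fun v => DFunLike.congr_fun ((D.cc.cl x).rel a b) v
          exact cext (by simpa using fun u => this _) (by simpa using fun u => this _),
        fun a => by rw [ps, sm2_mul, (D.cc.cl x).pl], fun a => by rw [ps, sm2_mul, (D.cc.cl x).pr],
        fun a => cext (by simp [← (D.cc.cl x).proj a]) (by simp [← (D.cc.cl x).proj a])⟩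
     par := fun a x => par_sA (D.cc.sp x) (D.cc.sp x) (D.cc.par a x) (D.cc.par a x)
     comp := fun a b x => (nabE_sA (D.cc.sρ b x) (D.cc.sρ b x) a).trans (by
        rw [show nabE I F.e W a (ρ b) x = _ from D.cc.comp a b x]
        exact cext (by simp) (by simp)) },
    fun a x => skew_sm2 (D.skA a x) (D.skA a x), fun a x => skew_sm2 (D.skρ a x) (D.skρ a x),
    cext (by simp [tr_one]) (by simp [tr_one]), skew_clf _, fun x => J_sm2 _, fun a x => J_sm2 _,
    fun a x => J_sm2 _⟩

variable [CompactSpace M]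

/-- a module of real rank eight -/
theorem ex_dm (h : OK F o) : ∃ W, Ind95.Dm F F.Gam (ps (hop F o).p (hop F o).q)
    (fun a x => clf ((hop F o).σ a x)) W ∧ ∀ x, trL (ps (hop F o).p (hop F o).q x) = 8 := by
  classical
  obtain ⟨C, -, hC⟩ := h.good
  have S : Sub F (triv M ℝ) fun _ _ => 0 :=
    ⟨⟨fun _ _ => contMDiffAt_const, by simp⟩, fun _ _ _ _ => by simp, contMDiff_const,
      fun _ _ => by simp [nabE]⟩
  have T := S.ps (S.two h)
  have D : Pa F (hop F o) (tA (Om F.P F.Gam) fun _ _ => 0)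
      (sA (fun _ _ => 0) (tA (Om2 F.P F.Gam) fun _ _ => 0)) :=
    ⟨⟨C, hC⟩, h.cliff, S.one.con, T.con, S.one.sk, T.sk, S.one.par,
    T.par, ((par_pj (lc_gam F) (frm F) _).pr2 ((par_wd (lc_gam F) (frm F) _).comp (S := fun _ => 1)
      (fun _ => contMDiffAt_const) (S.two h).sm (fun _ _ => by simp [nabE]) (S.two h).par)).congr
        fun _ _ _ => rfl⟩
  refine ⟨_, D.dm h, fun x => ?_⟩
  have h1 : trL (triv M ℝ x) = 1 := by simp [trL_apply]
  have h4 : (Pm F.P x).trace = 4 := (h.vo x).tr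
  have h3 := trL_ix (Pm F.P x) (triv M ℝ x)
  have h5 := trL_ix (sdM (fun a b => F.P a b x) fun a b c d => o a b c d x) (triv M ℝ x)
  rw [h4, h1] at h3
  rw [trace_sdM (h.vo x), h1] at h5
  rw [ps, trL_sm2, show (hop F o).q x = sm2 _ _ from rfl, trL_sm2, h1]
  erw [h3, h5]
  norm_num

/-- **twice the square of a line is an integer** -/
theorem sq2 (h : OK F o) (hO : IsClopen O) (L : Li F l il A f) :
    ∃ n : ℤ, 2 * ∫ x in O, wf o f f x / (16 * Real.pi ^ 2) ∂F.μ = (n : ℝ) := by
  obtain ⟨W, D, h8⟩ := ex_dm h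
  have D := cx D
  obtain ⟨a, ha⟩ := D.char0 L h hO
  obtain ⟨b, hb⟩ := D.char0 L.neg h hO
  have c : ∀ f : M → ℝ, HasCompactSupport f := HasCompactSupport.of_compactSpace
  have s := fun {l il A f} (L : Li F (Y := Y) l il A f) => (integ (F := F) (fun x =>
    ((SA.mul (sa_trL (D.cc.sp x)) (sm_wf h L.sm_f L.sm_f x)).sub (SA.mul (contMDiffAt_const (c := (2 : ℝ)))
      (sm_wf h L.sm_f (fun a b x => sa_trL (SA.mul (SA.mul (contMDiffAt_const (c := clf 1)) (D.cc.sp x))
        ((frm F).sCurv (D.cc.sm · x) a b))) x))).div_const (128 * Real.pi ^ 2)) (c _)).integrableOn (s := O)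
  refine ⟨a + b, mul_left_cancel₀ two_ne_zero ?_⟩
  rw [Int.cast_add, mul_add, ← ha, ← hb, ← mul_assoc, ← integral_const_mul]
  refine (congrArg _ (_root_.funext fun x => ?_)).trans (integral_add (s L) (s L.neg))
  have := h8 x
  simp only [wf_neg, wf_comm h (f := f) (k := fun a b x => -f a b x), ps, trL_sm2] at this ⊢
  rw [this]
  ring

end Crest.Agent.X212.Sm10.Su
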