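import Crest.Agent.X212.Tm38.Sm
import Crest.Agent.X212.Sm10.Su1
import Crest.Agent.X212.Line51.Exl
import Crest.Agent.X212.Met55.Wld
import Crest.Agent.X212.Ms48.Main

/-!
# Row 212 (helper10): the pieces on one side of a wall; sums and integrality of their numbers
-/

set_option autoImplicit false
set_option linter.unusedSectionVars false
noncomputable section
open Set Function
open scoped ContDiff Manifold

namespace Crest.Agent.X212.Sm10.Sv
open M Sid48 Dr59 Num57 G75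

section sys
variable {X A : Type} [TopologicalSpace X] [PreconnectedSpace X] [Nonempty X] [Fintype A] [DecidableEq A]
  {S : Sys X A} {c d : Finset A} {a : A} {b : Bool} {π : Reg A}

theorem side_eq (h : S.IsReg π) (hs : S.U π ⊆ (S.w a).sd b) {e : Bool} (k : π a = some e) : e = b :=
  let ⟨_, hx⟩ := h.nonempty
  (S.w a).sd_inj (hx a e k) (hs hx)

theorem U_up : S.U π ⊆ S.U (update π a none) := fun x hx a' e k => by
  by_cases q : a' = a
  · subst q; simp at k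
  · exact hx a' e (by rwa [update_of_ne q] at k)

theorem U_eq (h : S.IsReg π) (hs : S.U π ⊆ (S.w a).sd b) :
    S.U π = S.U (update π a none) ∩ (S.w a).sd b :=
  Subset.antisymm (subset_inter U_up hs) fun x hx a' e k => by
    by_cases q : a' = a
    · subst q; exact side_eq h hs k ▸ hx.2
    · exact hx.1 a' e (by rwa [update_of_ne q])

variable (hc : S.Cell ↑(insert a c)) (ha : a ∉ c)
  (hd : ∀ x, x ∈ d ↔ x ∈ c ∧ (S.w x).band ⊆ (S.w a).sd b)
include hc ha hd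

theorem piece_up (h : S.Piece ↑(insert a c) π) (hs : S.U π ⊆ (S.w a).sd b) :
    S.Piece ↑d (update π a none) := by
  have bd : ∀ {x e}, update π a none x = some e → x ≠ a ∧ π x = some e := fun {x e} k => by
    have q : x ≠ a := by rintro rfl; simp at k
    exact ⟨q, by rwa [update_of_ne q] at k⟩
  refine ⟨⟨h.cell.mono fun x k => ?_, fun x e k => (h.adj x e (bd k).2).trans U_up⟩, fun x k => ?_,
    fun x k i => ?_⟩
  · exact let ⟨_, k⟩ := Sys.mem_bd.1 k; Sys.mem_bd_of (bd k).2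
  · obtain ⟨e, k⟩ := Sys.mem_bd.1 k
    have m := h.bd_subset (Sys.mem_bd_of (bd k).2)
    obtain ⟨z, hz⟩ := (S.w x).ne e
    exact (hd x).2 ⟨(Finset.mem_insert.1 m).resolve_left (bd k).1, Wall.band_subset
      (hc (Finset.mem_insert_self a c) m (bd k).1.symm) hz.1 (hs (h.adj x e (bd k).2 hz))⟩
  · obtain ⟨k1, k2⟩ := (hd x).1 k
    have q : x ≠ a := by rintro rfl; exact ha k1
    have n : π x = none := by have := i.1; rwa [update_of_ne q] at this
    have m : x ∈ (↑(insert a c) : Set A) := Finset.mem_insert_of_mem k1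
    exact h.not_inn x m ⟨n, (U_eq h.toIsReg hs).symm ▸ subset_inter i.2.1 k2, fun a' j =>
      hc m (h.bd_subset j) (by rintro rfl; exact j n)⟩

theorem surj_up {ρ : Reg A} (h : S.Piece ↑d ρ) : ∃ π, (S.Piece ↑(insert a c) π ∧
    S.U π ⊆ (S.w a).sd b) ∧ update π a none = ρ := by
  have m : a ∈ (↑(insert a c) : Set A) := Finset.mem_insert_self a c
  have s : (↑d : Set A) ⊆ ↑(insert a c) := fun x k => Finset.mem_insert_of_mem ((hd x).1 k).1
  obtain ⟨x, h1, h2, h3⟩ : ∃ x ∈ S.U ρ, x ∈ (S.w a).sd b ∧ x ∉ S.cores ↑(insert a c) := by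
    by_cases q : ∃ x e, ρ x = some e
    · obtain ⟨x, e, k⟩ := q
      have j := h.bd_subset (Sys.mem_bd_of k)
      obtain ⟨z, hz⟩ := (S.w x).ne e
      exact ⟨z, h.adj x e k hz, ((hd x).1 j).2 hz.1,
        Sys.not_mem_cores_of_half hc (fun a' i n => hc (s j) i n.symm) hz⟩
    · obtain ⟨z, hz⟩ := (S.w a).ne b
      exact ⟨z, fun x e k => (q ⟨x, e, k⟩).elim, hz.2,
        Sys.not_mem_cores_of_half hc (fun a' i n => hc m i n.symm) hz⟩
  obtain ⟨π, k1, k2⟩ := Sys.exists_piece hc h3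
  obtain ⟨e, k3⟩ := k1.side hc m
  obtain rfl := (S.w a).sd_inj (k3 k2) h2
  exact ⟨π, ⟨k1, k3⟩, (piece_up hc ha hd k1 k3).unique (hc.mono s) h (U_up k2) h1⟩

/-- sums over the pieces on one side -/
theorem sum_up {V : Type} [AddCommMonoid V] {R : Finset (Reg A)}
    (hR : ∀ π, π ∈ R ↔ S.Piece ↑(insert a c) π ∧ S.U π ⊆ (S.w a).sd b) (g : Reg A → V) :
    ∑ π ∈ R, g (update π a none) = ∑ ρ ∈ pcs S d, g ρ :=
  Finset.sum_bij (fun π _ => update π a none)
    (fun π k => mem_pcs.2 (piece_up hc ha hd ((hR π).1 k).1 ((hR π).1 k).2))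
    (fun π k π' k' e => by
      obtain ⟨h1, h2⟩ := (hR π).1 k
      obtain ⟨h3, h4⟩ := (hR π').1 k'
      obtain ⟨x, hx⟩ := h1.toIsReg.nonempty
      refine h1.unique hc h3 hx ?_
      rwa [U_eq h3.toIsReg h4, ← e, ← U_eq h1.toIsReg h2])
    (fun ρ k => let ⟨π, h1, h2⟩ := surj_up hc ha hd (mem_pcs.1 k); ⟨π, (hR π).2 h1, h2⟩)
    fun _ _ => rfl

end sys

variable {κ lam : Type} [Fintype κ] [Fintype lam] [DecidableEq lam] {Lm : LM κ lam} {S : Scene Lm}
  {i i' : S.L} {U : Set S.X.M}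

variable (S i) in
/-- `(b₁, b⁺, b⁻, F²)` -/
abbrev ν (U : Set S.X.M) := nu S.X.I S.M.o (FL S i) (FL S i) U

theorem nb_hl (h : HL S.X.I S.M.o U) (i : S.L) : ∃ β sg l2, S.Nb i U β sg l2 :=
  ⟨_, _, _, nb_of_lat i h.lat.some.h⟩

theorem ct {a : S.A} (hp : S.M.pin a) (h : IsOpen U) (s : (S.M.sys.w a).band ⊆ U) (b : Bool) :
    ∃ N, Ct S.X.I U (U ∩ (S.M.sys.w a).sd b) (U ∩ (S.M.sys.w a).sd !b) N :=
  have := S.M.con
  ⟨_, ct_sides (Cyl58.sides_band (S.M.bn a)) (Tm38.hz_rnd (S.M.rnd a hp)) h s b⟩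

theorem hl0 : HL S.X.I S.M.o univ :=
  have := S.M.cpt
  hl_univ S.M.ori

theorem hl_sd {a : S.A} (hp : S.M.pin a) (b : Bool) : HL S.X.I S.M.o ((S.M.sys.w a).sd b) :=
  let ⟨_, k⟩ := ct hp isOpen_univ (subset_univ _) b
  univ_inter ((S.M.sys.w a).sd b) ▸ k.hl hl0

/-- additivity inside `U` -/
theorem sum_in (i : S.L) (h : HL S.X.I S.M.o U) {c : Finset S.A} (hc : S.M.sys.Cell ↑c)
    (hp : ∀ a ∈ c, S.M.pin a ∧ (S.M.sys.w a).band ⊆ U) :
    (∀ ρ ∈ pcs S.M.sys c, HL S.X.I S.M.o (S.M.sys.U ρ ∩ U)) ∧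
      ∑ ρ ∈ pcs S.M.sys c, ν S i (S.M.sys.U ρ ∩ U) = ν S i U := by
  have := S.M.con
  have := Tm38.sum_pcs (P := fun W => HL S.X.I S.M.o (W ∩ U)) (ν := fun W => ν S i (W ∩ U))
    (by rwa [univ_inter]) hc fun a ha W w s => by
      have t := ct (hp a ha).1 w.op (subset_inter s (hp a ha).2)
      simp only [inter_right_comm W _ U]
      exact ⟨fun b => (t b).elim fun _ k => k.hl w,
        (t true).elim fun _ k => k.nu w (cl_FL w.op) (cl_FL w.op)⟩
  rwa [univ_inter] at this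

/-- isomorphic lines have the same numbers -/
theorem nu_uni (h : HL S.X.I S.M.o U) {w} (u : Line51.Uni S.X.I (S.N i).p (S.N i').p w U) :
    ν S i' U = ν S i U :=
  have e := Line51.Uni.ex_F (L := ⟨(S.N i).p, 0⟩) (L' := ⟨(S.N i').p, 0⟩) h.op u
    ((S.N i).ok.mono (subset_univ _)) ((S.N i').ok.mono (subset_univ _))
  h.nu_coh (cl_FL h.op) (cl_FL h.op) (cl_FL h.op) (cl_FL h.op) e e

/-- **half integrality** for capped pieces -/
theorem nb_half (hS : S.M.Spare) (hN : (S.N i).Spare) {c : S.M.Cl} {π : Reg S.A}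
    (h : S.M.sys.Piece c.1 π) (hp : ∀ a ∈ c.1, S.M.pin a) {β sg l2 : ℝ}
    (k : S.Nb i (S.M.sys.U π) β sg l2) : ∃ n : ℤ, 2 * (l2 - sg) = n := by
  classical
  have := S.M.cpt
  obtain ⟨C⟩ := Cyl58.caps S.X S.A κ S.M
  obtain ⟨m, r, hr⟩ := Met55.exists_frame (I := S.X.I) (M := S.X.M)
  obtain ⟨W, -, -⟩ := Met55.exw Ms48.ms1 S.X S.A κ S.M C
    ⟨m, fun _ => r, fun _ x _ i => .of_fixed ((hr x).sm i), fun _ x _ => (hr x).sp⟩ hS
  obtain ⟨Λ, -⟩ := Line51.exl S.X S.A κ lam S.M W (S.N i)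
    ⟨0, fun _ _ _ => Dr59.cAt_zero, fun _ => Dr59.Dg.zero,
      fun _ _ _ _ _ => by simpa [Num57.e1] using contMDiffAt_const⟩ hN
  have := Cyl58.caps_compact W.toCaps hp
  have hO : (0 : Prm S.A) ∈ S.M.O c.1 := fun _ _ => one_pos
  have hB := Λ.B_ok c c
  have hG := Λ.G_ok c hO
  obtain ⟨n, hn⟩ := Su.sq2 (OK.of_base (W.Z c).dim hB hG) (Cyl58.isClopen_pc W.toCaps h) (Idg99.li_of hB hG)
  have e := (nb_int h (fun a j => hp a (h.bd_subset j)) Λ c hO k).2.2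
  rw [← lad99 hB hG] at e
  obtain ⟨_, _, _, _, d, -, -, rfl, -⟩ := k
  refine ⟨n - 2 * (({n | 0 < d n}.ncard : ℤ) - {n | d n < 0}.ncard), ?_⟩
  rw [mul_sub, ← e]
  push_cast
  exact congrArg (· - _) hn

end Crest.Agent.X212.Sm10.Sv
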