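import Crest.Agent.X212.Sm10.Su2
import Crest.Agent.X212.Nd18.Fk
import Crest.Agent.X212.Fex7.Iso

/-!
# Row 212 (helper10): the fields `sL`, `sR` of `Fk18.Z1.Sm` and `Fk18.IntStmt`
-/

set_option autoImplicit false
set_option linter.unusedSectionVars false
noncomputable section
open Set Function Classical
open scoped ContDiff Manifold

namespace Crest.Agent.X212.Sm10.Sw
open M Sid48 Dr59 Num57 G75 Fk18 Sv
open Br55 (CN)

variable {κ lam : Type} [Fintype κ] [Fintype lam] [DecidableEq lam]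

theorem cmp_tr {X X' : Mf 4} {A A' A₀ : Type} [Fintype A] [Fintype A'] [Fintype A₀] {M : Mark X A κ}
    {M' : Mark X' A' κ} (I : MId M M' A₀) {a b : A₀} (h : M.sys.Cmp (I.f a) (I.f b)) :
    M'.sys.Cmp (I.f' a) (I.f' b) := by
  refine disjoint_left.2 ?_
  rintro _ ⟨⟨y, s⟩, rfl⟩ ⟨⟨y', s'⟩, e⟩
  obtain ⟨y, rfl⟩ := (I.g a).surjective y
  obtain ⟨y', rfl⟩ := (I.g b).surjective y'
  have k := I.ψ.injOn (I.sub b ⟨(y', s'), rfl⟩) (I.sub a ⟨(y, s), rfl⟩)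
    ((I.jj b (y', s')).trans (e.trans (I.jj a (y, s)).symm))
  exact disjoint_left.1 h ⟨(y, s), rfl⟩ ⟨(y', s'), k⟩

variable {Lm : LM κ lam} {y : G75.YD κ lam} {S : Scene Lm}

section t
variable {t : TD y S} {R : ℕ} {c : Cn S.L S.A} (hy : y.OK) (ht : t.OK R c)
include hy ht

theorem pin_s : S.M.pin t.s := by
  rw [← show t.IH.f' 2 = t.s from congrFun ht.hf0.2 2, t.IH.pin, show t.IH.f 2 = y.s from congrFun ht.hf0.1 2]
  exact hy.pin.2.2.1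

theorem a_sub_h : (S.M.sys.w t.a).sd false ⊆ (S.M.sys.w t.h).sd false := by
  have := S.M.con
  have k : S.M.sys.Cmp t.a t.h := by
    rw [← show t.IH.f' 0 = t.a from congrFun ht.hf0.2 0, ← show t.IH.f' 1 = t.h from congrFun ht.hf0.2 1]
    refine cmp_tr _ ?_
    rw [show t.IH.f 0 = y.a from congrFun ht.hf0.1 0, show t.IH.f 1 = y.h from congrFun ht.hf0.1 1]
    exact hy.ah.1
  exact subset_union_left.trans (Wall.nest k (Fex7.a_h hy ht).2 (Fex7.a_h hy ht).1)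

theorem h_sub_s : (S.M.sys.w t.h).sd false ⊆ (S.M.sys.w t.s).sd false := by
  have := S.M.con
  have e1 : t.IH.f 1 = y.h := congrFun ht.hf0.1 1
  have e2 : t.IH.f 2 = y.s := congrFun ht.hf0.1 2
  rw [← show t.IH.f' 2 = t.s from congrFun ht.hf0.2 2, ← show t.IH.f' 1 = t.h from congrFun ht.hf0.2 1]
  exact subset_union_left.trans (Wall.nest (b := true) (cmp_tr _ (by rw [e1, e2]; exact hy.hs.1))
    (Fex7.band_sub _ (by rw [e1, e2]; exact hy.hs.2)) (Fex7.band_sub _ (by rw [e1, e2]; exact hy.rev.2.1)))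

end t

/-- **INT** -/
theorem int : IntStmt Lm := fun _ S t _ _ _ hy ht hc _ => by
  have := S.M.con
  have k : S.M.sys.Cell {t.s} := pairwise_singleton _ _
  obtain ⟨π, ⟨h1, h2⟩, -⟩ := Sys.existsUnique_adj k rfl false
  refine nb_half (c := ⟨{t.s}, k⟩) (β := t.β₀) hc.ok.sp (hc.ok.spl t.i₀) h1
    (by rintro _ rfl; exact pin_s hy ht) ?_
  rw [show S.M.sys.U π = (S.M.sys.w t.s).sd false from Subset.antisymm (fun x j => j _ _ h2)
    fun x j a b q => by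
      obtain rfl : a = t.s := h1.bd_subset (Sys.mem_bd_of q)
      rwa [← Option.some.inj (h2.symm.trans q)]]
  exact ht.nb

theorem nu_nb {t : TD y S} {i i' : S.L} {π : Reg S.A} {U : Set S.X.M} (h : HL S.X.I S.M.o U)
    (k : ∀ β sg l2, S.Nb i' U β sg l2 → NbR t i π β sg l2) :
    bR t i π = 1 - (ν S i' U).1 + (ν S i' U).2.1 ∧
      sR t i π = (ν S i' U).2.2.2 / (2 * Real.pi) ^ 2 - ((ν S i' U).2.1 - (ν S i' U).2.2.1) := by
  obtain ⟨β, sg, l2, j⟩ := nb_hl h i'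
  rw [bR, sR, nu_eq (k _ _ _ j)]
  exact Tm38.nb_nu j

variable {P : Pk y} {z : Z0 P S} {R : ℕ} {T : ℝ} {Z : Z1 z} (hz : z.OK R) (hZ : Z.OK T)
include hz hZ

theorem a_pe : z.t.a ∉ pe Z.e := fun k => (hz.cn.ok.fz _ hz.t.fz.1).1 (Finset.mem_filter.1 k).2.2

theorem cell_pe : S.M.sys.Cell ↑(insert z.t.a (pe Z.e)) := Z.e.2.mono fun _ k =>
  (Finset.mem_insert.1 k).elim (fun e => e ▸ hZ.a) fun k => (Finset.mem_filter.1 k).2.1

/-- the sums over the regions on one side -/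
theorem sum_rg (b : Bool) (i : S.L) {U : Set S.X.M} (h : HL S.X.I S.M.o U) (s : (S.M.sys.w z.t.a).sd b ⊆ U)
    (k : ∀ π ∈ Z.Rg b, HL S.X.I S.M.o (z.t.op π ∩ U) → ∀ β sg l2, S.Nb i (z.t.op π ∩ U) β sg l2 →
      NbR z.t Z.i π β sg l2) {β sg l2 : ℝ} (n : S.Nb i U β sg l2) :
    ∑ π ∈ Z.Rg b, bR z.t Z.i π = β + (z.t.sd b (pe Z.e)).card ∧ ∑ π ∈ Z.Rg b, sR z.t Z.i π = l2 - sg := by
  have := S.M.con
  have hc := cell_pe hz hZ
  have ha := a_pe hz hZ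
  have hd : ∀ x, x ∈ z.t.sd b (pe Z.e) ↔ x ∈ pe Z.e ∧ (S.M.sys.w x).band ⊆ (S.M.sys.w z.t.a).sd b :=
    fun x => Finset.mem_filter
  have hR : ∀ π, π ∈ Z.Rg b ↔ S.M.sys.Piece ↑(insert z.t.a (pe Z.e)) π ∧
      S.M.sys.U π ⊆ (S.M.sys.w z.t.a).sd b := fun π => by simp [Z1.Rg, Fk18.Rg, TD.Pc]
  have c' : S.M.sys.Cell ↑(z.t.sd b (pe Z.e)) := hc.mono fun x q => Finset.mem_insert_of_mem ((hd x).1 q).1
  obtain ⟨h1, h2⟩ := sum_in i h c' fun x q =>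
    ⟨(Finset.mem_filter.1 ((hd x).1 q).1).2.2, ((hd x).1 q).2.trans s⟩
  have e := fun π q => nu_nb (h1 _ (mem_pcs.2 (piece_up hc ha hd ((hR π).1 q).1 ((hR π).1 q).2)))
    (k π q (h1 _ (mem_pcs.2 (piece_up hc ha hd ((hR π).1 q).1 ((hR π).1 q).2))))
  rw [Finset.sum_congr rfl fun π q => (e π q).1, Finset.sum_congr rfl fun π q => (e π q).2,
    sum_up hc ha hd hR fun ρ => 1 - (ν S i (S.M.sys.U ρ ∩ U)).1 + (ν S i (S.M.sys.U ρ ∩ U)).2.1,
    sum_up hc ha hd hR fun ρ => (ν S i (S.M.sys.U ρ ∩ U)).2.2.2 / (2 * Real.pi) ^ 2 -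
      ((ν S i (S.M.sys.U ρ ∩ U)).2.1 - (ν S i (S.M.sys.U ρ ∩ U)).2.2.1),
    (Tm38.nb_nu n).2, (Tm38.nb_nu n).1, show nu _ _ _ _ U = ν S i U from rfl, ← h2]
  simp only [Finset.sum_add_distrib, Finset.sum_sub_distrib, Prod.fst_sum, Prod.snd_sum, Finset.sum_div,
    Finset.sum_const, card_pcs c', nsmul_eq_mul, Nat.cast_add, Nat.cast_one, and_true]
  ring

/-- **`Sm.sL`** -/
theorem sL : ∑ π ∈ Z.Rg false, bR z.t Z.i π = z.t.β₀ + (z.t.sd false (pe Z.e)).card ∧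
    ∑ π ∈ Z.Rg false, sR z.t Z.i π = z.t.l₀ - z.t.s₀ := by
  have s1 := a_sub_h hz.p.y hz.t
  have s2 := s1.trans (h_sub_s hz.p.y hz.t)
  refine sum_rg hz hZ false z.t.i₀ (hl_sd (pin_s hz.p.y hz.t) false) s2 (fun π q h β sg l2 n => ?_) hz.t.nb
  unfold NbR
  split_ifs with j
  · exact n
  obtain ⟨q1, q2⟩ : z.t.Pc false (pe Z.e) π := by simpa [Z1.Rg, Fk18.Rg] using q
  have := S.M.con
  have n0 : π z.t.a = none := by
    rcases e : π z.t.a with _ | b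
    exacts [rfl, (j (side_eq q1.toIsReg q2 e ▸ e)).elim]
  have e : z.t.op π = S.M.sys.U π := by rw [TD.op, update_eq_self_iff.2 n0.symm]
  rw [e, inter_eq_left.2 (q2.trans s2)] at h n
  rw [e]
  have u := nu_uni h ((hz.t.left Z.i).uni.mono (q2.trans (s1.trans subset_union_left)))
  obtain ⟨_, _, _, f, d, k, -⟩ := id n
  obtain ⟨rfl, rfl, rfl⟩ := nb_eq n k
  have v := congrArg (·.2.2.2) u
  simp only [ν, Lat.nu k (cl_FL k.op) (cl_FL k.op)] at v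
  exact v ▸ nb_of_lat Z.i k

/-- **`Sm.sR`** -/
theorem sR' : ∑ π ∈ Z.Rg true, (sR z.t Z.i π / 2 - 3 * bR z.t Z.i π) =
    Ins26.d0 S Z.i - 3 * (z.t.sd true (pe Z.e)).card := by
  obtain ⟨β, sg, l2, n, e⟩ := epsilon_spec (p := fun x => ∃ β sg l2, S.Nb Z.i univ β sg l2 ∧
    x = (l2 - sg) / 2 - 3 * β) (let ⟨β, sg, l2, n⟩ := nb_hl hl0 Z.i; ⟨_, β, sg, l2, n, rfl⟩)
  obtain ⟨h1, h2⟩ := sum_rg hz hZ true Z.i hl0 (subset_univ _) (fun π q _ β sg l2 n => by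
    obtain ⟨q1, q2⟩ : z.t.Pc true (pe Z.e) π := by simpa [Z1.Rg, Fk18.Rg] using q
    have := S.M.con
    rw [NbR, if_neg fun j => Bool.false_ne_true (side_eq q1.toIsReg q2 j)]
    rwa [inter_univ] at n) n
  rw [Finset.sum_sub_distrib, ← Finset.sum_div, ← Finset.mul_sum, h1, h2, Ins26.d0, e]
  ring

end Crest.Agent.X212.Sm10.Sw
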