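import Crest.Agent.X212.Sm10.In

/-!
# X212 / Sm10 (helper10): going up the tower (`near : NearStmt`, `up : UpStmt`)
-/

set_option autoImplicit false
set_option linter.unusedSectionVars false

open Set Filter Topology Function
open scoped NNReal Real
open Crest.Agent.X212.Ext52 Crest.Agent.X212.Hp13

noncomputable section

namespace Crest.Agent.X212.Sm10

section

variable {P Q S : Type*} [PartialOrder P] [Fintype P] [PartialOrder Q] [Fintype Q] [PartialOrder S]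
  [Fintype S] {E : Type*} [NormedAddCommGroup E] [NormedSpace ℝ E] {R : Real P E} {R' : Real Q E}
  {R'' : Real S E} {f : Q → P} {g : S → Q}

theorem Real.lam_x_self (R : Real P E) (s : P) : R.lam s (R.x s) = 1 := by
  classical
  simp [Real.lam, Real.wt_x]

theorem Real.eq_of_lam_x (R : Real P E) {s t : P} (h : R.lam s (R.x t) ≠ 0) : s = t := by
  classical
  by_contra n
  simp [Real.lam, Real.wt_x, n] at h

/-- a fine simplex lies in a coarse simplex -/
theorem Ref.spx_chain (h : Ref R R') {d : Set Q} (hd : IsChain (· ≤ ·) d) :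
    ∃ c, IsChain (· ≤ ·) c ∧ R'.spx d ⊆ R.spx c := by
  rcases d.eq_empty_or_nonempty with rfl | ⟨u, hu⟩
  · refine ⟨∅, by simp [IsChain], fun p hp => ?_⟩
    exact ((Real.wt_mem hp.1).ne_zero (by simpa using hp.2)).elim
  obtain ⟨y, -, y1, y2⟩ := R'.exists_interior hd hu univ_mem
  have y3 : y ∈ R.B := h.B_eq ▸ y1
  refine ⟨_, (Real.wt_mem y3).chain, fun p hp => ⟨h.B_eq ▸ hp.1, fun s hs => ?_⟩⟩
  obtain ⟨c, c1, c2⟩ := h.exists_support (h.B_eq ▸ hp.1) hs
  exact h.support_subset y3 (show c ∈ support _ from y2 ▸ hp.2 c1) c2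

theorem Tw.refl (R : Real P E) : Tw R R id :=
  ⟨Ref.refl R, monotone_id, fun c => by simp [R.lam_x_self], fun _ _ h => (R.eq_of_lam_x h).le⟩

theorem Tw.x_mem (h : Tw R R' f) (c : Q) : R'.x c ∈ R.B := h.B_eq ▸ R'.x_mem c

theorem Tw.trans (h : Tw R R' f) (k : Tw R' R'' g) : Tw R R'' (f ∘ g) := by
  have m : ∀ c, R''.x c ∈ R.B := fun c => h.B_eq ▸ k.x_mem c
  refine ⟨h.toRef.trans k.toRef, h.mono.comp k.mono,
    fun c => h.support_subset (m c) (k.ne c) (h.ne _), fun c x hx => ?_⟩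
  obtain ⟨d, d1, d2⟩ := h.exists_support (m c) hx
  exact (h.le d x d2).trans (h.mono (k.le c d d1))

theorem Tw.lam_ne (h : Tw R R' f) {p : E} (hp : p ∈ R.B) {c : Q} (hc : R'.lam c p ≠ 0) :
    R.lam (f c) p ≠ 0 := h.support_subset hp hc (h.ne c)

theorem Tw.exists_le (h : Tw R R' f) {p : E} (hp : p ∈ R.B) {s : P} (hs : R.lam s p ≠ 0) :
    ∃ c, R'.lam c p ≠ 0 ∧ s ≤ f c :=
  let ⟨c, c1, c2⟩ := h.exists_support hp hs; ⟨c, c1, h.le c s c2⟩

/-- the subcomplex of a lower set does not move -/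
theorem Tw.spx_low (h : Tw R R' f) {W : Set P} (hW : IsLowerSet W) : R'.spx (f ⁻¹' W) = R.spx W := by
  ext p
  refine ⟨fun k => ⟨h.B_eq ▸ k.1, fun s hs => ?_⟩,
    fun k => ⟨h.B_eq ▸ k.1, fun c hc => k.2 (h.lam_ne k.1 hc)⟩⟩
  obtain ⟨c, c1, c2⟩ := h.exists_le (h.B_eq ▸ k.1) hs
  exact hW c2 (k.2 c1)

theorem Real.pl_add_const {F : Type*} [NormedAddCommGroup F] [NormedSpace ℝ F] (u : P → F) (v : F)
    {p : E} (hp : p ∈ R.B) : R.pl (fun s => u s + v) p = R.pl u p + v := by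
  exact (cmb_add u (fun _ => v) _).trans (congrArg _ (Real.pl_const v hp))

theorem Cir.tw (h : Tw R R' f) {W : Set P} (hW : IsLowerSet W) {z : P → P → ℤ}
    (hz : ∀ x ∈ W, ∀ y ∈ W, ∀ w ∈ W, x ≤ y → y ≤ w → z x w = z x y + z y w) {a : P → ℝ}
    {Θ : E → Circle} (hc : Cir R W z a Θ) :
    Cir R' (f ⁻¹' W) (fun c d => z (f c) (f d)) (fun c => R.pl (fun s => a s - z s (f c)) (R'.x c)) Θ := by
  intro p hp t ht hu
  rw [h.spx_low hW] at hp
  rw [hc p hp (f t) ht fun s hs => let ⟨c, c1, c2⟩ := h.exists_le hp.1 hs; c2.trans (h.mono (hu c c1)),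
    h.pl_eq _ hp.1]
  congr 2
  refine Real.pl_congr fun d hd => ?_
  have k := hW (h.mono (hu d hd)) ht
  rw [sub_eq_add_neg, ← Real.pl_add_const _ _ (h.x_mem d)]
  refine Real.pl_congr fun s hs => ?_
  rw [hz s (hW (h.le d s hs) k) _ k _ ht (h.le d s hs) (h.mono (hu d hd))]
  push_cast
  ring

theorem Cir.shift {W : Set P} {z : P → P → ℤ} {a : P → ℝ} {Θ : E → Circle} (hc : Cir R W z a Θ)
    (g : P → ℤ) : Cir R W (fun s t => z s t + (g t - g s)) (fun s => a s - g s) Θ := by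
  intro p hp t ht hu
  rw [hc p hp t ht hu, Circle.exp_eq_exp]
  refine ⟨g t, ?_⟩
  rw [mul_comm (g t : ℝ), ← mul_add, ← Real.pl_add_const _ _ hp.1]
  congr 1
  refine Real.pl_congr fun s _ => ?_
  push_cast
  ring

theorem Cir.congr {W : Set P} {z z' : P → P → ℤ} {a a' : P → ℝ} {Θ : E → Circle} (hc : Cir R W z a Θ)
    (hz : ∀ s ∈ W, ∀ t ∈ W, s ≤ t → z s t = z' s t) (ha : ∀ s ∈ W, a s = a' s) : Cir R W z' a' Θ := by
  intro p hp t ht hu
  rw [hc p hp t ht hu, Real.pl_congr fun s hs => by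
    rw [hz s (hp.2 hs) t ht (hu s hs), ha s (hp.2 hs)]]

end

theorem Der.tw {P : Type} [PartialOrder P] [Fintype P] {E : Type*} [NormedAddCommGroup E]
    [NormedSpace ℝ E] {R : Real P E} {R' : Real (Ch P) E}
    (h : Der (fun c : Ch P => (c.1 : Set P)) R R') : Tw R R' Ch.top :=
  ⟨h.toRef, Ch.top_mono, fun c => show c.top ∈ support _ from h.supp c ▸ c.top_mem,
    fun c _ hx => Ch.le_top ((h.supp c).le hx)⟩

theorem near : NearStmt := by
  intro s t f h R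
  induction' h with t f _ ih <;> intro V hV
  · exact ⟨R, Tw.refl R, fun c => mem_of_mem_nhdsWithin (R.x_mem c) (hV c)⟩
  obtain ⟨R', h1, h2⟩ := ih (fun x => {p | V x ∈ 𝓝[R.B] p}) fun x =>
    eventually_eventually_nhdsWithin.2 (hV x)
  obtain ⟨R'', k1, k2⟩ := R'.exists_near (sd_ch t.P) Ch.top (fun c => c.top_mem)
    (fun c => V (f c.top)) fun c => nhdsWithin_mono _ (fun _ h => h1.B_eq ▸ h.1) (h2 c.top)
  exact ⟨R'', h1.trans k1.tw, k2⟩

theorem up : UpStmt := by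
  intro k η s hA g
  refine ⟨fun x => {p | x ∈ g.W → g.R.pl (fun y => g.a y - g.z y x) p ∈ Ioo (0 : ℝ) 1}, fun x => ?_,
    fun t f e R' h hV => ?_⟩
  · by_cases hx : x ∈ g.W
    · have := (g.R.continuousOn_pl fun y => g.a y - g.z y x) _ (g.R.x_mem x)
      refine mem_of_superset (this (isOpen_Ioo.mem_nhds ?_)) fun _ k _ => k
      have z0 : g.z x x = 0 := by simpa using g.coc x hx x hx x hx le_rfl le_rfl
      simpa [z0] using g.a_mem x hx
    · exact univ_mem' fun _ k => (hx k).elim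
  have O : R'.spx t.Aᶜ = {p | p ∈ R'.B ∧ g.ρ p ≤ g.r0} := by
    rw [e, ← preimage_compl, h.spx_low hA.compl, g.spx_O, h.B_eq]
  refine ⟨⟨R', g.L, h.B_eq ▸ g.mem_B, h.B_eq ▸ g.far, fun d hd p hp q hq => ?_, g.ρ, g.r0, g.r0_mem,
    fun p hp => ?_, h.B_eq ▸ g.ρ_near, g.ρ_lip, fun x => ?_, O, f ⁻¹' g.W, g.low.preimage h.mono,
    h.spx_low g.low ▸ g.mem_W, h.spx_low g.low ▸ g.W_far, fun a ha x hx => g.star (f a) (by
      rwa [e] at ha) _ (hx.imp (fun k => h.mono k) fun k => h.mono k), pb f g.z,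
    fun x hx y hy w hw e1 e2 => g.coc _ hx _ hy _ hw (h.mono e1) (h.mono e2),
    fun x hx y hy e1 => g.mono _ hx _ hy (h.mono e1), g.δ, g.c,
    fun c => g.R.pl (fun y => g.a y - g.z y (f c)) (R'.x c), fun c hc => hV c hc,
    (g.cir.tw h g.low g.coc).congr (fun _ _ _ _ _ => rfl) fun c _ => ?_,
    h.spx_low g.low ▸ g.δ_near, g.δ_lip⟩, rfl, rfl, rfl, rfl, rfl, rfl, rfl⟩
  · obtain ⟨c, c1, c2⟩ := h.spx_chain hd
    exact g.mesh c c1 p (c2 hp) q (c2 hq)
  · rw [h.B_eq] at hp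
    rw [g.ρ_pl p hp, h.pl_eq _ hp]
    exact Real.pl_congr fun c _ => (g.ρ_pl _ (h.x_mem c)).symm
  · rw [← not_iff_not, not_lt]
    exact (R'.x_mem_spx (c := t.Aᶜ)).symm.trans (by rw [O]; exact and_iff_right (R'.x_mem x))
  · rw [add_comm, ← Real.pl_add_const _ _ (h.x_mem c)]
    exact Real.pl_congr fun s _ => by ring

end Crest.Agent.X212.Sm10
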